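import Vale.Agent.P363.Ext.Heat.Taylor

/-!
Five traces on the plane control even data to parabolic degree eight.
-/

noncomputable section

namespace Vale.Agent.P363.Ext.Heat

open MeasureTheory Filter Set
open scoped BigOperators Topology

variable {κ : ℝ} {g : ℝ × ℝ → ℝ}

/-- Interpolation through five nodes. -/
theorem five_node {K b0 b1 b2 b3 b4 : ℝ}
    (h : ∀ j : Fin 5, |b0 + b1 * ((j : ℕ) + 1) + b2 * ((j : ℕ) + 1) ^ 2 + b3 * ((j : ℕ) + 1) ^ 3 +
      b4 * ((j : ℕ) + 1) ^ 4| ≤ K) :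
    |b0| ≤ 60 * K ∧ |b1| ≤ 60 * K ∧ |b2| ≤ 60 * K ∧ |b3| ≤ 60 * K ∧ |b4| ≤ 60 * K := by
  have e1 := abs_le.1 (h 0)
  have e2 := abs_le.1 (h 1)
  have e3 := abs_le.1 (h 2)
  have e4 := abs_le.1 (h 3)
  have e5 := abs_le.1 (h 4)
  norm_num at e1 e2 e3 e4 e5
  refine ⟨?_, ?_, ?_, ?_, ?_⟩ <;>
    rw [abs_le] <;> constructor <;> linarith [e1.1, e1.2, e2.1, e2.2, e3.1, e3.2, e4.1, e4.2,
      e5.1, e5.2]

/-- The expansion on the plane of even data. -/
theorem avgTaylor_plane (hodd : ∀ m, Odd m → heatAvg κ g m 0 0 = 0) (ρ x : ℝ) :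
    avgTaylor κ g 0 (x * ρ ^ 2) 0 = heatAvg κ g 0 0 0 +
      heatAvg κ g 2 0 0 * (-κ * ρ ^ 2) * x + heatAvg κ g 4 0 0 * ((-κ * ρ ^ 2) ^ 2 / 2) * x ^ 2 +
      heatAvg κ g 6 0 0 * ((-κ * ρ ^ 2) ^ 3 / 6) * x ^ 3 +
      heatAvg κ g 8 0 0 * ((-κ * ρ ^ 2) ^ 4 / 24) * x ^ 4 := by
  simp [avgTaylor, hq, Caloric.heatPoly, Finset.sum_range_succ, Nat.factorial,
    hodd 1 (by decide), hodd 3 (by decide), hodd 5 (by decide), hodd 7 (by decide),
    hodd 9 (by decide)]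
  ring

/-- Size of the normalised heat polynomials on a parabolic box. -/
theorem exists_hq_bound (hκ : 0 < κ) : ∃ D : ℝ, 0 ≤ D ∧ ∀ i < 10, ∀ t s ρ : ℝ, 0 ≤ t →
    t ≤ 5 * ρ ^ 2 → |s| ≤ ρ → |hq κ i t s| ≤ D * ρ ^ i := by
  set d : ℕ → ℝ := fun i => (∑ j ∈ Finset.range (i / 2 + 1),
    (i.factorial : ℝ) / (j.factorial * (i - 2 * j).factorial) * (5 * κ) ^ j) / i.factorial
  have hd : ∀ i, 0 ≤ d i := fun i => by positivity
  refine ⟨∑ i ∈ Finset.range 10, d i, Finset.sum_nonneg fun i _ => hd i,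
    fun i hi t s ρ ht0 ht hs => ?_⟩
  refine le_trans ?_ (mul_le_mul_of_nonneg_right (Finset.single_le_sum (fun i _ => hd i)
    (Finset.mem_range.2 hi)) (pow_nonneg ((abs_nonneg s).trans hs) i))
  rw [hq, abs_div, Nat.abs_cast, div_mul_eq_mul_div, Finset.sum_mul]
  refine div_le_div_of_nonneg_right ((Finset.abs_sum_le_sum_abs _ _).trans
    (Finset.sum_le_sum fun j hj => ?_)) (by positivity)
  have hj2 : 2 * j + (i - 2 * j) = i := by
    have := Finset.mem_range.1 hj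
    omega
  rw [abs_mul, abs_mul, abs_of_nonneg (a := (i.factorial : ℝ) / _) (by positivity), abs_pow,
    abs_pow, abs_mul, abs_neg, abs_of_pos hκ, abs_of_nonneg ht0]
  calc (i.factorial : ℝ) / (j.factorial * (i - 2 * j).factorial) * (κ * t) ^ j * |s| ^ (i - 2 * j)
      ≤ (i.factorial : ℝ) / (j.factorial * (i - 2 * j).factorial) * (κ * (5 * ρ ^ 2)) ^ j *
          ρ ^ (i - 2 * j) := by gcongr
    _ = (i.factorial : ℝ) / (j.factorial * (i - 2 * j).factorial) * (5 * κ) ^ j *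
          ρ ^ (2 * j + (i - 2 * j)) := by rw [pow_add, pow_mul]; ring
    _ = _ := by rw [hj2]

/-- Five traces control all the coefficients. -/
theorem exists_coeff_bound (hκ : 0 < κ) (N : ℕ) : ∃ L : ℝ, 0 ≤ L ∧
    ∀ (g : ℝ × ℝ → ℝ) (T A B ρ : ℝ), LateData g N T A →
      (∀ τ θ, g (τ, -θ) = g (τ, θ)) → 0 < ρ → 10 * ρ ^ 2 ≤ T →
      (∀ j : Fin 5, |heatAvg κ g 0 (((j : ℕ) + 1) * ρ ^ 2) 0| ≤ B) →
      ∀ i < 10, |heatAvg κ g i 0 0| * ρ ^ i ≤ L * (B + A * (ρ ^ 2 / T) ^ 5) := by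
  obtain ⟨C, hC⟩ := taylor κ hκ N
  refine ⟨60 * (1 + max C 0) * 24 * (1 + 1 / κ) ^ 4, by positivity,
    fun g T A B ρ h heven hρ hT hB i hi => ?_⟩
  have hodd : ∀ m, Odd m → heatAvg κ g m 0 0 = 0 := fun m hm => heatAvg_odd_zero heven hm 0
  set ε := (ρ ^ 2 / T) ^ 5
  set M := B + A * ε
  have hε : 0 ≤ ε := by have := h.pos; positivity
  have hAε : 0 ≤ A * ε := mul_nonneg h.A_nonneg hε
  have hB0 : 0 ≤ B := (abs_nonneg _).trans (hB 0)
  have key : ∀ j : Fin 5, |avgTaylor κ g 0 (((j : ℕ) + 1) * ρ ^ 2) 0| ≤ (1 + max C 0) * M := by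
    intro j
    have ht : ((j : ℕ) + 1 : ℝ) * ρ ^ 2 ≤ 5 * ρ ^ 2 := by
      refine mul_le_mul_of_nonneg_right ?_ (sq_nonneg ρ)
      exact_mod_cast j.2
    have hR := hC g T A ρ h hρ hT (((j : ℕ) + 1) * ρ ^ 2) 0 (by positivity) ht
      (by simpa using hρ.le) 0 (by norm_num)
    rw [avgTaylor_eq, pow_zero, div_one, mul_assoc] at hR
    have h2 : C * (A * ε) ≤ max C 0 * (A * ε) :=
      mul_le_mul_of_nonneg_right (le_max_left _ _) hAε
    have h3 : 0 ≤ max C 0 * B := mul_nonneg (le_max_right _ _) hB0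
    obtain ⟨a1, a2⟩ := abs_le.1 hR
    obtain ⟨b1, b2⟩ := abs_le.1 (hB j)
    rw [abs_le]
    constructor <;> nlinarith
  simp only [avgTaylor_plane hodd] at key
  obtain ⟨k0, k2, k4, k6, k8⟩ := five_node key
  set q := 1 + 1 / κ
  have hq1 : 1 ≤ q := le_add_of_nonneg_right (by positivity)
  have hM : 0 ≤ 60 * ((1 + max C 0) * M) := (abs_nonneg _).trans k0
  have hget : ∀ (k : ℕ) (c : ℝ), k ≤ 4 → |c| * (κ * ρ ^ 2) ^ k / k.factorial ≤
      60 * ((1 + max C 0) * M) → |c| * ρ ^ (2 * k) ≤ 60 * (1 + max C 0) * 24 * q ^ 4 * M := by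
    intro k c hk hb
    have hkf : (k.factorial : ℝ) * (1 / κ) ^ k ≤ 24 * q ^ 4 := by
      refine mul_le_mul ?_ ?_ (by positivity) (by norm_num)
      · exact_mod_cast (Nat.factorial_le hk).trans (by decide)
      · exact (pow_le_pow_left₀ (by positivity) (le_add_of_nonneg_left zero_le_one) k).trans
          (pow_le_pow_right₀ hq1 hk)
    calc |c| * ρ ^ (2 * k)
        = |c| * (κ * ρ ^ 2) ^ k / k.factorial * ((k.factorial : ℝ) * (1 / κ) ^ k) := by
          rw [mul_pow, pow_mul, one_div, inv_pow]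
          field_simp
      _ ≤ 60 * ((1 + max C 0) * M) * (24 * q ^ 4) := mul_le_mul hb hkf (by positivity) hM
      _ = _ := by ring
  have habs : ∀ (c : ℝ) (k : ℕ) (f : ℝ), 0 < f →
      |c * ((-κ * ρ ^ 2) ^ k / f)| = |c| * (κ * ρ ^ 2) ^ k / f := fun c k f hf => by
    rw [abs_mul, abs_div, abs_pow, abs_mul, abs_neg, abs_of_pos hκ, abs_of_nonneg (sq_nonneg ρ),
      abs_of_pos hf, mul_div_assoc]
  rw [habs _ 2 2 two_pos] at k4
  rw [habs _ 3 6 (by norm_num)] at k6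
  rw [habs _ 4 24 (by norm_num)] at k8
  rw [show -κ * ρ ^ 2 = (-κ * ρ ^ 2) ^ 1 / 1 by simp, habs _ 1 1 one_pos] at k2
  have h0 : ∀ m, Odd m → |heatAvg κ g m 0 0| * ρ ^ m ≤ 60 * (1 + max C 0) * 24 * q ^ 4 * M := by
    intro m hm
    rw [hodd m hm, abs_zero, zero_mul]
    have : 0 ≤ 60 * ((1 + max C 0) * M) * (24 * q ^ 4) := mul_nonneg hM (by positivity)
    linarith
  interval_cases i
  · exact hget 0 _ (by norm_num) (by simpa using k0)
  · exact h0 1 (by decide)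
  · exact hget 1 _ (by norm_num) (by simpa using k2)
  · exact h0 3 (by decide)
  · exact hget 2 _ (by norm_num) (by simpa [Nat.factorial] using k4)
  · exact h0 5 (by decide)
  · exact hget 3 _ (by norm_num) (by simpa [Nat.factorial] using k6)
  · exact h0 7 (by decide)
  · exact hget 4 _ (by norm_num) (by simpa [Nat.factorial] using k8)
  · exact h0 9 (by decide)

/-- Five traces on the plane control even data to degree eight. -/
theorem node : NodeStmt := by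
  intro κ hκ N
  obtain ⟨L, hL0, hL⟩ := exists_coeff_bound hκ N
  obtain ⟨D, hD0, hD⟩ := exists_hq_bound hκ
  obtain ⟨C, hC⟩ := taylor κ hκ N
  refine ⟨10 * (L * D) + max C 0, fun g T A B ρ h heven hρ hT hB => ?_⟩
  set ε := (ρ ^ 2 / T) ^ 5
  set M := B + A * ε
  have hB0 : 0 ≤ B := (abs_nonneg _).trans (hB 0)
  have hAε : 0 ≤ A * ε := mul_nonneg h.A_nonneg (by have := h.pos; positivity)
  have hall : ∀ t s : ℝ, 0 ≤ t → t ≤ 5 * ρ ^ 2 → |s| ≤ ρ → ∀ m ≤ 10,
      |heatAvg κ g m t s| ≤ (10 * (L * D) + max C 0) * M / ρ ^ m := by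
    intro t s ht0 ht hs m hm
    have hR := hC g T A ρ h hρ hT t s ht0 ht hs m hm
    rw [avgTaylor_eq] at hR
    have hterm : ∀ i ∈ Finset.range (10 - m),
        |heatAvg κ g (m + i) 0 0 * hq κ i t s| ≤ L * D * M / ρ ^ m := by
      intro i hi
      have := Finset.mem_range.1 hi
      have hc := hL g T A B ρ h heven hρ hT hB (m + i) (by omega)
      rw [abs_mul, le_div_iff₀ (pow_pos hρ m)]
      calc |heatAvg κ g (m + i) 0 0| * |hq κ i t s| * ρ ^ m
          ≤ |heatAvg κ g (m + i) 0 0| * (D * ρ ^ i) * ρ ^ m := by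
            gcongr
            exact hD i (by omega) t s ρ ht0 ht hs
        _ = D * (|heatAvg κ g (m + i) 0 0| * ρ ^ (m + i)) := by rw [pow_add]; ring
        _ ≤ D * (L * M) := mul_le_mul_of_nonneg_left hc hD0
        _ = L * D * M := by ring
    have hP : |avgTaylor κ g m t s| ≤ 10 * (L * D) * M / ρ ^ m := by
      refine ((Finset.abs_sum_le_sum_abs _ _).trans (Finset.sum_le_card_nsmul _ _ _ hterm)).trans ?_
      rw [Finset.card_range, nsmul_eq_mul, mul_assoc 10, mul_div_assoc 10]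
      refine mul_le_mul_of_nonneg_right (by exact_mod_cast Nat.sub_le 10 m) ?_
      positivity
    have hC' : C * A * ε / ρ ^ m ≤ max C 0 * M / ρ ^ m := by
      rw [mul_assoc]
      refine div_le_div_of_nonneg_right (mul_le_mul (le_max_left _ _) ?_ hAε (le_max_right _ _))
        (by positivity)
      exact le_add_of_nonneg_left hB0
    calc |heatAvg κ g m t s|
        = |(heatAvg κ g m t s - avgTaylor κ g m t s) + avgTaylor κ g m t s| := by ring_nf
      _ ≤ C * A * ε / ρ ^ m + 10 * (L * D) * M / ρ ^ m :=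
          (abs_add_le _ _).trans (add_le_add hR hP)
      _ ≤ _ := by rw [add_mul, add_div]; linarith
  refine ⟨hall, fun t s ht0 ht hs => ?_⟩
  set C' := 10 * (L * D) + max C 0
  have hρT : ρ ≤ Real.sqrt T := Real.le_sqrt_of_sq_le (by nlinarith [sq_nonneg ρ])
  have hT2 : t ≤ T / 2 := by linarith
  obtain ⟨C₀, hA⟩ := avg κ hκ N 0
  obtain ⟨C₁, hA'⟩ := avg κ hκ N 1
  have hmem : ∀ x ∈ Icc (-|s|) |s|, |x| ≤ ρ := fun x hx => (abs_le.2 hx).trans hs
  have h1 : ∀ x ∈ Icc (-|s|) |s|, |heatAvg κ g 1 t x| ≤ C' * M / ρ ^ 2 * |s| := by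
    intro x hx
    have := abs_sub_le_of_deriv_bound (f := heatAvg κ g 1 t) (f' := heatAvg κ g 2 t)
      (convex_Icc (-|s|) |s|)
      (fun z hz => (hA' g T A h t z ht0 hT2 ((hmem z hz).trans hρT)).1)
      (fun z hz => hall t z ht0 ht (hmem z hz) 2 (by norm_num))
      ⟨by linarith [abs_nonneg s], abs_nonneg s⟩ hx
    rw [heatAvg_odd_zero heven (by decide) t, sub_zero, sub_zero] at this
    refine this.trans (mul_le_mul_of_nonneg_left (abs_le.2 hx) ?_)
    positivity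
  have := abs_sub_le_of_deriv_bound (f := heatAvg κ g 0 t) (f' := heatAvg κ g 1 t)
    (convex_Icc (-|s|) |s|)
    (fun z hz => (hA g T A h t z ht0 hT2 ((hmem z hz).trans hρT)).1) h1
    ⟨by linarith [abs_nonneg s], abs_nonneg s⟩ ⟨neg_abs_le s, le_abs_self s⟩
  rw [sub_zero, mul_assoc, ← sq, sq_abs] at this
  exact this.trans (le_of_eq (by ring))

end Vale.Agent.P363.Ext.Heat
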