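import Vale.Agent.P363.Ext.Heat.Calc

/-!
The jump identities: `IdentityStmt` and `HalfIdentityStmt` tested with `Φ (τ) χ (θ) K (τ, θ)`.
-/

noncomputable section

namespace Vale.Agent.P363.Ext.Heat

open MeasureTheory Filter Set
open scoped BigOperators Topology

theorem pt_apply (r θ : ℝ) :
    pt r θ 0 = r * Real.sqrt (1 - θ ^ 2) ∧ pt r θ 1 = 0 ∧ pt r θ 2 = r * θ := by
  simp [pt]

theorem norm_pt {r θ : ℝ} (hr : 0 ≤ r) (hθ : θ ^ 2 ≤ 1) : ‖pt r θ‖ = r := by
  obtain ⟨e0, e1, e2⟩ := pt_apply r θ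
  rw [EuclideanSpace.norm_eq, Fin.sum_univ_three]
  simp only [Real.norm_eq_abs, sq_abs, e0, e1, e2, mul_pow, Real.sq_sqrt (sub_nonneg.2 hθ)]
  rw [show r ^ 2 * (1 - θ ^ 2) + 0 ^ 2 + r ^ 2 * θ ^ 2 = r ^ 2 by ring, Real.sqrt_sq hr]

theorem pt_mem_belt {R r θ : ℝ} (hR : 0 ≤ R) (hr : R < r) (hθ : 2 * |θ| < 1) :
    pt r θ ∈ belt R := by
  have h0 : 0 < r := lt_of_le_of_lt hR hr
  have hn : ‖pt r θ‖ = r := norm_pt h0.le (by
    rw [← sq_abs]; nlinarith [abs_nonneg θ])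
  refine ⟨hn.symm ▸ hr, ?_⟩
  rw [hn, height, (pt_apply r θ).2.2, abs_mul, abs_of_pos h0]
  nlinarith

/-- The reduced function in the time `1 / r` is continuous where the belt allows. -/
theorem continuousOn_red {a k R : ℝ} (hR : 1 ≤ R) {f : Space → ℝ}
    (hf : ContinuousOn f (belt R)) :
    ContinuousOn (fun p : ℝ × ℝ => red a k f p.1⁻¹ p.2)
      (Ioo 0 R⁻¹ ×ˢ Ioo (-(1 / 2)) (1 / 2)) := by
  have hmem : ∀ p ∈ Ioo 0 R⁻¹ ×ˢ Ioo (-(1 / 2 : ℝ)) (1 / 2),
      R < p.1⁻¹ ∧ 2 * |p.2| < 1 := by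
    rintro p ⟨⟨h1, h2⟩, h3, h4⟩
    refine ⟨(lt_inv_comm₀ (by linarith) h1).2 h2, ?_⟩
    rcases abs_cases p.2 with ⟨e, _⟩ | ⟨e, _⟩ <;> rw [e] <;> linarith
  have hpos : ∀ p ∈ Ioo 0 R⁻¹ ×ˢ Ioo (-(1 / 2 : ℝ)) (1 / 2), 0 < (p : ℝ × ℝ).1 :=
    fun p hp => hp.1.1
  have hi : ContinuousOn (fun p : ℝ × ℝ => p.1⁻¹) (Ioo 0 R⁻¹ ×ˢ Ioo (-(1 / 2)) (1 / 2)) :=
    continuousOn_fst.inv₀ fun p hp => (hpos p hp).ne'
  have hpt : Continuous fun q : ℝ × ℝ => pt q.1 q.2 := by
    refine (PiLp.continuous_toLp 2 _).comp (continuous_pi fun i => ?_)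
    fin_cases i <;> simp <;> fun_prop
  unfold red tailG
  refine (hf.comp (hpt.comp_continuousOn (hi.prodMk continuousOn_snd)) fun p hp =>
    pt_mem_belt (by linarith) (hmem p hp).1 (hmem p hp).2).div
    (hi.mul (ContinuousOn.mul (hi.rpow_const fun p hp => Or.inl (inv_pos.2 (hpos p hp)).ne')
      (hi.const_mul a).neg.rexp)) fun p hp => ?_
  have := inv_pos.2 (hpos p hp)
  positivity

/-- Functions continuous on an open set and zero off a compact subset of it are continuous with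
compact support. -/
theorem integrable_of_zero_off {G : ℝ × ℝ → ℝ} {V C : Set (ℝ × ℝ)} (hV : IsOpen V)
    (hC : IsCompact C) (hCV : C ⊆ V) (hG : ContinuousOn G V) (h0 : ∀ p ∉ C, G p = 0) :
    Integrable G := by
  have hc : Continuous G := by
    refine continuous_iff_continuousAt.2 fun p => ?_
    by_cases hp : p ∈ C
    · exact hG.continuousAt (hV.mem_nhds (hCV hp))
    · exact (continuousAt_const (y := (0 : ℝ))).congr
        (Filter.mem_of_superset (hC.isClosed.isOpen_compl.mem_nhds hp) fun q hq => (h0 q hq).symm)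
  exact hc.integrable_of_hasCompactSupport (HasCompactSupport.intro hC h0)

/-- The cut-off setting of the jump identities. -/
structure Cutoff (a R : ℝ) (Φ χ : ℝ → ℝ) (K w : ℝ → ℝ → ℝ) (U : Set ℝ) : Prop where
  openU : IsOpen U
  smoothΦ : ContDiff ℝ 2 Φ
  compactΦ : HasCompactSupport Φ
  suppΦ : tsupport Φ ⊆ Ioo 0 R⁻¹ ∩ U
  smoothχ : ContDiff ℝ 2 χ
  compactχ : HasCompactSupport χ
  suppχ : tsupport χ ⊆ Ioo (-(1 / 2)) (1 / 2)
  smoothK : ContDiffOn ℝ 2 (Function.uncurry K) (U ×ˢ univ)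
  contw : Continuous (Function.uncurry w)
  heat : ∀ τ ∈ U, ∀ θ, dT K τ θ = 1 / (2 * a) * dY (dY K) τ θ + w τ θ

variable {a k R : ℝ} {Φ χ : ℝ → ℝ} {K w : ℝ → ℝ → ℝ} {U : Set ℝ}

namespace Cutoff

variable (hh : Cutoff a R Φ χ K w U)
include hh

theorem compact_box : IsCompact (tsupport Φ ×ˢ tsupport χ) :=
  IsCompact.prod hh.compactΦ hh.compactχ

theorem box_subset :
    tsupport Φ ×ˢ tsupport χ ⊆ (Ioo 0 R⁻¹ ∩ U) ×ˢ Ioo (-(1 / 2)) (1 / 2) :=
  prod_mono hh.suppΦ hh.suppχ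

set_option linter.unusedSectionVars false in
theorem eq_zero {τ θ : ℝ} (h : (τ, θ) ∉ tsupport Φ ×ˢ tsupport χ) : cut Φ χ K τ θ = 0 := by
  rw [mem_prod, not_and_or] at h
  rcases h with h | h <;> simp [cut, image_eq_zero_of_notMem_tsupport h]

theorem contDiff_cut : ContDiff ℝ 2 (Function.uncurry (cut Φ χ K)) := by
  refine contDiff_iff_contDiffAt.2 fun p => ?_
  by_cases hp : p.1 ∈ U
  · have hK := hh.smoothK.contDiffAt ((hh.openU.prod isOpen_univ).mem_nhds ⟨hp, trivial⟩)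
    exact ((hh.smoothΦ.comp contDiff_fst).mul (hh.smoothχ.comp contDiff_snd)).contDiffAt.mul hK
  · refine (contDiffAt_const (c := (0 : ℝ))).congr_of_eventuallyEq ?_
    have hn : p ∈ (tsupport Φ ×ˢ tsupport χ)ᶜ := fun h => hp (hh.suppΦ h.1).2
    filter_upwards [hh.compact_box.isClosed.isOpen_compl.mem_nhds hn] with q hq
    exact hh.eq_zero hq

theorem near_zero {p : ℝ × ℝ} (hp : p ∉ tsupport Φ ×ˢ tsupport χ) :
    dT (cut Φ χ K) p.1 p.2 = 0 ∧ dY (cut Φ χ K) p.1 p.2 = 0 := by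
  have h := hh.compact_box.isClosed.isOpen_compl.mem_nhds hp
  constructor
  · refine HasDerivAt.deriv ((hasDerivAt_const p.1 (0 : ℝ)).congr_of_eventuallyEq ?_)
    filter_upwards [(continuous_id.prodMk continuous_const).continuousAt.preimage_mem_nhds
      (show (tsupport Φ ×ˢ tsupport χ)ᶜ ∈ 𝓝 (id p.1, p.2) from h)] with t ht
    exact hh.eq_zero ht
  · refine HasDerivAt.deriv ((hasDerivAt_const p.2 (0 : ℝ)).congr_of_eventuallyEq ?_)
    filter_upwards [(continuous_const.prodMk continuous_id).continuousAt.preimage_mem_nhds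
      (show (tsupport Φ ×ˢ tsupport χ)ᶜ ∈ 𝓝 (p.1, id p.2) from h)] with t ht
    exact hh.eq_zero ht

theorem second_zero {p : ℝ × ℝ} (hp : p ∉ tsupport Φ ×ˢ tsupport χ) :
    dT (dT (cut Φ χ K)) p.1 p.2 = 0 ∧ dY (dY (cut Φ χ K)) p.1 p.2 = 0 := by
  have h := hh.compact_box.isClosed.isOpen_compl.mem_nhds hp
  constructor
  · refine HasDerivAt.deriv ((hasDerivAt_const p.1 (0 : ℝ)).congr_of_eventuallyEq ?_)
    filter_upwards [(continuous_id.prodMk continuous_const).continuousAt.preimage_mem_nhds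
      (show (tsupport Φ ×ˢ tsupport χ)ᶜ ∈ 𝓝 (id p.1, p.2) from h)] with t ht
    exact (hh.near_zero (p := (t, p.2)) ht).1
  · refine HasDerivAt.deriv ((hasDerivAt_const p.2 (0 : ℝ)).congr_of_eventuallyEq ?_)
    filter_upwards [(continuous_const.prodMk continuous_id).continuousAt.preimage_mem_nhds
      (show (tsupport Φ ×ˢ tsupport χ)ᶜ ∈ 𝓝 (p.1, id p.2) from h)] with t ht
    exact (hh.near_zero (p := (p.1, t)) ht).2

theorem timeOp_zero {p : ℝ × ℝ} (hp : p ∉ tsupport Φ ×ˢ tsupport χ) :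
    timeOp a k (cut Φ χ K) p.1 p.2 = 0 := by
  simp [timeOp, hh.near_zero hp, hh.second_zero hp, hh.eq_zero hp]

/-- The operator in `(τ, θ)` on the test function. -/
theorem operator (ha : 0 < a) (τ θ : ℝ) :
    dY (dY (cut Φ χ K)) τ θ - 2 * a * dT (cut Φ χ K) τ θ + timeOp a k (cut Φ χ K) τ θ =
      -(2 * a) * cut (deriv Φ) χ K τ θ + cutErr Φ χ K τ θ + timeOp a k (cut Φ χ K) τ θ
        - 2 * a * cut Φ χ w τ θ := by
  by_cases hτ : τ ∈ U
  · have hO : IsOpen (U ×ˢ (univ : Set ℝ)) := hh.openU.prod isOpen_univ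
    have hm : ∀ s : ℝ, (τ, s) ∈ U ×ˢ (univ : Set ℝ) := fun s => ⟨hτ, trivial⟩
    have dΦ : HasDerivAt Φ (deriv Φ τ) τ := (hh.smoothΦ.differentiable two_ne_zero τ).hasDerivAt
    have dχ : ∀ t, HasDerivAt χ (deriv χ t) t := fun t =>
      (hh.smoothχ.differentiable two_ne_zero t).hasDerivAt
    have ddχ : HasDerivAt (deriv χ) (deriv (deriv χ) θ) θ :=
      (((contDiff_succ_iff_deriv (n := 1)).1 hh.smoothχ).2.2.differentiable
        one_ne_zero θ).hasDerivAt
    have eT : dT (cut Φ χ K) τ θ = deriv Φ τ * χ θ * K τ θ + Φ τ * χ θ * dT K τ θ :=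
      ((dΦ.mul_const (χ θ)).mul (hasDerivAt_dT two_ne_zero hO hh.smoothK (hm θ))).deriv
    have eY : ∀ s, dY (cut Φ χ K) τ s =
        Φ τ * deriv χ s * K τ s + Φ τ * χ s * dY K τ s := fun s =>
      (((dχ s).const_mul (Φ τ)).mul (hasDerivAt_dY two_ne_zero hO hh.smoothK (hm s))).deriv
    have eYY : dY (dY (cut Φ χ K)) τ θ = Φ τ * deriv (deriv χ) θ * K τ θ +
        2 * (Φ τ * deriv χ θ * dY K τ θ) + Φ τ * χ θ * dY (dY K) τ θ := by
      have h := ((ddχ.const_mul (Φ τ)).mul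
        (hasDerivAt_dY two_ne_zero hO hh.smoothK (hm θ))).add (((dχ θ).const_mul (Φ τ)).mul
          (hasDerivAt_dY one_ne_zero hO (contDiffOn_dY (le_of_eq (by norm_num)) hO hh.smoothK)
            (hm θ)))
      exact ((h.congr_of_eventuallyEq (Eventually.of_forall eY)).congr_deriv (by ring)).deriv
    rw [eT, eYY, hh.heat τ hτ θ]
    simp only [cutErr, cut]
    field_simp
    ring
  · have hn : (τ, θ) ∉ tsupport Φ ×ˢ tsupport χ := fun h => hτ (hh.suppΦ h.1).2
    have hΦ : τ ∉ tsupport Φ := fun h => hτ (hh.suppΦ h).2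
    have hdΦ : deriv Φ τ = 0 := by
      by_contra h
      exact hΦ (support_deriv_subset h)
    simp [cut, cutErr, image_eq_zero_of_notMem_tsupport hΦ, hdΦ, (hh.second_zero hn).2,
      (hh.near_zero hn).1]

theorem contDiff_test (hR : 1 ≤ R) :
    ContDiff ℝ 2 (Function.uncurry fun r θ => cut Φ χ K r⁻¹ θ) := by
  refine contDiff_iff_contDiffAt.2 fun p => ?_
  by_cases hp : p.1 = 0
  · refine (contDiffAt_const (c := (0 : ℝ))).congr_of_eventuallyEq ?_
    filter_upwards [(isOpen_Iio.preimage continuous_fst).mem_nhds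
      (show p.1 < R by rw [hp]; linarith)] with q hq
    refine hh.eq_zero fun h => ?_
    obtain ⟨⟨h1, h2⟩, -⟩ := hh.suppΦ h.1
    exact lt_asymm hq ((lt_inv_comm₀ (by linarith) h1).2 h2 |>.trans_le (le_of_eq (inv_inv _)))
  · exact hh.contDiff_cut.contDiffAt.comp p ((contDiffAt_fst.inv hp).prodMk contDiffAt_snd)

theorem test_support (hR : 1 ≤ R) :
    HasCompactSupport (Function.uncurry fun r θ => cut Φ χ K r⁻¹ θ) ∧
      tsupport (Function.uncurry fun r θ => cut Φ χ K r⁻¹ θ) ⊆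
        {p | R < p.1 ∧ 2 * |p.2| < 1} := by
  set C : Set (ℝ × ℝ) := (fun p : ℝ × ℝ => (p.1⁻¹, p.2)) '' (tsupport Φ ×ˢ tsupport χ) with hCd
  have hC : IsCompact C := hh.compact_box.image_of_continuousOn
    ((continuousOn_fst.inv₀ fun p hp => (hh.suppΦ hp.1).1.1.ne').prodMk continuousOn_snd)
  have hz : ∀ p ∉ C, (Function.uncurry fun r θ => cut Φ χ K r⁻¹ θ) p = 0 := fun p hp =>
    hh.eq_zero fun h => hp ⟨(p.1⁻¹, p.2), h, by simp⟩
  refine ⟨HasCompactSupport.intro hC hz, ?_⟩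
  refine (closure_minimal
    (fun p hp => by_contra fun h => Function.mem_support.1 hp (hz p h)) hC.isClosed).trans ?_
  rintro _ ⟨p, hp, rfl⟩
  obtain ⟨⟨⟨h1, h2⟩, -⟩, h3, h4⟩ := hh.box_subset hp
  refine ⟨(lt_inv_comm₀ (by linarith) h1).2 h2, ?_⟩
  rcases abs_cases p.2 with ⟨e, _⟩ | ⟨e, _⟩ <;> rw [e] <;> linarith

/-- Integrability of the four terms of the identity, for `f` continuous on the belt. -/
theorem integrable_terms (hR : 1 ≤ R) {f : Space → ℝ} (hf : ContinuousOn f (belt R)) :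
    Integrable (fun p : ℝ × ℝ => red a k f p.1⁻¹ p.2 * cut Φ χ w p.1 p.2) ∧
    Integrable (fun p : ℝ × ℝ => red a k f p.1⁻¹ p.2 * cut (deriv Φ) χ K p.1 p.2) ∧
    Integrable (fun p : ℝ × ℝ => red a k f p.1⁻¹ p.2 * cutErr Φ χ K p.1 p.2) ∧
    Integrable (fun p : ℝ × ℝ => red a k f p.1⁻¹ p.2 * timeOp a k (cut Φ χ K) p.1 p.2) := by
  set V : Set (ℝ × ℝ) := (Ioo 0 R⁻¹ ∩ U) ×ˢ Ioo (-(1 / 2)) (1 / 2) with hVd
  have hV : IsOpen V := (isOpen_Ioo.inter hh.openU).prod isOpen_Ioo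
  have hu : ContinuousOn (fun p : ℝ × ℝ => red a k f p.1⁻¹ p.2) V :=
    (continuousOn_red hR hf).mono (prod_mono inter_subset_left subset_rfl)
  have hVU : V ⊆ U ×ˢ univ := prod_mono inter_subset_right (subset_univ _)
  have hK : ContinuousOn (fun p : ℝ × ℝ => K p.1 p.2) V := hh.smoothK.continuousOn.mono hVU
  have hKy : ContinuousOn (fun p : ℝ × ℝ => dY K p.1 p.2) V :=
    (contDiffOn_dY (m := 1) (le_of_eq (by norm_num)) (hh.openU.prod isOpen_univ)
      hh.smoothK).continuousOn.mono hVU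
  have hχ' : ContDiff ℝ 1 (deriv χ) := ((contDiff_succ_iff_deriv (n := 1)).1 hh.smoothχ).2.2
  have c1 : Continuous (deriv Φ) :=
    hh.smoothΦ.continuous_deriv (by norm_num)
  have c2 := hh.smoothΦ.continuous
  have c3 := hh.smoothχ.continuous
  have c4 := hχ'.continuous
  have c5 : Continuous (deriv (deriv χ)) := hχ'.continuous_deriv le_rfl
  have c6 : ContinuousOn (fun p : ℝ × ℝ => w p.1 p.2) V := hh.contw.continuousOn
  have hzero : ∀ p ∉ tsupport Φ ×ˢ tsupport χ, cut Φ χ w (p : ℝ × ℝ).1 p.2 = 0 ∧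
      cut (deriv Φ) χ K p.1 p.2 = 0 ∧ cutErr Φ χ K p.1 p.2 = 0 := by
    intro p hp
    rw [mem_prod, not_and_or] at hp
    rcases hp with hp | hp
    · have hd : deriv Φ p.1 = 0 := by
        by_contra h
        exact hp (support_deriv_subset h)
      simp [cut, cutErr, image_eq_zero_of_notMem_tsupport hp, hd]
    · have hd : deriv χ p.2 = 0 := by
        by_contra h
        exact hp (support_deriv_subset h)
      have hdd : deriv (deriv χ) p.2 = 0 := by
        by_contra h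
        exact hp (closure_minimal support_deriv_subset (isClosed_tsupport _)
          (support_deriv_subset h))
      simp [cut, cutErr, image_eq_zero_of_notMem_tsupport hp, hd, hdd]
  have main : ∀ G : ℝ → ℝ → ℝ, ContinuousOn (fun p : ℝ × ℝ => G p.1 p.2) V →
      (∀ p ∉ tsupport Φ ×ˢ tsupport χ, G (p : ℝ × ℝ).1 p.2 = 0) →
      Integrable fun p : ℝ × ℝ => red a k f p.1⁻¹ p.2 * G p.1 p.2 := fun G hG h0 =>
    integrable_of_zero_off hV hh.compact_box hh.box_subset (hu.mul hG)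
      fun p hp => by simp [h0 p hp]
  refine ⟨main _ ?_ fun p hp => (hzero p hp).1, main _ ?_ fun p hp => (hzero p hp).2.1,
    main _ ?_ fun p hp => (hzero p hp).2.2, main _ ?_ fun p hp => hh.timeOp_zero hp⟩
  · unfold cut
    fun_prop
  · unfold cut
    fun_prop
  · unfold cutErr
    fun_prop
  · exact (contDiffOn_timeOp a k isOpen_univ hh.contDiff_cut.contDiffOn).mono (subset_univ _)

/-- The left hand side of the identities after the substitution. -/
theorem subst_left (ha : 0 < a) (f : Space → ℝ) (hR : 1 ≤ R) (s : Set (ℝ × ℝ))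
    (hs : ∀ r r' θ : ℝ, (r, θ) ∈ s → (r', θ) ∈ s) :
    ∫ p, s.indicator (fun p => red a k f p.1 p.2 *
        polarOp a k (fun r θ => cut Φ χ K r⁻¹ θ) p.1 p.2) p =
      ∫ p, s.indicator (fun p => red a k f p.1⁻¹ p.2 *
        (-(2 * a) * cut (deriv Φ) χ K p.1 p.2 + cutErr Φ χ K p.1 p.2 +
          timeOp a k (cut Φ χ K) p.1 p.2 - 2 * a * cut Φ χ w p.1 p.2)) p := by
  set ζ := fun r θ => cut Φ χ K r⁻¹ θ with hζ
  have hz0 : ∀ {r : ℝ}, r ≤ 0 → ∀ θ, polarOp a k ζ r θ = 0 := by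
    intro r hr θ
    have hn : ∀ t : ℝ, t < R → ∀ s, ζ t s = 0 := fun t ht s => hh.eq_zero fun h => by
      obtain ⟨⟨h1, h2⟩, -⟩ := hh.suppΦ h.1
      exact lt_asymm ht ((lt_inv_comm₀ (by linarith) h1).2 h2 |>.trans_le (le_of_eq (inv_inv _)))
    have hev : ∀ᶠ t in 𝓝 r, t < R := Iio_mem_nhds (by linarith)
    have d1 : ∀ t : ℝ, t < R → deriv (fun u => ζ u θ) t = 0 := fun t ht =>
      HasDerivAt.deriv ((hasDerivAt_const t (0 : ℝ)).congr_of_eventuallyEq
        (Filter.mem_of_superset (Iio_mem_nhds ht) fun u hu => hn u hu θ))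
    have d2 : deriv (fun t => deriv (fun u => ζ u θ) t) r = 0 :=
      HasDerivAt.deriv ((hasDerivAt_const r (0 : ℝ)).congr_of_eventuallyEq (hev.mono d1))
    have hr' : r < R := by linarith
    have e1 : ∀ s, deriv (ζ r) s = 0 := fun s => by
      rw [show ζ r = fun _ => (0 : ℝ) from funext (hn r hr')]
      simp
    simp [polarOp, angLap, d1 r hr', d2, hn r hr', e1]
  rw [integral_inv_fst _ fun p hp => by simp [Set.indicator, hz0 hp]]
  refine integral_congr_ae (Eventually.of_forall fun p => ?_)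
  simp only
  rcases le_or_gt p.1 0 with hp | hp
  · have hn : p ∉ tsupport Φ ×ˢ tsupport χ := fun h =>
      absurd (hh.suppΦ h.1).1.1 (not_lt.2 hp)
    have hop := hh.operator (k := k) ha p.1 p.2
    rw [hh.timeOp_zero hn, (hh.second_zero hn).2, (hh.near_zero hn).1] at hop
    simp only [Set.indicator, hz0 (inv_nonpos.2 hp), mul_zero, ite_self, zero_div,
      hh.timeOp_zero hn]
    have : -(2 * a) * cut (deriv Φ) χ K p.1 p.2 + cutErr Φ χ K p.1 p.2 + 0 -
        2 * a * cut Φ χ w p.1 p.2 = 0 := by linarith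
    split_ifs
    · rw [this, mul_zero]
    · rfl
  · have hop := polarInv a k (cut Φ χ K) hh.contDiff_cut p.1⁻¹ p.2 (inv_pos.2 hp)
    rw [inv_inv, hh.operator ha] at hop
    by_cases hm : p ∈ s
    · rw [Set.indicator_of_mem hm, Set.indicator_of_mem (hs p.1 p.1⁻¹ p.2 hm), hζ]
      simp only [hop]
      field_simp
    · rw [Set.indicator_of_notMem hm,
        Set.indicator_of_notMem fun h => hm (hs p.1⁻¹ p.1 p.2 h), zero_div]

/-- The right hand side of the identities after the substitution. -/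
theorem subst_right (f h : Space → ℝ) (s : Set (ℝ × ℝ))
    (hs : ∀ r r' θ : ℝ, (r, θ) ∈ s → (r', θ) ∈ s) :
    ∫ p, s.indicator (fun p => cut Φ χ K p.1⁻¹ p.2 *
        (red a k h p.1 p.2 - 2 * (farPot a k p.1 + shift a k p.1) * red a k f p.1 p.2)) p =
      ∫ p, s.indicator (fun p => cut Φ χ K p.1 p.2 * rhs a k f h p.1 p.2) p := by
  have hz : ∀ {τ : ℝ}, τ ≤ 0 → ∀ θ, cut Φ χ K τ θ = 0 := fun hτ θ =>
    hh.eq_zero fun h => absurd (hh.suppΦ h.1).1.1 (not_lt.2 hτ)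
  rw [integral_inv_fst _ fun p hp => by simp [Set.indicator, hz (inv_nonpos.2 hp)]]
  refine integral_congr_ae (Eventually.of_forall fun p => ?_)
  simp only
  by_cases hm : p ∈ s
  · rw [Set.indicator_of_mem hm, Set.indicator_of_mem (hs p.1 p.1⁻¹ p.2 hm)]
    simp only [inv_inv, rhs]
    ring
  · rw [Set.indicator_of_notMem hm,
      Set.indicator_of_notMem fun h => hm (hs p.1⁻¹ p.1 p.2 h), zero_div]

end Cutoff

/-- The jump identity on the line. -/
theorem jump : JumpStmt := by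
  intro hI a k R ha hR f h hf hrf hrh hm hP Φ χ K w U hU hΦ hΦc hΦs hχ hχc hχs hK hw heat
  have hh : Cutoff a R Φ χ K w U := ⟨hU, hΦ, hΦc, hΦs, hχ, hχc, hχs, hK, hw, heat⟩
  have hid := hI a k R ha hR f h hf hrf hrh hm hP _ (hh.contDiff_test hR)
    (hh.test_support hR).1 (hh.test_support hR).2
  have hl := hh.subst_left (k := k) ha f hR univ fun _ _ _ _ => trivial
  have hr := hh.subst_right (k := k) f h univ fun _ _ _ _ => trivial
  simp only [Set.indicator_univ] at hl hr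
  rw [hl, hr] at hid
  obtain ⟨iw, ip, ie, it⟩ := hh.integrable_terms (k := k) hR hf
  have e : ∫ p : ℝ × ℝ, red a k f p.1⁻¹ p.2 * (-(2 * a) * cut (deriv Φ) χ K p.1 p.2 +
      cutErr Φ χ K p.1 p.2 + timeOp a k (cut Φ χ K) p.1 p.2 - 2 * a * cut Φ χ w p.1 p.2) =
      -(2 * a) * (∫ p : ℝ × ℝ, red a k f p.1⁻¹ p.2 * cut (deriv Φ) χ K p.1 p.2)
        + (∫ p : ℝ × ℝ, red a k f p.1⁻¹ p.2 * cutErr Φ χ K p.1 p.2)
        + (∫ p : ℝ × ℝ, red a k f p.1⁻¹ p.2 * timeOp a k (cut Φ χ K) p.1 p.2)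
        - 2 * a * ∫ p : ℝ × ℝ, red a k f p.1⁻¹ p.2 * cut Φ χ w p.1 p.2 := by
    rw [← integral_const_mul, ← integral_const_mul, ← integral_add (ip.const_mul _) ie,
      ← integral_add ((ip.const_mul _).fun_add ie) it,
      ← integral_sub (((ip.const_mul _).fun_add ie).fun_add it) (iw.const_mul _)]
    exact integral_congr_ae (Eventually.of_forall fun p => by ring)
  rw [e] at hid
  linarith

/-- The jump identity on the upper half. -/
theorem halfJump : HalfJumpStmt := by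
  intro hI a k R ha hR f h hf hrf hrh hm hP Φ χ K w U hU hΦ hΦc hΦs hχ hχc hχs hK hw heat hK0
  have hh : Cutoff a R Φ χ K w U := ⟨hU, hΦ, hΦc, hΦs, hχ, hχc, hχs, hK, hw, heat⟩
  set H : Set (ℝ × ℝ) := {p : ℝ × ℝ | 0 < p.2} with hHd
  have hHm : MeasurableSet H := (isOpen_lt continuous_const continuous_snd).measurableSet
  have hid := hI a k R ha hR f h hf hrf hrh hm hP _ (hh.contDiff_test hR)
    (hh.test_support hR).1 (hh.test_support hR).2
  have hl := hh.subst_left (k := k) ha f hR H fun _ _ _ h => h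
  have hr := hh.subst_right (k := k) f h H fun _ _ _ h => h
  rw [integral_indicator hHm, integral_indicator hHm] at hl hr
  rw [hl, hr] at hid
  obtain ⟨iw, ip, ie, it⟩ := hh.integrable_terms (k := k) hR hf.continuousOn
  have e : ∫ p in H, red a k f p.1⁻¹ p.2 * (-(2 * a) * cut (deriv Φ) χ K p.1 p.2 +
      cutErr Φ χ K p.1 p.2 + timeOp a k (cut Φ χ K) p.1 p.2 - 2 * a * cut Φ χ w p.1 p.2) =
      -(2 * a) * (∫ p in H, red a k f p.1⁻¹ p.2 * cut (deriv Φ) χ K p.1 p.2)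
        + (∫ p in H, red a k f p.1⁻¹ p.2 * cutErr Φ χ K p.1 p.2)
        + (∫ p in H, red a k f p.1⁻¹ p.2 * timeOp a k (cut Φ χ K) p.1 p.2)
        - 2 * a * ∫ p in H, red a k f p.1⁻¹ p.2 * cut Φ χ w p.1 p.2 := by
    rw [← integral_const_mul, ← integral_const_mul,
      ← integral_add (ip.const_mul _).integrableOn ie.integrableOn,
      ← integral_add ((ip.const_mul _).fun_add ie).integrableOn it.integrableOn,
      ← integral_sub (((ip.const_mul _).fun_add ie).fun_add it).integrableOn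
        (iw.const_mul _).integrableOn]
    exact integral_congr_ae (Eventually.of_forall fun p => by ring)
  have hzK : ∀ τ, cut Φ χ K τ 0 = 0 := fun τ => by
    by_cases hτ : τ ∈ U
    · simp [cut, hK0 τ hτ]
    · exact hh.eq_zero fun h => hτ (hh.suppΦ h.1).2
  have hdK : ∀ τ, deriv (fun t => cut Φ χ K τ t) 0 = Φ τ * χ 0 * dY K τ 0 := by
    intro τ
    by_cases hτ : τ ∈ U
    · have := (((hχ.differentiable two_ne_zero 0).hasDerivAt).const_mul (Φ τ)).mul
        (hasDerivAt_dY two_ne_zero (hU.prod isOpen_univ) hK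
          (show (τ, (0 : ℝ)) ∈ U ×ˢ univ from ⟨hτ, trivial⟩))
      refine this.deriv.trans ?_
      rw [hK0 τ hτ]
      ring
    · have hΦ0 : Φ τ = 0 := image_eq_zero_of_notMem_tsupport fun h => hτ (hΦs h).2
      simp [cut, hΦ0]
  have hb : ∫ r : ℝ, (deriv (red a k f r) 0 * cut Φ χ K r⁻¹ 0 -
      red a k f r 0 * deriv (fun t => cut Φ χ K r⁻¹ t) 0) / r ^ 2 =
      -∫ τ : ℝ, red a k f τ⁻¹ 0 * (Φ τ * χ 0 * dY K τ 0) := by
    simp only [hzK, hdK, mul_zero, zero_sub]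
    rw [integral_inv _ fun r hr => by
      have : Φ r⁻¹ = 0 := image_eq_zero_of_notMem_tsupport fun h =>
        absurd (hΦs h).1.1 (not_lt.2 (inv_nonpos.2 hr))
      simp [this], ← integral_neg]
    refine integral_congr_ae (Eventually.of_forall fun τ => ?_)
    simp only [inv_inv]
    rcases eq_or_ne τ 0 with rfl | hτ
    · have : Φ 0 = 0 := image_eq_zero_of_notMem_tsupport fun h =>
        lt_irrefl _ (hΦs h).1.1
      simp [this]
    · field_simp
  rw [e, hb] at hid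
  linarith

end Vale.Agent.P363.Ext.Heat
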