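import Vale.Agent.P363.Ext.Heat.PotMain

/-!
Weighted `L¹` bounds of heat potentials: at late times for all derivatives, and integrated over all
times for the potential and its first space derivative.
-/

noncomputable section

namespace Vale.Agent.P363.Ext.Heat

open MeasureTheory Filter Set
open scoped BigOperators Topology

attribute [local irreducible] kernD kern

/-- The weight of the plain bounds. -/
def plainW (q : ℕ) (y s : ℝ) : ℝ := (|y| + s) ^ q

/-- The weight of the odd bounds. -/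
def oddW (q : ℕ) (y s : ℝ) : ℝ := |y| * (|y| + s) ^ (q - 1)

/-- The potential of the odd image as an integral of the source. -/
def oddPotD (κ : ℝ) (m : ℕ) (f : ℝ → ℝ → ℝ) (τ θ : ℝ) : ℝ :=
  ∫ p : ℝ × ℝ, (kernD m (2 * κ * (τ - p.1)) (θ - p.2) -
    kernD m (2 * κ * (τ - p.1)) (θ + p.2)) * f p.1 p.2

/-- A family of kernels `k v θ y` with weighted `L¹` norms `≤ C W y √v / √v ^ m`. -/
structure Family (m q : ℕ) (C : ℝ) (k : ℝ → ℝ → ℝ → ℝ) (W : ℝ → ℝ → ℝ) : Prop where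
  nonneg : 0 ≤ C
  meas : Measurable fun z : ℝ × ℝ × ℝ => k z.1 z.2.1 z.2.2
  zero : ∀ v θ y, v ≤ 0 → k v θ y = 0
  weight_nonneg : ∀ y s, 0 ≤ s → 0 ≤ W y s
  mono : ∀ y s s', 0 ≤ s → s ≤ s' → W y s ≤ W y s'
  scale : ∀ y s (l : ℝ), 0 ≤ s → 1 ≤ l → W y (l * s) ≤ l ^ q * W y s
  cont : ∀ s, Continuous fun y => W y s
  bound : ∀ v y, 0 < v → Integrable (fun θ => |θ| ^ q * |k v θ y|) ∧
    ∫ θ, |θ| ^ q * |k v θ y| ≤ C * W y (Real.sqrt v) / Real.sqrt v ^ m

theorem exists_plain (m q : ℕ) : ∃ C, Family m q C (fun v θ y => kernD m v (θ - y)) (plainW q) := by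
  obtain ⟨C, hC⟩ := moments m q
  refine ⟨max C 0, le_max_right _ _, ?_, fun v θ y hv => kernD_of_nonpos hv _ _, ?_, ?_, ?_, ?_,
    fun v y hv => ⟨(hC v y hv).1.1, (hC v y hv).1.2.trans ?_⟩⟩
  · exact (measurable_kernD m).comp (f := fun z : ℝ × ℝ × ℝ => (z.1, z.2.1 - z.2.2))
      (by fun_prop)
  · exact fun y s hs => pow_nonneg (add_nonneg (abs_nonneg y) hs) q
  · exact fun y s s' hs h => pow_le_pow_left₀ (add_nonneg (abs_nonneg y) hs) (by linarith) q
  · intro y s l hs hl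
    rw [plainW, plainW, ← mul_pow]
    exact pow_le_pow_left₀ (add_nonneg (abs_nonneg y) (mul_nonneg (by linarith) hs))
      (by nlinarith [abs_nonneg y]) q
  · unfold plainW; fun_prop
  · exact div_le_div_of_nonneg_right
      (mul_le_mul_of_nonneg_right (le_max_left _ _) (by positivity)) (by positivity)

theorem exists_odd (m : ℕ) {q : ℕ} (hq : 1 ≤ q) :
    ∃ C, Family m q C (fun v θ y => kernD m v (θ - y) - kernD m v (θ + y)) (oddW q) := by
  obtain ⟨C, hC⟩ := moments m q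
  have hmeas : Measurable fun z : ℝ × ℝ × ℝ =>
      kernD m z.1 (z.2.1 - z.2.2) - kernD m z.1 (z.2.1 + z.2.2) :=
    ((measurable_kernD m).comp (f := fun z : ℝ × ℝ × ℝ => (z.1, z.2.1 - z.2.2)) (by fun_prop)).sub
      ((measurable_kernD m).comp (f := fun z : ℝ × ℝ × ℝ => (z.1, z.2.1 + z.2.2)) (by fun_prop))
  refine ⟨max C 0, le_max_right _ _, hmeas, fun v θ y hv => by simp [kernD_of_nonpos hv], ?_, ?_,
    ?_, ?_, fun v y hv => ⟨?_, ((hC v y hv).2 hq).trans ?_⟩⟩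
  · exact fun y s hs => mul_nonneg (abs_nonneg y) (pow_nonneg (add_nonneg (abs_nonneg y) hs) _)
  · exact fun y s s' hs h => mul_le_mul_of_nonneg_left
      (pow_le_pow_left₀ (add_nonneg (abs_nonneg y) hs) (by linarith) _) (abs_nonneg y)
  · intro y s l hs hl
    rw [oddW, oddW, mul_left_comm]
    refine mul_le_mul_of_nonneg_left ?_ (abs_nonneg y)
    have hb := add_nonneg (abs_nonneg y) hs
    refine le_trans ?_ (mul_le_mul_of_nonneg_right (pow_le_pow_right₀ hl (Nat.sub_le q 1))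
      (pow_nonneg hb _))
    rw [← mul_pow]
    exact pow_le_pow_left₀ (add_nonneg (abs_nonneg y) (mul_nonneg (by linarith) hs))
      (by nlinarith [abs_nonneg y]) _
  · unfold oddW; fun_prop
  · have h2 := (hC v (-y) hv).1.1
    simp only [sub_neg_eq_add] at h2
    refine ((hC v y hv).1.1.add h2).mono' ?_ (Eventually.of_forall fun θ => ?_)
    · exact ((measurable_id.abs.pow_const q).mul ((((measurable_kernD m).comp
        (f := fun θ : ℝ => (v, θ - y)) (by fun_prop)).sub ((measurable_kernD m).comp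
          (f := fun θ : ℝ => (v, θ + y)) (by fun_prop))).abs)).aestronglyMeasurable
    · rw [Real.norm_eq_abs, abs_of_nonneg (by positivity)]
      simp only [Pi.add_apply, ← mul_add]
      exact mul_le_mul_of_nonneg_left (abs_sub _ _) (by positivity)
  · exact div_le_div_of_nonneg_right
      (mul_le_mul_of_nonneg_right (le_max_left _ _) (by positivity)) (by positivity)

variable {m q : ℕ} {C κ : ℝ} {k : ℝ → ℝ → ℝ → ℝ} {W : ℝ → ℝ → ℝ}

theorem Family.weight_le (hF : Family m q C k W) (y : ℝ) {v L : ℝ} (hv : v ≤ 2 * κ * L)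
    (hκ : 0 < κ) (_hL : 0 ≤ L) :
    W y (Real.sqrt v) ≤ max 1 (Real.sqrt (2 * κ)) ^ q * W y (Real.sqrt L) := by
  refine (hF.mono y _ _ (Real.sqrt_nonneg _) ?_).trans
    (hF.scale y _ _ (Real.sqrt_nonneg L) (le_max_left _ _))
  calc Real.sqrt v ≤ Real.sqrt (2 * κ) * Real.sqrt L := by
        rw [← Real.sqrt_mul (by linarith)]; exact Real.sqrt_le_sqrt hv
    _ ≤ _ := mul_le_mul_of_nonneg_right (le_max_right _ _) (Real.sqrt_nonneg L)

theorem Family.integrable_weight (hF : Family m q C k W) {f : ℝ → ℝ → ℝ}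
    (hf : Continuous (Function.uncurry f)) (hc : HasCompactSupport (Function.uncurry f)) (s : ℝ) :
    Integrable fun p : ℝ × ℝ => |f p.1 p.2| * W p.2 s := by
  refine Continuous.integrable_of_hasCompactSupport
    (hf.abs.mul ((hF.cont s).comp continuous_snd)) ?_
  exact (hc.comp_left (g := fun x => |x|) abs_zero).mul_right

theorem measurable_family (hF : Family m q C k W) (κ : ℝ) {f : ℝ → ℝ → ℝ}
    (hf : Continuous (Function.uncurry f)) {α : Type*} [MeasurableSpace α] {τ θ : α → ℝ}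
    (hτ : Measurable τ) (hθ : Measurable θ) :
    Measurable fun z : α × (ℝ × ℝ) =>
      k (2 * κ * (τ z.1 - z.2.1)) (θ z.1) z.2.2 * f z.2.1 z.2.2 :=
  (hF.meas.comp (f := fun z : α × (ℝ × ℝ) => (2 * κ * (τ z.1 - z.2.1), θ z.1, z.2.2))
    ((((hτ.comp measurable_fst).sub (measurable_fst.comp measurable_snd)).const_mul _).prodMk
      ((hθ.comp measurable_fst).prodMk (measurable_snd.comp measurable_snd)))).mul
    (hf.measurable.comp measurable_snd)

/-- The late bound for a family. -/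
theorem Family.late (hF : Family m q C k W) (hκ : 0 < κ) {w : ℝ → ℝ → ℝ} {t₀ h τ : ℝ}
    (hw : Source w t₀ h) (h2 : t₀ + 2 * h ≤ τ) (hτ : t₀ < τ) :
    Integrable (fun θ => |θ| ^ q *
        |∫ p : ℝ × ℝ, k (2 * κ * (τ - p.1)) θ p.2 * w p.1 p.2|) ∧
      ∫ θ, |θ| ^ q * |∫ p : ℝ × ℝ, k (2 * κ * (τ - p.1)) θ p.2 * w p.1 p.2| ≤
        C * max 1 (Real.sqrt (2 * κ)) ^ q / Real.sqrt κ ^ m *
          (∫ p : ℝ × ℝ, |w p.1 p.2| * W p.2 (Real.sqrt (τ - t₀))) /
            Real.sqrt (τ - t₀) ^ m := by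
  set K := C * max 1 (Real.sqrt (2 * κ)) ^ q / Real.sqrt κ ^ m with hKd
  set D := Real.sqrt (τ - t₀) with hDd
  have hD : 0 < D := Real.sqrt_pos.2 (sub_pos.2 hτ)
  have hC := hF.nonneg
  suffices hs : ∀ p : ℝ × ℝ,
      Integrable (fun θ => |θ| ^ q * |k (2 * κ * (τ - p.1)) θ p.2 * w p.1 p.2|) ∧
      ∫ θ, |θ| ^ q * |k (2 * κ * (τ - p.1)) θ p.2 * w p.1 p.2| ≤
        K / D ^ m * (|w p.1 p.2| * W p.2 D) by
    obtain ⟨r1, r2⟩ := dominate_abs (μ := (volume : Measure ℝ)) (ν := (volume : Measure (ℝ × ℝ)))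
      (F := fun θ p => k (2 * κ * (τ - p.1)) θ p.2 * w p.1 p.2)
      (B := fun p => K / D ^ m * (|w p.1 p.2| * W p.2 D)) (c := fun θ => |θ| ^ q)
      (fun θ => by positivity) (by fun_prop)
      (measurable_family hF κ hw.smooth.continuous measurable_const measurable_id).aestronglyMeasurable
      ((hF.integrable_weight hw.smooth.continuous hw.compact D).const_mul _)
      (Eventually.of_forall hs)
    refine ⟨r1, r2.trans (le_of_eq ?_)⟩
    rw [integral_const_mul]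
    ring
  intro p
  have e : ∀ θ, |θ| ^ q * |k (2 * κ * (τ - p.1)) θ p.2 * w p.1 p.2| =
      |w p.1 p.2| * (|θ| ^ q * |k (2 * κ * (τ - p.1)) θ p.2|) := fun θ => by rw [abs_mul]; ring
  simp only [e]
  rcases eq_or_ne (w p.1 p.2) 0 with h0 | h0
  · simp [h0]
  obtain ⟨hs1, hs2⟩ := hw.supp _ _ h0
  have hlow : κ * (τ - t₀) ≤ 2 * κ * (τ - p.1) := by nlinarith
  have hv : 0 < 2 * κ * (τ - p.1) := lt_of_lt_of_le (mul_pos hκ (sub_pos.2 hτ)) hlow
  obtain ⟨hi, hb⟩ := hF.bound _ p.2 hv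
  refine ⟨hi.const_mul _, ?_⟩
  rw [integral_const_mul]
  calc |w p.1 p.2| * ∫ θ, |θ| ^ q * |k (2 * κ * (τ - p.1)) θ p.2|
      ≤ |w p.1 p.2| * (C * (max 1 (Real.sqrt (2 * κ)) ^ q * W p.2 D) /
          (Real.sqrt κ * D) ^ m) := by
        refine mul_le_mul_of_nonneg_left (hb.trans ?_) (abs_nonneg _)
        refine div_le_div₀ ?_ ?_ (by positivity) ?_
        · have := hF.weight_nonneg p.2 D hD.le
          positivity
        · exact mul_le_mul_of_nonneg_left (hF.weight_le p.2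
            (mul_le_mul_of_nonneg_left (by linarith) (by linarith)) hκ (sub_pos.2 hτ).le) hC
        · refine pow_le_pow_left₀ (by positivity) ?_ m
          rw [hDd, ← Real.sqrt_mul hκ.le]
          exact Real.sqrt_le_sqrt hlow
    _ = _ := by rw [hKd, mul_pow]; field_simp

/-- The all time bound for a family, for continuous sources starting at `t₀`. -/
theorem Family.allTime (hF : Family m q C k W) (hm : m ≤ 1) (hκ : 0 < κ) {f : ℝ → ℝ → ℝ}
    (hf : Continuous (Function.uncurry f)) (hc : HasCompactSupport (Function.uncurry f))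
    {t₀ L : ℝ} (hs : ∀ σ y, f σ y ≠ 0 → t₀ ≤ σ) (hL : 0 ≤ L) :
    IntegrableOn (fun x : ℝ × ℝ => |x.2| ^ q *
        |∫ p : ℝ × ℝ, k (2 * κ * (x.1 - p.1)) x.2 p.2 * f p.1 p.2|) (Iic (t₀ + L) ×ˢ univ) ∧
      ∫ x in Iic (t₀ + L) ×ˢ univ, |x.2| ^ q *
          |∫ p : ℝ × ℝ, k (2 * κ * (x.1 - p.1)) x.2 p.2 * f p.1 p.2| ≤
        2 * (C * max 1 (Real.sqrt (2 * κ)) ^ q) / Real.sqrt (2 * κ) ^ m *
          Real.sqrt L ^ (2 - m) * ∫ p : ℝ × ℝ, |f p.1 p.2| * W p.2 (Real.sqrt L) := by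
  set K := 2 * (C * max 1 (Real.sqrt (2 * κ)) ^ q) / Real.sqrt (2 * κ) ^ m *
    Real.sqrt L ^ (2 - m) with hKd
  have hC := hF.nonneg
  suffices hs' : ∀ p : ℝ × ℝ,
      IntegrableOn (fun x : ℝ × ℝ => |x.2| ^ q *
        |k (2 * κ * (x.1 - p.1)) x.2 p.2 * f p.1 p.2|) (Iic (t₀ + L) ×ˢ univ) ∧
      ∫ x in Iic (t₀ + L) ×ˢ univ, |x.2| ^ q *
          |k (2 * κ * (x.1 - p.1)) x.2 p.2 * f p.1 p.2| ≤
        K * (|f p.1 p.2| * W p.2 (Real.sqrt L)) by
    obtain ⟨r1, r2⟩ := dominate_abs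
      (μ := (volume : Measure (ℝ × ℝ)).restrict (Iic (t₀ + L) ×ˢ univ))
      (ν := (volume : Measure (ℝ × ℝ)))
      (F := fun x p => k (2 * κ * (x.1 - p.1)) x.2 p.2 * f p.1 p.2)
      (B := fun p => K * (|f p.1 p.2| * W p.2 (Real.sqrt L))) (c := fun x => |x.2| ^ q)
      (fun x => by positivity) (by fun_prop)
      (measurable_family hF κ hf measurable_fst measurable_snd).aestronglyMeasurable
      ((hF.integrable_weight hf hc _).const_mul _) (Eventually.of_forall hs')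
    refine ⟨r1, r2.trans (le_of_eq ?_)⟩
    rw [integral_const_mul]
  intro p
  have e : ∀ x : ℝ × ℝ, |x.2| ^ q * |k (2 * κ * (x.1 - p.1)) x.2 p.2 * f p.1 p.2| =
      |f p.1 p.2| * (|x.2| ^ q * |k (2 * κ * (x.1 - p.1)) x.2 p.2|) :=
    fun x => by rw [abs_mul]; ring
  simp only [e]
  rcases eq_or_ne (f p.1 p.2) 0 with h0 | h0
  · simp [h0]
  have hW := hF.weight_nonneg p.2 _ (Real.sqrt_nonneg L)
  have hS : MeasurableSet (Iic (t₀ + L) ×ˢ (univ : Set ℝ)) :=
    measurableSet_Iic.prod MeasurableSet.univ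
  have hs0 := hs _ _ h0
  rcases lt_or_ge (t₀ + L) p.1 with hb | hb
  · have hz : ∀ x ∈ Iic (t₀ + L) ×ˢ (univ : Set ℝ),
        |f p.1 p.2| * (|x.2| ^ q * |k (2 * κ * ((x : ℝ × ℝ).1 - p.1)) x.2 p.2|) = 0 :=
      fun x hx => by
        have h1 : x.1 ≤ t₀ + L := hx.1
        rw [hF.zero _ _ _ (mul_nonpos_of_nonneg_of_nonpos (by linarith) (by linarith))]
        simp
    refine ⟨IntegrableOn.congr_fun integrableOn_zero (fun x hx => (hz x hx).symm) hS, ?_⟩
    rw [setIntegral_congr_fun hS hz, integral_zero]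
    positivity
  obtain ⟨hi, hle⟩ := time_integral_le hκ hm hb
    (k := fun v θ => |θ| ^ q * |k v θ p.2|)
    ((measurable_snd.abs.pow_const q).mul ((hF.meas.comp
      (f := fun z : ℝ × ℝ => (z.1, z.2, p.2)) (by fun_prop)).abs))
    (fun v θ => by positivity) (fun v θ hv => by simp [hF.zero v θ p.2 hv])
    (P := C * (max 1 (Real.sqrt (2 * κ)) ^ q * W p.2 (Real.sqrt L))) (by positivity)
    fun v hv hvb => by
      obtain ⟨a1, a2⟩ := hF.bound v p.2 hv
      refine ⟨a1, a2.trans ?_⟩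
      gcongr
      exact hF.weight_le p.2 (hvb.trans (mul_le_mul_of_nonneg_left (by linarith) (by linarith)))
        hκ hL
  refine ⟨hi.const_mul _, ?_⟩
  rw [integral_const_mul]
  refine (mul_le_mul_of_nonneg_left (hle.trans ?_) (abs_nonneg _)).trans (le_of_eq
    (show |f p.1 p.2| * (K * W p.2 (Real.sqrt L)) = _ by ring))
  rw [hKd]
  calc 2 * (C * (max 1 (Real.sqrt (2 * κ)) ^ q * W p.2 (Real.sqrt L))) / Real.sqrt (2 * κ) ^ m *
        Real.sqrt (t₀ + L - p.1) ^ (2 - m)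
      ≤ 2 * (C * (max 1 (Real.sqrt (2 * κ)) ^ q * W p.2 (Real.sqrt L))) / Real.sqrt (2 * κ) ^ m *
        Real.sqrt L ^ (2 - m) := by
        gcongr
        linarith
    _ = _ := by ring

theorem potD_odd_eq {f : ℝ → ℝ → ℝ} (hκ : 0 < κ) (hm : m ≤ 1)
    (hf : Continuous (Function.uncurry f)) (hc : HasCompactSupport (Function.uncurry f))
    (τ θ : ℝ) : potD κ m (oddImage f) τ θ = oddPotD κ m f τ θ :=
  potD_odd fun θ' => integrable_potD hκ hm hf hc τ θ'

/-- Late bounds of all derivatives. -/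
theorem far_le (κ : ℝ) (hκ : 0 < κ) (m q : ℕ) : ∃ C, ∀ (w : ℝ → ℝ → ℝ) (t₀ h τ : ℝ),
    Source w t₀ h → t₀ + 2 * h ≤ τ → t₀ < τ →
    (Integrable (fun θ => |θ| ^ q * |potD κ m w τ θ|) ∧
      ∫ θ, |θ| ^ q * |potD κ m w τ θ| ≤ C * moment q (τ - t₀) w / Real.sqrt (τ - t₀) ^ m) ∧
    (1 ≤ q → Integrable (fun θ => |θ| ^ q * |potD κ m (oddImage w) τ θ|) ∧
      ∫ θ, |θ| ^ q * |potD κ m (oddImage w) τ θ| ≤
        C * oddMoment q (τ - t₀) w / Real.sqrt (τ - t₀) ^ m) := by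
  obtain ⟨C₁, h1⟩ := exists_plain m q
  set A₁ := C₁ * max 1 (Real.sqrt (2 * κ)) ^ q / Real.sqrt κ ^ m with hA₁
  rcases Nat.eq_zero_or_pos q with hq | hq
  · refine ⟨A₁, fun w t₀ h τ hw h2 hτ => ⟨h1.late hκ hw h2 hτ, fun hq1 => by omega⟩⟩
  obtain ⟨C₂, h2'⟩ := exists_odd m hq
  set A₂ := C₂ * max 1 (Real.sqrt (2 * κ)) ^ q / Real.sqrt κ ^ m with hA₂
  refine ⟨max A₁ A₂, fun w t₀ h τ hw h2 hτ => ?_⟩
  obtain ⟨r1, r2⟩ := h1.late hκ hw h2 hτ
  obtain ⟨s1, s2⟩ := h2'.late hκ hw h2 hτ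
  have e : ∀ θ, potD κ m (oddImage w) τ θ = oddPotD κ m w τ θ := fun θ =>
    potD_odd fun θ' => integrable_potD_late hκ hw m (by linarith [hw.time_nonneg]) θ'
  simp only [e]
  refine ⟨⟨r1, r2.trans ?_⟩, fun _ => ⟨s1, s2.trans ?_⟩⟩
  · exact div_le_div_of_nonneg_right (mul_le_mul_of_nonneg_right (le_max_left _ _)
      (integral_nonneg fun p => mul_nonneg (abs_nonneg _)
        (h1.weight_nonneg _ _ (Real.sqrt_nonneg _)))) (by positivity)
  · exact div_le_div_of_nonneg_right (mul_le_mul_of_nonneg_right (le_max_right _ _)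
      (integral_nonneg fun p => mul_nonneg (abs_nonneg _)
        (h2'.weight_nonneg _ _ (Real.sqrt_nonneg _)))) (by positivity)

/-- All time bounds, for continuous compactly supported sources with times `≥ t₀`. -/
theorem allTime_le (κ : ℝ) (hκ : 0 < κ) (q m : ℕ) (hm : m ≤ 1) :
    ∃ C, ∀ (f : ℝ → ℝ → ℝ) (t₀ L : ℝ), Continuous (Function.uncurry f) →
    HasCompactSupport (Function.uncurry f) → (∀ σ y, f σ y ≠ 0 → t₀ ≤ σ) → 0 ≤ L →
    (IntegrableOn (fun p : ℝ × ℝ => |p.2| ^ q * |potD κ m f p.1 p.2|)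
        (Iic (t₀ + L) ×ˢ univ) ∧
      ∫ p in Iic (t₀ + L) ×ˢ univ, |p.2| ^ q * |potD κ m f p.1 p.2| ≤
        C * Real.sqrt L ^ (2 - m) * moment q L f) ∧
    (1 ≤ q → IntegrableOn (fun p : ℝ × ℝ => |p.2| ^ q * |potD κ m (oddImage f) p.1 p.2|)
        (Iic (t₀ + L) ×ˢ univ) ∧
      ∫ p in Iic (t₀ + L) ×ˢ univ, |p.2| ^ q * |potD κ m (oddImage f) p.1 p.2| ≤
        C * Real.sqrt L ^ (2 - m) * oddMoment q L f) := by
  obtain ⟨C₁, h1⟩ := exists_plain m q
  set A₁ := 2 * (C₁ * max 1 (Real.sqrt (2 * κ)) ^ q) / Real.sqrt (2 * κ) ^ m with hA₁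
  rcases Nat.eq_zero_or_pos q with hq | hq
  · exact ⟨A₁, fun f t₀ L hf hc hs hL => ⟨h1.allTime hm hκ hf hc hs hL, fun hq1 => by omega⟩⟩
  obtain ⟨C₂, h2'⟩ := exists_odd m hq
  set A₂ := 2 * (C₂ * max 1 (Real.sqrt (2 * κ)) ^ q) / Real.sqrt (2 * κ) ^ m with hA₂
  refine ⟨max A₁ A₂, fun f t₀ L hf hc hs hL => ?_⟩
  obtain ⟨r1, r2⟩ := h1.allTime hm hκ hf hc hs hL
  obtain ⟨s1, s2⟩ := h2'.allTime hm hκ hf hc hs hL
  simp only [potD_odd_eq hκ hm hf hc]
  refine ⟨⟨r1, r2.trans ?_⟩, fun _ => ⟨s1, s2.trans ?_⟩⟩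
  · exact mul_le_mul_of_nonneg_right (mul_le_mul_of_nonneg_right (le_max_left _ _) (by positivity))
      (integral_nonneg fun p => mul_nonneg (abs_nonneg _)
        (h1.weight_nonneg _ _ (Real.sqrt_nonneg _)))
  · exact mul_le_mul_of_nonneg_right (mul_le_mul_of_nonneg_right (le_max_right _ _) (by positivity))
      (integral_nonneg fun p => mul_nonneg (abs_nonneg _)
        (h2'.weight_nonneg _ _ (Real.sqrt_nonneg _)))

/-- Space derivatives of potentials after the source has stopped. -/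
theorem far : FarStmt := by
  intro κ hκ m q
  obtain ⟨C, hC⟩ := far_le κ hκ m q
  refine ⟨C, fun w t₀ h τ hw h2 hτ => ?_⟩
  have ht : t₀ + h < τ := by linarith [hw.time_nonneg]
  rw [iteratedDeriv_pot hκ hw ht, iteratedDeriv_pot hκ hw.oddImage ht]
  exact ⟨(hC w t₀ h τ hw h2 hτ).1, fun hq => ((hC w t₀ h τ hw h2 hτ).2 hq).2⟩

/-- Potentials and their first space derivative, integrated over all times up to `t₀ + L`. -/
theorem allTimes : AllTimeStmt := by
  intro κ hκ q m hm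
  obtain ⟨C, hC⟩ := allTime_le κ hκ q m hm
  refine ⟨C, fun w t₀ h L hw hL => ?_⟩
  obtain ⟨hp, ho⟩ := hC w t₀ L hw.smooth.continuous hw.compact (fun σ y hne => (hw.supp σ y hne).1)
    hL.le
  have e : ∀ (g : ℝ → ℝ → ℝ), Source g t₀ h → ∀ τ,
      iteratedDeriv m (pot κ g τ) = potD κ m g τ := by
    intro g hg τ
    interval_cases m
    · funext θ
      simp [pot_eq_potD]
    · funext θ
      rw [iteratedDeriv_one]
      exact dY_pot_eq hκ hg.csrc τ θ
  simp only [e w hw, e _ hw.oddImage]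
  exact ⟨hp, fun hq => (ho hq).2⟩

end Vale.Agent.P363.Ext.Heat
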