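import Vale.Agent.P363.Ext.Heat.Kernel

/-!
Backward heat averages of late data: caloricity, natural bounds and parity.
-/

noncomputable section

namespace Vale.Agent.P363.Ext.Heat

open MeasureTheory Filter Set
open scoped BigOperators Topology

/-- The integrand of `heatAvg`. -/
def avgTerm (κ : ℝ) (g : ℝ × ℝ → ℝ) (m : ℕ) (σ y : ℝ) (p : ℝ × ℝ) : ℝ :=
  g p * kernD m (2 * κ * (p.1 - σ)) (y - p.2)

theorem heatAvg_eq (κ : ℝ) (g : ℝ × ℝ → ℝ) (m : ℕ) (σ y : ℝ) :
    heatAvg κ g m σ y = ∫ p, avgTerm κ g m σ y p :=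
  rfl

variable {κ : ℝ} {g : ℝ × ℝ → ℝ} {N : ℕ} {T A : ℝ}

theorem LateData.weight_pos (h : LateData g N T A) (p : ℝ × ℝ) :
    0 < (1 + |p.2| / Real.sqrt T) ^ N := by
  have := Real.sqrt_pos.2 h.pos
  positivity

theorem LateData.A_nonneg (h : LateData g N T A) : 0 ≤ A :=
  nonneg_of_mul_nonneg_left ((integral_nonneg fun p =>
    div_nonneg (abs_nonneg _) (h.weight_pos p).le).trans h.size) (Real.sqrt_pos.2 h.pos)

theorem LateData.aesm (h : LateData g N T A) : AEStronglyMeasurable g := by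
  refine (h.integrable.1.mul (g := fun p : ℝ × ℝ => (1 + |p.2| / Real.sqrt T) ^ N)
    (Measurable.aestronglyMeasurable (by fun_prop))).congr (Eventually.of_forall fun p => ?_)
  exact div_mul_cancel₀ _ (h.weight_pos p).ne'

theorem LateData.aesm_avgTerm (h : LateData g N T A) (m : ℕ) (σ y : ℝ) :
    AEStronglyMeasurable (avgTerm κ g m σ y) :=
  h.aesm.mul ((measurable_kernD m).comp (f := fun p : ℝ × ℝ => (2 * κ * (p.1 - σ), y - p.2))
    (by fun_prop)).aestronglyMeasurable

/-- The Gaussian derivatives absorb the polynomial weight, uniformly in the base point. -/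
theorem exists_avgTerm_bound (hκ : 0 < κ) (N m : ℕ) : ∃ C : ℝ, 0 ≤ C ∧
    ∀ (g : ℝ × ℝ → ℝ) (T A : ℝ), LateData g N T A → ∀ σ y : ℝ,
      σ ∈ Icc (-T) (3 * T / 4) → |y| ≤ 2 * Real.sqrt T → ∀ p : ℝ × ℝ,
        |avgTerm κ g m σ y p| ≤
          C / Real.sqrt T ^ (m + 1) * (|g p| / (1 + |p.2| / Real.sqrt T) ^ N) := by
  obtain ⟨C₀, hC₀, hb⟩ := exists_kernD_bound m
  set c : ℝ := 1 / (24 * κ) with hcd
  have hc : 0 < c := by positivity
  set k := Real.sqrt (κ / 2)
  have hk : 0 < k := Real.sqrt_pos.2 (by linarith)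
  refine ⟨C₀ / k ^ (m + 1) * (3 ^ N * (N.factorial * Real.exp (1 + 1 / (2 * c)))),
    by positivity, fun g T A h σ y hσ hy p => ?_⟩
  rcases eq_or_ne (g p) 0 with h0 | h0
  · simp [avgTerm, h0]
  obtain ⟨hp1, hp2⟩ := h.time p h0
  have hT := h.pos
  set v := 2 * κ * (p.1 - σ) with hv
  set rT := Real.sqrt T with hrT
  have hr : 0 < rT := Real.sqrt_pos.2 hT
  have hvlow : κ / 2 * T ≤ v := by
    rw [hv]
    nlinarith [mul_le_mul_of_nonneg_left (show T / 4 ≤ p.1 - σ by linarith [hσ.2]) hκ.le]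
  have hv0 : 0 < v := lt_of_lt_of_le (by positivity) hvlow
  have hvup : v ≤ 6 * κ * T := by
    rw [hv]
    nlinarith [mul_le_mul_of_nonneg_left (show p.1 - σ ≤ 3 * T by linarith [hσ.1]) hκ.le]
  set z := (y - p.2) / rT with hz
  have hexp : Real.exp (-((y - p.2) ^ 2 / (4 * v))) ≤ Real.exp (-(c * z ^ 2)) := by
    refine Real.exp_le_exp.2 (neg_le_neg ?_)
    rw [hz, div_pow, hrT, Real.sq_sqrt hT.le, hcd, one_div_mul_eq_div, div_div]
    exact div_le_div_of_nonneg_left (sq_nonneg _) (by positivity) (by linarith)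
  have hwt : 1 + |p.2| / rT ≤ 3 * (1 + |z|) := by
    have h1 : |p.2| ≤ |y| + |y - p.2| := by
      calc |p.2| = |y - (y - p.2)| := by ring_nf
        _ ≤ _ := abs_sub _ _
    have h2 : |p.2| / rT ≤ 2 + |z| := by
      rw [hz, abs_div, abs_of_pos hr, div_le_iff₀ hr, add_mul, div_mul_cancel₀ _ hr.ne']
      linarith
    linarith [abs_nonneg z]
  have hsq : k * rT ≤ Real.sqrt v := by
    rw [hrT, ← Real.sqrt_mul (by linarith)]
    exact Real.sqrt_le_sqrt hvlow
  rw [avgTerm, abs_mul, ← hv]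
  calc |g p| * |kernD m v (y - p.2)|
      ≤ |g p| * (C₀ / (k * rT) ^ (m + 1) * Real.exp (-(c * z ^ 2))) := by
        refine mul_le_mul_of_nonneg_left ((hb v _ hv0).trans ?_) (abs_nonneg _)
        gcongr
    _ = C₀ / k ^ (m + 1) / rT ^ (m + 1) * (|g p| / (1 + |p.2| / rT) ^ N) *
          ((1 + |p.2| / rT) ^ N * Real.exp (-(c * z ^ 2))) := by
        have hne : (1 + |p.2| / rT) ^ N ≠ 0 := (h.weight_pos p).ne'
        rw [mul_pow, div_div, mul_assoc, ← mul_assoc (|g p| / _) _ _, div_mul_cancel₀ _ hne]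
        ring
    _ ≤ C₀ / k ^ (m + 1) / rT ^ (m + 1) * (|g p| / (1 + |p.2| / rT) ^ N) *
          (3 ^ N * (N.factorial * Real.exp (1 + 1 / (2 * c)))) := by
        refine mul_le_mul_of_nonneg_left ?_ (by positivity)
        calc (1 + |p.2| / rT) ^ N * Real.exp (-(c * z ^ 2))
            ≤ (3 * (1 + |z|)) ^ N * Real.exp (-(c * z ^ 2)) := by gcongr
          _ = 3 ^ N * ((1 + |z|) ^ N * Real.exp (-(c * z ^ 2))) := by rw [mul_pow]; ring
          _ ≤ _ := by
              refine mul_le_mul_of_nonneg_left ((pow_mul_exp_le N hc z).trans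
                (mul_le_of_le_one_right (by positivity) ?_)) (by positivity)
              exact Real.exp_le_one_iff.2 (by nlinarith [sq_nonneg z])
    _ = _ := by ring

theorem LateData.integrable_abs (h : LateData g N T A) :
    Integrable fun p : ℝ × ℝ => |g p| / (1 + |p.2| / Real.sqrt T) ^ N :=
  h.integrable.abs.congr (Eventually.of_forall fun p => by
    simp only [abs_div, abs_of_pos (h.weight_pos p)])

theorem LateData.integrable_avgTerm (h : LateData g N T A) (hκ : 0 < κ) (m : ℕ) {σ y : ℝ}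
    (hσ : σ ∈ Icc (-T) (3 * T / 4)) (hy : |y| ≤ 2 * Real.sqrt T) :
    Integrable (avgTerm κ g m σ y) := by
  obtain ⟨C, -, hC⟩ := exists_avgTerm_bound hκ N m
  exact (h.integrable_abs.const_mul _).mono' (h.aesm_avgTerm m σ y)
    (Eventually.of_forall fun p => by rw [Real.norm_eq_abs]; exact hC g T A h σ y hσ hy p)

/-- Heat averages are caloric with the natural bounds. -/
theorem avg : AvgStmt := by
  intro κ hκ N m
  obtain ⟨C, hC0, hC⟩ := exists_avgTerm_bound hκ N m
  obtain ⟨C₁, -, hC₁⟩ := exists_avgTerm_bound hκ N (m + 1)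
  obtain ⟨C₂, -, hC₂⟩ := exists_avgTerm_bound hκ N (m + 2)
  refine ⟨C, fun g T A h σ y hσ0 hσT hy => ?_⟩
  have hT := h.pos
  have hr : 0 < Real.sqrt T := Real.sqrt_pos.2 hT
  have hσI : σ ∈ Icc (-T) (3 * T / 4) := ⟨by linarith, by linarith⟩
  have hy2 : |y| ≤ 2 * Real.sqrt T := by linarith
  have hv : ∀ {p : ℝ × ℝ}, g p ≠ 0 → ∀ {s : ℝ}, s < T → 0 < 2 * κ * (p.1 - s) :=
    fun hp s hs => mul_pos (by linarith) (by linarith [(h.time _ hp).1])
  refine ⟨?_, ?_, ?_⟩
  · refine (hasDerivAt_integral_of_dominated_loc_of_deriv_le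
      (F := fun z p => avgTerm κ g m σ z p) (F' := fun z p => avgTerm κ g (m + 1) σ z p)
      (Metric.ball_mem_nhds y hr) (Eventually.of_forall fun z => h.aesm_avgTerm m σ z)
      (h.integrable_avgTerm hκ m hσI hy2) (h.aesm_avgTerm (m + 1) σ y)
      (Eventually.of_forall fun p z hz => ?_)
      (h.integrable_abs.const_mul (C₁ / Real.sqrt T ^ (m + 1 + 1)))
      (Eventually.of_forall fun p z hz => ?_)).2
    · rw [Metric.mem_ball, Real.dist_eq] at hz
      rw [Real.norm_eq_abs]
      exact hC₁ g T A h σ z hσI (by linarith [abs_sub_abs_le_abs_sub z y]) p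
    · rcases eq_or_ne (g p) 0 with h0 | h0
      · simp only [avgTerm, h0, zero_mul]
        exact hasDerivAt_const z 0
      · exact ((hasDerivAt_kernD (hv h0 (by linarith : σ < T)) m (z - p.2)).comp_sub_const z p.2
          ).const_mul (g p)
  · have e : -κ * heatAvg κ g (m + 2) σ y = ∫ p, -κ * avgTerm κ g (m + 2) σ y p :=
      (integral_const_mul _ _).symm
    rw [e]
    refine (hasDerivAt_integral_of_dominated_loc_of_deriv_le
      (F := fun s p => avgTerm κ g m s y p) (F' := fun s p => -κ * avgTerm κ g (m + 2) s y p)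
      (Metric.ball_mem_nhds σ (show 0 < T / 4 by linarith))
      (Eventually.of_forall fun s => h.aesm_avgTerm m s y)
      (h.integrable_avgTerm hκ m hσI hy2) ((h.aesm_avgTerm (m + 2) σ y).const_mul _)
      (Eventually.of_forall fun p s hs => ?_)
      ((h.integrable_abs.const_mul (C₂ / Real.sqrt T ^ (m + 2 + 1))).const_mul κ)
      (Eventually.of_forall fun p s hs => ?_)).2
    · rw [Metric.mem_ball, Real.dist_eq, abs_lt] at hs
      rw [Real.norm_eq_abs, abs_mul, abs_neg, abs_of_pos hκ]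
      exact mul_le_mul_of_nonneg_left
        (hC₂ g T A h s y ⟨by linarith, by linarith⟩ hy2 p) hκ.le
    · rw [Metric.mem_ball, Real.dist_eq, abs_lt] at hs
      rcases eq_or_ne (g p) 0 with h0 | h0
      · simp only [avgTerm, h0, zero_mul, mul_zero]
        exact hasDerivAt_const s 0
      · have hk := ((hasDerivAt_kernD_var (hv h0 (by linarith : s < T)) m (y - p.2)).comp s
          (((hasDerivAt_id s).const_sub p.1).const_mul (2 * κ))).const_mul (g p)
        exact hk.congr_deriv (by simp only [avgTerm]; ring)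
  · rw [heatAvg_eq]
    refine (abs_integral_le_integral_abs.trans (integral_mono
      (h.integrable_avgTerm hκ m hσI hy2).abs (h.integrable_abs.const_mul _)
      fun p => hC g T A h σ y hσI hy2 p)).trans ?_
    rw [integral_const_mul]
    refine (mul_le_mul_of_nonneg_left h.size (by positivity)).trans (le_of_eq ?_)
    rw [pow_succ]
    field_simp

/-- Odd derivatives of averages of even data vanish on the plane. -/
theorem heatAvg_odd_zero (heven : ∀ τ θ, g (τ, -θ) = g (τ, θ)) {m : ℕ} (hm : Odd m) (σ : ℝ) :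
    heatAvg κ g m σ 0 = 0 := by
  set S : ℝ × ℝ → ℝ × ℝ := Prod.map id Neg.neg
  have hS : MeasurePreserving S :=
    (MeasurePreserving.id (volume : Measure ℝ)).prod (Measure.measurePreserving_neg volume)
  have hemb : MeasurableEmbedding S :=
    ((Homeomorph.refl ℝ).prodCongr (Homeomorph.neg ℝ)).measurableEmbedding
  have h := hS.integral_comp hemb (avgTerm κ g m σ 0)
  have e : ∀ p : ℝ × ℝ, avgTerm κ g m σ 0 (S p) = -avgTerm κ g m σ 0 p := by
    intro p
    simp only [avgTerm, S, Prod.map, id, heven, sub_neg_eq_add, zero_add, zero_sub, kernD_neg,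
      hm.neg_one_pow]
    ring
  simp only [e, integral_neg] at h
  rw [heatAvg_eq]
  linarith

end Vale.Agent.P363.Ext.Heat
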