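import Vale.Agent.P363.Ext.Heat.Spec
import Mathlib.RingTheory.Polynomial.Hermite.Gaussian

/-!
The Gaussian family `kernD`: derivatives, envelope, moments and odd images.
-/

noncomputable section

namespace Vale.Agent.P363.Ext.Heat

open MeasureTheory Filter Set Polynomial
open scoped BigOperators Topology

/-- The profile of the `m`-th derivative of the unit Gaussian. -/
def prof (m : ℕ) (z : ℝ) : ℝ :=
  (-1) ^ m * aeval z (hermite m) * Real.exp (-(z ^ 2 / 2)) / Real.sqrt (2 * Real.pi)

theorem kernD_eq {v : ℝ} (hv : 0 < v) (m : ℕ) (x : ℝ) :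
    kernD m v x = prof m (x / Real.sqrt v) / Real.sqrt v ^ (m + 1) := by
  have hs : 0 < Real.sqrt v := Real.sqrt_pos.2 hv
  have e : (x / Real.sqrt v) ^ 2 / 2 = x ^ 2 / (2 * v) := by
    rw [div_pow, Real.sq_sqrt hv.le, div_div, mul_comm v 2]
  rw [kernD, kern, prof, e, Real.sqrt_mul (by positivity)]
  field_simp
  ring

theorem kernD_of_nonpos {v : ℝ} (hv : v ≤ 0) (m : ℕ) (x : ℝ) : kernD m v x = 0 := by
  rw [kernD, kern, Real.sqrt_eq_zero_of_nonpos (x := 2 * Real.pi * v)
    (mul_nonpos_of_nonneg_of_nonpos (by positivity) hv)]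
  simp

theorem kernD_zero (v x : ℝ) : kernD 0 v x = kern v x := by simp [kernD]

theorem hasDerivAt_prof (m : ℕ) (z : ℝ) : HasDerivAt (prof m) (prof (m + 1) z) z := by
  have h1 : HasDerivAt (fun y : ℝ => Real.exp (-(y ^ 2 / 2)))
      (Real.exp (-(z ^ 2 / 2)) * (-z)) z := by
    have h := (((hasDerivAt_id z).pow 2).div_const 2).neg.exp
    exact h.congr_deriv (by simp)
  have h := (((Polynomial.hasDerivAt_aeval (hermite m) z).const_mul ((-1 : ℝ) ^ m)).mul
    h1).div_const (Real.sqrt (2 * Real.pi))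
  refine (h.congr_of_eventuallyEq (Eventually.of_forall fun y => ?_)).congr_deriv ?_
  · simp [prof]
  · simp only [prof, hermite_succ, map_sub, map_mul, aeval_X, pow_succ]
    ring

theorem continuous_prof (m : ℕ) : Continuous (prof m) :=
  continuous_iff_continuousAt.2 fun z => (hasDerivAt_prof m z).continuousAt

theorem prof_one (z : ℝ) : prof 1 z = -z * prof 0 z := by
  simp [prof]
  ring

theorem prof_rec : ∀ (m : ℕ) (z : ℝ), prof (m + 2) z = -z * prof (m + 1) z - (m + 1) * prof m z
  | 0, z => by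
    have h := ((hasDerivAt_id z).neg.mul (hasDerivAt_prof 0 z))
    have h' : HasDerivAt (prof 1) (-1 * prof 0 z + -z * prof 1 z) z :=
      h.congr_of_eventuallyEq (Eventually.of_forall fun y => by simp [prof_one])
    rw [(hasDerivAt_prof 1 z).unique h']
    simp
    ring
  | m + 1, z => by
    have h := ((hasDerivAt_id z).neg.mul (hasDerivAt_prof (m + 1) z)).sub
      ((hasDerivAt_prof m z).const_mul ((m : ℝ) + 1))
    have h' : HasDerivAt (prof (m + 2))
        (-1 * prof (m + 1) z + -z * prof (m + 2) z - ((m : ℝ) + 1) * prof (m + 1) z) z :=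
      h.congr_of_eventuallyEq (Eventually.of_forall fun y => by simp [prof_rec m y])
    rw [(hasDerivAt_prof (m + 2) z).unique h']
    push_cast
    ring

theorem prof_neg : ∀ (m : ℕ) (z : ℝ), prof m (-z) = (-1) ^ m * prof m z
  | 0, z => by simp [prof]
  | 1, z => by rw [prof_one, prof_one, prof_neg 0]; ring
  | m + 2, z => by
    rw [prof_rec, prof_rec, prof_neg (m + 1), prof_neg m, pow_succ, pow_succ]
    ring

theorem exists_prof_bound : ∀ m : ℕ, ∃ C, 0 ≤ C ∧
    ∀ z, |prof m z| ≤ C * (1 + |z|) ^ m * Real.exp (-(z ^ 2 / 2)) := by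
  suffices H : ∀ m : ℕ, (∃ C, 0 ≤ C ∧
      ∀ z, |prof m z| ≤ C * (1 + |z|) ^ m * Real.exp (-(z ^ 2 / 2))) ∧ ∃ C, 0 ≤ C ∧
      ∀ z, |prof (m + 1) z| ≤ C * (1 + |z|) ^ (m + 1) * Real.exp (-(z ^ 2 / 2)) from
    fun m => (H m).1
  intro m
  induction m with
  | zero =>
    have hs : 0 < Real.sqrt (2 * Real.pi) := by positivity
    have h0 : ∀ z, |prof 0 z| = (Real.sqrt (2 * Real.pi))⁻¹ * Real.exp (-(z ^ 2 / 2)) := by
      intro z
      rw [prof, pow_zero, hermite_zero, one_mul, abs_div, abs_of_pos hs, div_eq_inv_mul]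
      simp
    refine ⟨⟨_, inv_nonneg.2 hs.le, fun z => ?_⟩, ⟨_, inv_nonneg.2 hs.le, fun z => ?_⟩⟩
    · rw [h0, pow_zero, mul_one]
    · rw [prof_one, abs_mul, abs_neg, h0, zero_add, pow_one]
      nlinarith [abs_nonneg z, mul_pos (inv_pos.2 hs) (Real.exp_pos (-(z ^ 2 / 2)))]
  | succ m ih =>
    obtain ⟨⟨C, hC, hb⟩, C', hC', hb'⟩ := ih
    refine ⟨⟨C', hC', hb'⟩, C' + (m + 1) * C, by positivity, fun z => ?_⟩
    have he := (Real.exp_pos (-(z ^ 2 / 2))).le
    have hp : (1 + |z|) ^ m ≤ (1 + |z|) ^ (m + 2) :=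
      pow_le_pow_right₀ (le_add_of_nonneg_right (abs_nonneg z)) (by omega)
    calc |prof (m + 2) z| ≤ |z| * |prof (m + 1) z| + (m + 1) * |prof m z| := by
          rw [prof_rec]
          refine (abs_sub _ _).trans (le_of_eq ?_)
          rw [abs_mul, abs_neg, abs_mul, abs_of_nonneg (by positivity : (0 : ℝ) ≤ m + 1)]
      _ ≤ (1 + |z|) * (C' * (1 + |z|) ^ (m + 1) * Real.exp (-(z ^ 2 / 2))) +
          (m + 1) * (C * (1 + |z|) ^ (m + 2) * Real.exp (-(z ^ 2 / 2))) :=
          add_le_add (mul_le_mul (by linarith) (hb' z) (abs_nonneg _) (by positivity))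
            (mul_le_mul_of_nonneg_left ((hb z).trans (by gcongr)) (by positivity))
      _ = _ := by ring

/-- Powers are absorbed by half of a Gaussian. -/
theorem pow_mul_exp_le (n : ℕ) {c : ℝ} (hc : 0 < c) (z : ℝ) :
    (1 + |z|) ^ n * Real.exp (-(c * z ^ 2)) ≤
      n.factorial * Real.exp (1 + 1 / (2 * c)) * Real.exp (-(c / 2 * z ^ 2)) := by
  have h := Real.pow_div_factorial_le_exp (x := 1 + |z|) (by positivity) n
  rw [div_le_iff₀ (by positivity)] at h
  have hz : |z| ≤ c / 2 * z ^ 2 + 1 / (2 * c) := by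
    rw [← sq_abs z]
    have : 0 ≤ (c * |z| - 1) ^ 2 / (2 * c) := div_nonneg (sq_nonneg _) (by linarith)
    have e : (c * |z| - 1) ^ 2 / (2 * c) = c / 2 * |z| ^ 2 - |z| + 1 / (2 * c) := by
      field_simp
      ring
    linarith
  calc (1 + |z|) ^ n * Real.exp (-(c * z ^ 2))
      ≤ Real.exp (1 + |z|) * n.factorial * Real.exp (-(c * z ^ 2)) := by gcongr
    _ = n.factorial * Real.exp (1 + |z| - c * z ^ 2) := by
        rw [sub_eq_add_neg, Real.exp_add (1 + |z|)]; ring
    _ ≤ n.factorial * Real.exp (1 + 1 / (2 * c) + -(c / 2 * z ^ 2)) := by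
        gcongr
        linarith
    _ = _ := by rw [Real.exp_add]; ring

theorem exists_prof_gauss (m : ℕ) : ∃ C, 0 ≤ C ∧
    ∀ z, |prof m z| ≤ C * Real.exp (-(z ^ 2 / 4)) := by
  obtain ⟨C, hC, hb⟩ := exists_prof_bound m
  refine ⟨C * (m.factorial * Real.exp (1 + 1 / (2 * (1 / 2)))), by positivity, fun z => ?_⟩
  refine (hb z).trans ?_
  rw [mul_assoc, mul_assoc]
  refine mul_le_mul_of_nonneg_left ?_ hC
  have h := pow_mul_exp_le m (show (0 : ℝ) < 1 / 2 by norm_num) z
  rw [show (1 : ℝ) / 2 * z ^ 2 = z ^ 2 / 2 by ring,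
    show (1 : ℝ) / 2 / 2 * z ^ 2 = z ^ 2 / 4 by ring] at h
  exact h.trans (le_of_eq (by ring))

/-- The Gaussian envelope of `kernD`. -/
theorem exists_kernD_bound (m : ℕ) : ∃ C, 0 ≤ C ∧ ∀ v x, 0 < v →
    |kernD m v x| ≤ C / Real.sqrt v ^ (m + 1) * Real.exp (-(x ^ 2 / (4 * v))) := by
  obtain ⟨C, hC, hb⟩ := exists_prof_gauss m
  refine ⟨C, hC, fun v x hv => ?_⟩
  rw [kernD_eq hv, abs_div, abs_of_pos (pow_pos (Real.sqrt_pos.2 hv) _), div_mul_eq_mul_div]
  gcongr
  refine (hb (x / Real.sqrt v)).trans (le_of_eq ?_)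
  rw [div_pow, Real.sq_sqrt hv.le, div_div, mul_comm v 4]

theorem hasDerivAt_kernD {v : ℝ} (hv : 0 < v) (m : ℕ) (x : ℝ) :
    HasDerivAt (kernD m v) (kernD (m + 1) v x) x := by
  have h := (((hasDerivAt_prof m (x / Real.sqrt v)).comp x
    ((hasDerivAt_id x).div_const _))).div_const (Real.sqrt v ^ (m + 1))
  refine (h.congr_of_eventuallyEq (Eventually.of_forall fun y => ?_)).congr_deriv ?_
  · simp [kernD_eq hv]
  · rw [kernD_eq hv, pow_succ _ (m + 1)]
    have := (Real.sqrt_pos.2 hv).ne'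
    field_simp

theorem hasDerivAt_kernD_var {v : ℝ} (hv : 0 < v) (m : ℕ) (x : ℝ) :
    HasDerivAt (fun w => kernD m w x) (kernD (m + 2) v x / 2) v := by
  have hs := Real.sqrt_pos.2 hv
  have hsd := Real.hasDerivAt_sqrt hv.ne'
  have hz := (hasDerivAt_const v x).div hsd hs.ne'
  have h := ((hasDerivAt_prof m (x / Real.sqrt v)).comp v hz).div (hsd.pow (m + 1))
    (pow_ne_zero _ hs.ne')
  refine (h.congr_of_eventuallyEq ?_).congr_deriv ?_
  · filter_upwards [Ioi_mem_nhds hv] with w hw
    rw [kernD_eq hw]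
    simp
  · rw [kernD_eq hv, prof_rec]
    push_cast
    simp only [Function.comp_apply, zero_mul, zero_sub, Pi.div_apply,
      Pi.pow_apply, pow_succ]
    field_simp

theorem kernD_neg {v : ℝ} (m : ℕ) (x : ℝ) : kernD m v (-x) = (-1) ^ m * kernD m v x := by
  rcases le_or_gt v 0 with hv | hv
  · simp [kernD_of_nonpos hv]
  · rw [kernD_eq hv, kernD_eq hv, neg_div, prof_neg]
    ring

theorem contDiffOn_kernD (m : ℕ) {n : WithTop ℕ∞} :
    ContDiffOn ℝ n (fun p : ℝ × ℝ => kernD m p.1 p.2) (Ioi 0 ×ˢ univ) := by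
  intro p hp
  have hv : 0 < p.1 := hp.1
  refine ContDiffAt.contDiffWithinAt ?_
  have hs : ContDiffAt ℝ n (fun q : ℝ × ℝ => Real.sqrt q.1) p := contDiffAt_fst.sqrt hv.ne'
  have hz : ContDiffAt ℝ n (fun q : ℝ × ℝ => q.2 / Real.sqrt q.1) p :=
    contDiffAt_snd.div hs (Real.sqrt_pos.2 hv).ne'
  have hP : ContDiffAt ℝ n (fun z : ℝ => prof m z) (p.2 / Real.sqrt p.1) := by
    refine ContDiff.contDiffAt ?_
    refine ((contDiff_const.mul ?_).mul ((contDiff_id.pow 2).div_const 2).neg.exp).div_const _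
    simp only [aeval_def, eval₂_eq_sum, Polynomial.sum]
    exact ContDiff.sum fun i _ => contDiff_const.mul (contDiff_id.pow i)
  refine ((hP.comp p hz).div (hs.pow (m + 1))
    (pow_ne_zero _ (Real.sqrt_pos.2 hv).ne')).congr_of_eventuallyEq ?_
  filter_upwards [(isOpen_Ioi.preimage continuous_fst).mem_nhds hv] with q hq
  exact kernD_eq hq m q.2

theorem measurable_kernD (m : ℕ) : Measurable fun p : ℝ × ℝ => kernD m p.1 p.2 := by
  unfold kernD kern
  fun_prop

/-- The Gaussian derivatives solve the heat equation after their initial time. -/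
theorem kernSol : KernSolStmt := by
  intro κ σ₀ y m hκ
  have hv : ∀ {τ : ℝ}, σ₀ < τ → 0 < 2 * κ * (τ - σ₀) := fun h => by
    have := sub_pos.2 h
    positivity
  refine ⟨?_, fun τ θ hτ => ?_, fun τ θ hτ => ?_⟩
  · refine (contDiffOn_kernD m).comp (f := fun p : ℝ × ℝ => (2 * κ * (p.1 - σ₀), p.2 - y))
      (ContDiff.contDiffOn (by fun_prop)) fun p hp => ?_
    exact ⟨hv hp.1, trivial⟩
  · refine HasDerivAt.deriv ?_
    have h := (hasDerivAt_kernD_var (hv hτ) m (θ - y)).comp τ
      (((hasDerivAt_id τ).sub_const σ₀).const_mul (2 * κ))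
    exact h.congr_deriv (by simp; ring)
  · refine HasDerivAt.deriv ?_
    have h := (hasDerivAt_kernD (hv hτ) m (θ - y)).comp θ ((hasDerivAt_id θ).sub_const y)
    exact h.congr_deriv (by simp)

theorem integrable_pow_exp (q : ℕ) {c : ℝ} (hc : 0 < c) :
    Integrable fun z : ℝ => (1 + |z|) ^ q * Real.exp (-(c * z ^ 2)) := by
  refine ((integrable_exp_neg_mul_sq (half_pos hc)).const_mul
    (q.factorial * Real.exp (1 + 1 / (2 * c)))).mono' (by fun_prop)
    (Eventually.of_forall fun z => ?_)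
  rw [Real.norm_eq_abs, abs_of_nonneg (by positivity)]
  convert pow_mul_exp_le q hc z using 3
  ring

/-- Moments of a Gaussian of variance of order `v` centred at `y`. -/
theorem moment_exp_le (q : ℕ) {c : ℝ} (hc : 0 < c) {v : ℝ} (hv : 0 < v) (y : ℝ) :
    Integrable (fun θ => |θ| ^ q * Real.exp (-(c * ((θ - y) ^ 2 / v)))) ∧
      ∫ θ, |θ| ^ q * Real.exp (-(c * ((θ - y) ^ 2 / v))) ≤
        Real.sqrt v * (|y| + Real.sqrt v) ^ q *
          ∫ z : ℝ, (1 + |z|) ^ q * Real.exp (-(c * z ^ 2)) := by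
  set s := Real.sqrt v with hsd
  have hs : 0 < s := Real.sqrt_pos.2 hv
  set F : ℝ → ℝ := fun z => (1 + |z|) ^ q * Real.exp (-(c * z ^ 2)) with hF
  have hG : Integrable fun θ => (|y| + s) ^ q * F ((θ - y) / s) :=
    (((integrable_pow_exp q hc).comp_div hs.ne').comp_sub_right y).const_mul _
  have hle : ∀ θ, |θ| ^ q * Real.exp (-(c * ((θ - y) ^ 2 / v))) ≤
      (|y| + s) ^ q * F ((θ - y) / s) := by
    intro θ
    rw [hF]
    simp only
    rw [div_pow, hsd, Real.sq_sqrt hv.le, ← mul_assoc, ← mul_pow]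
    gcongr
    rw [← hsd, abs_div, abs_of_pos hs]
    have h1 : |θ| ≤ |y| + |θ - y| := by
      simpa using abs_add_le y (θ - y)
    have h2 : s * (|θ - y| / s) = |θ - y| := by field_simp
    nlinarith [mul_nonneg (abs_nonneg y) (div_nonneg (abs_nonneg (θ - y)) hs.le)]
  have hI : Integrable fun θ => |θ| ^ q * Real.exp (-(c * ((θ - y) ^ 2 / v))) :=
    hG.mono' (by fun_prop) (Eventually.of_forall fun θ => by
      rw [Real.norm_eq_abs, abs_of_nonneg (by positivity)]; exact hle θ)
  refine ⟨hI, (integral_mono hI hG hle).trans (le_of_eq ?_)⟩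
  rw [integral_const_mul, integral_sub_right_eq_self (fun θ => F (θ / s)) y,
    Measure.integral_comp_div F s, abs_of_pos hs, smul_eq_mul]
  ring

/-- Weighted `L¹` norms of the Gaussian derivatives and of their odd images. -/
theorem moments : MomentStmt := by
  intro m q
  obtain ⟨C₀, hC₀, hb₀⟩ := exists_kernD_bound m
  obtain ⟨C₁, hC₁, hb₁⟩ := exists_kernD_bound (m + 1)
  set I : ℝ → ℝ := fun c => ∫ z : ℝ, (1 + |z|) ^ q * Real.exp (-(c * z ^ 2)) with hId
  have hI0 : ∀ c, 0 ≤ I c := fun c => integral_nonneg fun z => by positivity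
  set K₀ := C₀ * I (1 / 4) with hK₀
  set K₁ := C₁ * Real.exp (1 / 4) * I (1 / 8) with hK₁
  have hK₀0 : 0 ≤ K₀ := mul_nonneg hC₀ (hI0 _)
  have hK₁0 : 0 ≤ K₁ := mul_nonneg (by positivity) (hI0 _)
  have hp : (0 : ℝ) < 2 ^ q := by positivity
  refine ⟨(4 * K₀ + 2 * K₁) * 2 ^ q, fun v y hv => ?_⟩
  have hs : 0 < Real.sqrt v := Real.sqrt_pos.2 hv
  have hmeas : ∀ y, AEStronglyMeasurable (fun θ => |θ| ^ q * |kernD m v (θ - y)|) volume :=
    fun y => (Continuous.mul (by fun_prop) (Continuous.abs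
      ((continuous_iff_continuousAt.2 fun x => (hasDerivAt_kernD hv m x).continuousAt).comp
        (by fun_prop)))).aestronglyMeasurable
  have base : ∀ y, Integrable (fun θ => |θ| ^ q * |kernD m v (θ - y)|) ∧
      ∫ θ, |θ| ^ q * |kernD m v (θ - y)| ≤ K₀ * (|y| + Real.sqrt v) ^ q / Real.sqrt v ^ m := by
    intro y
    obtain ⟨hi, hm⟩ := moment_exp_le q (show (0 : ℝ) < 1 / 4 by norm_num) hv y
    have hle : ∀ θ, |θ| ^ q * |kernD m v (θ - y)| ≤ C₀ / Real.sqrt v ^ (m + 1) *
        (|θ| ^ q * Real.exp (-(1 / 4 * ((θ - y) ^ 2 / v)))) := by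
      intro θ
      rw [mul_left_comm]
      refine mul_le_mul_of_nonneg_left ((hb₀ v _ hv).trans (le_of_eq ?_)) (by positivity)
      congr 3
      field_simp
    have hI := (hi.const_mul (C₀ / Real.sqrt v ^ (m + 1))).mono' (hmeas y)
      (Eventually.of_forall fun θ => by
        rw [Real.norm_eq_abs, abs_of_nonneg (by positivity)]; exact hle θ)
    refine ⟨hI, (integral_mono hI (hi.const_mul _) hle).trans ?_⟩
    rw [integral_const_mul]
    refine (mul_le_mul_of_nonneg_left hm (by positivity)).trans (le_of_eq ?_)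
    rw [hK₀, hId, pow_succ]
    field_simp
  refine ⟨⟨(base y).1, (base y).2.trans ?_⟩, fun hq => ?_⟩
  · gcongr
    nlinarith [one_le_pow₀ (one_le_two (α := ℝ)) (n := q)]
  obtain ⟨q', rfl⟩ := Nat.exists_eq_add_of_le' hq
  rw [Nat.add_sub_cancel]
  set s := Real.sqrt v with hsd
  have hdiff : Integrable fun θ =>
      |θ| ^ (q' + 1) * |kernD m v (θ - y) - kernD m v (θ + y)| := by
    refine ((base y).1.add (base (-y)).1).mono' ?_ (Eventually.of_forall fun θ => ?_)
    · exact (Continuous.mul (by fun_prop) (Continuous.abs (Continuous.sub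
        ((continuous_iff_continuousAt.2 fun x => (hasDerivAt_kernD hv m x).continuousAt).comp
          (by fun_prop))
        ((continuous_iff_continuousAt.2 fun x => (hasDerivAt_kernD hv m x).continuousAt).comp
          (by fun_prop))))).aestronglyMeasurable
    · rw [Real.norm_eq_abs, abs_of_nonneg (by positivity)]
      simp only [Pi.add_apply, sub_neg_eq_add, ← mul_add]
      exact mul_le_mul_of_nonneg_left (abs_sub _ _) (by positivity)
  rcases le_or_gt |y| s with hy | hy
  · obtain ⟨hi, hm⟩ := moment_exp_le (q' + 1) (show (0 : ℝ) < 1 / 8 by norm_num) hv 0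
    simp only [sub_zero, abs_zero, zero_add] at hi hm
    have hle : ∀ θ, |θ| ^ (q' + 1) * |kernD m v (θ - y) - kernD m v (θ + y)| ≤
        2 * |y| * (C₁ * Real.exp (1 / 4) / s ^ (m + 2)) *
          (|θ| ^ (q' + 1) * Real.exp (-(1 / 8 * (θ ^ 2 / v)))) := by
      intro θ
      rw [mul_left_comm]
      refine mul_le_mul_of_nonneg_left ?_ (by positivity)
      have key := (convex_Icc (θ - |y|) (θ + |y|)).norm_image_sub_le_of_norm_hasDerivWithin_le
        (f := kernD m v) (f' := kernD (m + 1) v)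
        (C := C₁ * Real.exp (1 / 4) / s ^ (m + 2) * Real.exp (-(1 / 8 * (θ ^ 2 / v))))
        (fun x _ => (hasDerivAt_kernD hv m x).hasDerivWithinAt) (fun x hx => ?_)
        (show θ + y ∈ Icc (θ - |y|) (θ + |y|) from
          ⟨by linarith [neg_abs_le y], by linarith [le_abs_self y]⟩)
        (show θ - y ∈ Icc (θ - |y|) (θ + |y|) from
          ⟨by linarith [le_abs_self y], by linarith [neg_abs_le y]⟩)
      · rw [Real.norm_eq_abs, Real.norm_eq_abs] at key
        refine key.trans (le_of_eq ?_)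
        rw [show θ - y - (θ + y) = -(2 * y) by ring, abs_neg, abs_mul, abs_two]
        ring
      · rw [Real.norm_eq_abs]
        refine (hb₁ v x hv).trans ?_
        rw [div_mul_eq_mul_div, div_mul_eq_mul_div, ← hsd]
        refine div_le_div_of_nonneg_right ?_ (by positivity)
        rw [mul_assoc, ← Real.exp_add]
        refine mul_le_mul_of_nonneg_left (Real.exp_le_exp.2 ?_) hC₁
        have h1 : (θ - x) ^ 2 ≤ v := by
          rw [← Real.sq_sqrt hv.le, ← sq_abs]
          refine pow_le_pow_left₀ (abs_nonneg _) (le_trans ?_ hy) 2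
          rw [abs_le]
          constructor <;> linarith [hx.1, hx.2]
        have h2 : θ ^ 2 ≤ 2 * x ^ 2 + 2 * v := by nlinarith [sq_nonneg (x - (θ - x))]
        rw [← sub_nonneg]
        have e : 1 / 4 + -(1 / 8 * (θ ^ 2 / v)) - -(x ^ 2 / (4 * v)) =
            (2 * x ^ 2 + 2 * v - θ ^ 2) / (8 * v) := by field_simp; ring
        rw [e]
        exact div_nonneg (by linarith) (by linarith)
    refine (integral_mono hdiff (hi.const_mul _) hle).trans ?_
    rw [integral_const_mul]
    refine (mul_le_mul_of_nonneg_left hm (by positivity)).trans ?_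
    have hsp : s ^ q' ≤ (|y| + s) ^ q' :=
      pow_le_pow_left₀ hs.le (le_add_of_nonneg_left (abs_nonneg y)) q'
    have e : 2 * |y| * (C₁ * Real.exp (1 / 4) / s ^ (m + 2)) *
        (s * s ^ (q' + 1) * I (1 / 8)) = 2 * K₁ * (|y| * s ^ q') / s ^ m := by
      rw [hK₁, pow_succ, pow_succ, pow_succ]
      field_simp
    refine (le_of_eq ?_).trans (le_trans (le_of_eq e) ?_)
    · rw [hId]
    refine div_le_div_of_nonneg_right (mul_le_mul ?_
      (mul_le_mul_of_nonneg_left hsp (abs_nonneg y)) (by positivity) (by positivity)) (by positivity)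
    refine le_trans (le_add_of_nonneg_left (mul_nonneg (zero_le_four (α := ℝ)) hK₀0)) ?_
    exact le_mul_of_one_le_right (by positivity) (one_le_pow₀ one_le_two)
  · refine (integral_mono hdiff ((base y).1.add (base (-y)).1) fun θ => ?_).trans ?_
    · simp only [Pi.add_apply, sub_neg_eq_add, ← mul_add]
      exact mul_le_mul_of_nonneg_left (abs_sub _ _) (by positivity)
    simp only [Pi.add_apply]
    rw [integral_add (base y).1 (base (-y)).1]
    refine (add_le_add (base y).2 (base (-y)).2).trans ?_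
    rw [abs_neg, ← add_div]
    gcongr
    have h2 : |y| + s ≤ 2 * |y| := by linarith
    have : (|y| + s) ^ (q' + 1) ≤ 2 * (|y| * (|y| + s) ^ q') := by
      rw [pow_succ]
      nlinarith [pow_nonneg (add_nonneg (abs_nonneg y) hs.le) q']
    have hnn : 0 ≤ |y| * (|y| + s) ^ q' := by positivity
    nlinarith [one_le_pow₀ (one_le_two (α := ℝ)) (n := q' + 1),
      mul_le_mul_of_nonneg_left this hK₀0, mul_nonneg hK₀0 hnn, mul_nonneg hK₁0 hnn]

/-- The odd kernel is positive on the half line and reproduces `θ`. -/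
theorem oddKernel : OddKernelStmt := by
  intro v y hv hy
  refine ⟨fun θ hθ => ?_, ?_⟩
  · rw [sub_nonneg]
    unfold kern
    refine div_le_div_of_nonneg_right (Real.exp_le_exp.2 (neg_le_neg ?_)) (Real.sqrt_nonneg _)
    refine div_le_div_of_nonneg_right ?_ (by linarith)
    nlinarith [mul_nonneg hθ hy]
  have hc : Continuous (kern v) := by unfold kern; fun_prop
  have hk : ∀ x, kern v x = prof 0 (x / Real.sqrt v) / Real.sqrt v := fun x => by
    rw [← kernD_zero, kernD_eq hv, zero_add, pow_one]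
  have heven : ∀ x, kern v (-x) = kern v x := fun x => by simp [kern]
  have hint : ∀ c, Integrable fun θ => θ * kern v (θ - c) := by
    intro c
    obtain ⟨h, _⟩ := moment_exp_le 1 (show (0 : ℝ) < 1 / 2 by norm_num) hv c
    refine (h.div_const (Real.sqrt (2 * Real.pi * v))).mono' (by fun_prop)
      (Eventually.of_forall fun θ => le_of_eq ?_)
    rw [Real.norm_eq_abs, kern, abs_mul, abs_of_nonneg (a := Real.exp _ / _) (by positivity),
      pow_one, ← mul_div_assoc]
    congr 4
    field_simp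
  have i1 : Integrable fun θ => θ * kern v θ := by simpa using hint 0
  have i2 : Integrable fun θ => θ * kern v (θ + y) := by simpa using hint (-y)
  have hone : ∫ x, kern v x = 1 := by
    have h := integral_gaussian (1 / (2 * v))
    have e : Real.pi / (1 / (2 * v)) = 2 * Real.pi * v := by field_simp
    rw [e] at h
    unfold kern
    rw [integral_div]
    have : (fun x : ℝ => Real.exp (-(x ^ 2 / (2 * v)))) =
        fun x : ℝ => Real.exp (-(1 / (2 * v)) * x ^ 2) := by
      funext x; congr 1; ring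
    rw [this, h, div_self (by positivity)]
  have hfirst : ∫ θ, θ * kern v θ = 0 := by
    have h := integral_neg_eq_self (fun θ => θ * kern v θ) volume
    simp only [heven, neg_mul, integral_neg] at h
    linarith
  have hk1 : Integrable (kern v) := by
    unfold kern
    refine Integrable.div_const ?_ _
    have := integrable_exp_neg_mul_sq (show (0 : ℝ) < 1 / (2 * v) by positivity)
    refine this.congr (Eventually.of_forall fun x => ?_)
    simp only
    congr 1
    ring
  have hall : ∫ θ, θ * kern v (θ - y) = y := by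
    rw [← integral_add_right_eq_self _ y]
    simp only [add_sub_cancel_right, add_mul]
    rw [integral_add i1 (hk1.const_mul y), hfirst, integral_const_mul, hone]
    ring
  have hneg : ∫ θ in Ioi 0, θ * kern v (θ + y) = -∫ θ in Iic 0, θ * kern v (θ - y) := by
    have h := integral_comp_neg_Ioi (0 : ℝ) fun θ => θ * kern v (θ - y)
    rw [neg_zero] at h
    rw [← h, ← integral_neg]
    congr 1
    funext θ
    rw [show -θ - y = -(θ + y) by ring, heven]
    ring
  simp only [mul_sub]
  rw [integral_sub (hint y).integrableOn i2.integrableOn, hneg, sub_neg_eq_add, add_comm,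
    intervalIntegral.integral_Iic_add_Ioi (hint y).integrableOn (hint y).integrableOn, hall]

end Vale.Agent.P363.Ext.Heat
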