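import Vale.Agent.P363.Ext.Heat.Spec

/-!
Calculus for functions of `(τ, θ)`: the operators `dT`, `dY`, cut-offs, and the substitution
`τ = 1 / r`.
-/

noncomputable section

namespace Vale.Agent.P363.Ext.Heat

open MeasureTheory Filter Set
open scoped BigOperators Topology

variable {Z K : ℝ → ℝ → ℝ} {O : Set (ℝ × ℝ)}

theorem hasDerivAt_fst_of_open {n : WithTop ℕ∞} (hn : n ≠ 0) (hO : IsOpen O)
    (hZ : ContDiffOn ℝ n (Function.uncurry Z) O) {τ θ : ℝ} (h : (τ, θ) ∈ O) :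
    HasDerivAt (fun t => Z t θ) (fderiv ℝ (Function.uncurry Z) (τ, θ) (1, 0)) τ :=
  HasFDerivAt.comp_hasDerivAt (f := fun t : ℝ => (t, θ)) τ
    ((hZ.differentiableOn hn).differentiableAt (hO.mem_nhds h)).hasFDerivAt
    ((hasDerivAt_id τ).prodMk (hasDerivAt_const τ θ))

theorem hasDerivAt_snd_of_open {n : WithTop ℕ∞} (hn : n ≠ 0) (hO : IsOpen O)
    (hZ : ContDiffOn ℝ n (Function.uncurry Z) O) {τ θ : ℝ} (h : (τ, θ) ∈ O) :
    HasDerivAt (Z τ) (fderiv ℝ (Function.uncurry Z) (τ, θ) (0, 1)) θ :=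
  HasFDerivAt.comp_hasDerivAt (f := fun s : ℝ => (τ, s)) θ
    ((hZ.differentiableOn hn).differentiableAt (hO.mem_nhds h)).hasFDerivAt
    ((hasDerivAt_const θ τ).prodMk (hasDerivAt_id θ))

theorem hasDerivAt_dT {n : WithTop ℕ∞} (hn : n ≠ 0) (hO : IsOpen O)
    (hZ : ContDiffOn ℝ n (Function.uncurry Z) O) {τ θ : ℝ} (h : (τ, θ) ∈ O) :
    HasDerivAt (fun t => Z t θ) (dT Z τ θ) τ :=
  (hasDerivAt_fst_of_open hn hO hZ h).differentiableAt.hasDerivAt

theorem hasDerivAt_dY {n : WithTop ℕ∞} (hn : n ≠ 0) (hO : IsOpen O)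
    (hZ : ContDiffOn ℝ n (Function.uncurry Z) O) {τ θ : ℝ} (h : (τ, θ) ∈ O) :
    HasDerivAt (Z τ) (dY Z τ θ) θ :=
  (hasDerivAt_snd_of_open hn hO hZ h).differentiableAt.hasDerivAt

theorem contDiffOn_dT {n m : WithTop ℕ∞} (hn : m + 1 ≤ n) (hO : IsOpen O)
    (hZ : ContDiffOn ℝ n (Function.uncurry Z) O) : ContDiffOn ℝ m (Function.uncurry (dT Z)) O := by
  have hn0 : n ≠ 0 := by rintro rfl; simp at hn
  refine ((hZ.fderiv_of_isOpen hO hn).clm_apply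
    (contDiffOn_const (c := ((1 : ℝ), (0 : ℝ))))).congr fun p hp => ?_
  exact (hasDerivAt_fst_of_open hn0 hO hZ hp).deriv

theorem contDiffOn_dY {n m : WithTop ℕ∞} (hn : m + 1 ≤ n) (hO : IsOpen O)
    (hZ : ContDiffOn ℝ n (Function.uncurry Z) O) : ContDiffOn ℝ m (Function.uncurry (dY Z)) O := by
  have hn0 : n ≠ 0 := by rintro rfl; simp at hn
  refine ((hZ.fderiv_of_isOpen hO hn).clm_apply
    (contDiffOn_const (c := ((0 : ℝ), (1 : ℝ))))).congr fun p hp => ?_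
  exact (hasDerivAt_snd_of_open hn0 hO hZ hp).deriv

theorem contDiffOn_timeOp (a k : ℝ) (hO : IsOpen O)
    (hZ : ContDiffOn ℝ 2 (Function.uncurry Z) O) :
    ContinuousOn (Function.uncurry (timeOp a k Z)) O := by
  have h1 : ((1 : WithTop ℕ∞) + 1 ≤ 2) := le_of_eq (by norm_num)
  have a1 := contDiffOn_dT h1 hO hZ
  have b1 := contDiffOn_dY h1 hO hZ
  have a2 : ContinuousOn (Function.uncurry (dT (dT Z))) O :=
    (contDiffOn_dT (m := 0) (le_of_eq (zero_add 1)) hO a1).continuousOn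
  have b2 : ContinuousOn (Function.uncurry (dY (dY Z))) O :=
    (contDiffOn_dY (m := 0) (le_of_eq (zero_add 1)) hO b1).continuousOn
  have a0 := a1.continuousOn
  have b0 := b1.continuousOn
  have z0 := hZ.continuousOn
  show ContinuousOn (fun p : ℝ × ℝ => p.1 ^ 2 * Function.uncurry (dT (dT Z)) p +
    (2 + 2 * (k / a)) * p.1 * Function.uncurry (dT Z) p + 2 * (k / a) * Function.uncurry Z p -
    p.2 ^ 2 * Function.uncurry (dY (dY Z)) p - 2 * p.2 * Function.uncurry (dY Z) p) O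
  fun_prop

/-- `polarOp` in the time `1 / r`. -/
theorem polarInv : PolarInvStmt := by
  intro a k Z hZ r θ hr
  have hZ' : ContDiffOn ℝ 2 (Function.uncurry Z) univ := hZ.contDiffOn
  have h1 : ((1 : WithTop ℕ∞) + 1 ≤ 2) := le_of_eq (by norm_num)
  have hT := contDiffOn_dT h1 isOpen_univ hZ'
  have e1 : ∀ s : ℝ, s ≠ 0 →
      HasDerivAt (fun t => Z t⁻¹ θ) (dT Z s⁻¹ θ * -(s ^ 2)⁻¹) s := fun s hs =>
    (hasDerivAt_dT two_ne_zero isOpen_univ hZ' (mem_univ (s⁻¹, θ))).comp s (hasDerivAt_inv hs)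
  have e2 : HasDerivAt (fun s => deriv (fun t => Z t⁻¹ θ) s)
      (dT (dT Z) r⁻¹ θ * -(r ^ 2)⁻¹ * -(r ^ 2)⁻¹ + dT Z r⁻¹ θ * (2 * r / (r ^ 2) ^ 2)) r := by
    have hT' : HasDerivAt (fun s => dT Z s⁻¹ θ) (dT (dT Z) r⁻¹ θ * -(r ^ 2)⁻¹) r :=
      (hasDerivAt_dT one_ne_zero isOpen_univ hT (mem_univ (r⁻¹, θ))).comp r (hasDerivAt_inv hr.ne')
    have hi : HasDerivAt (fun s : ℝ => -(s ^ 2)⁻¹) (2 * r / (r ^ 2) ^ 2) r :=
      ((hasDerivAt_pow 2 r).inv (pow_ne_zero 2 hr.ne')).neg.congr_deriv (by ring)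
    refine (hT'.mul hi).congr_of_eventuallyEq ?_
    filter_upwards [Ioi_mem_nhds hr] with s hs
    exact (e1 s (ne_of_gt hs)).deriv
  have e3 : angLap (fun s t => Z s⁻¹ t) r θ =
      -(2 * θ) * dY Z r⁻¹ θ + (1 - θ ^ 2) * dY (dY Z) r⁻¹ θ := by
    have hb : HasDerivAt (dY Z r⁻¹) (dY (dY Z) r⁻¹ θ) θ :=
      hasDerivAt_dY one_ne_zero isOpen_univ (contDiffOn_dY h1 isOpen_univ hZ') (mem_univ (r⁻¹, θ))
    exact ((((hasDerivAt_pow 2 θ).const_sub 1).mul hb).congr_deriv (by ring)).deriv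
  simp only [polarOp, e3, e2.deriv, (e1 r hr.ne').deriv, timeOp]
  generalize k / a = c
  field_simp
  ring

/-- The curvature part of a cut-off function. -/
theorem cutRule : CutStmt := by
  intro a k Φ χ K U hU hΦ hχ hK τ hτ θ
  have hO : IsOpen (U ×ˢ (univ : Set ℝ)) := hU.prod isOpen_univ
  have h1 : ((1 : WithTop ℕ∞) + 1 ≤ 2) := le_of_eq (by norm_num)
  have hm : ∀ {t : ℝ}, t ∈ U → ∀ s : ℝ, (t, s) ∈ U ×ˢ (univ : Set ℝ) := fun h s => ⟨h, trivial⟩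
  have dΦ : ∀ t, HasDerivAt Φ (deriv Φ t) t := fun t =>
    (hΦ.differentiable two_ne_zero t).hasDerivAt
  have dχ : ∀ t, HasDerivAt χ (deriv χ t) t := fun t =>
    (hχ.differentiable two_ne_zero t).hasDerivAt
  have ddΦ : HasDerivAt (deriv Φ) (deriv (deriv Φ) τ) τ :=
    (((contDiff_succ_iff_deriv (n := 1)).1 hΦ).2.2.differentiable one_ne_zero τ).hasDerivAt
  have ddχ : HasDerivAt (deriv χ) (deriv (deriv χ) θ) θ :=
    (((contDiff_succ_iff_deriv (n := 1)).1 hχ).2.2.differentiable one_ne_zero θ).hasDerivAt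
  have eT : ∀ t ∈ U, dT (cut Φ χ K) t θ =
      deriv Φ t * χ θ * K t θ + Φ t * χ θ * dT K t θ := fun t ht =>
    (((dΦ t).mul_const (χ θ)).mul (hasDerivAt_dT two_ne_zero hO hK (hm ht θ))).deriv
  have eY : ∀ s, dY (cut Φ χ K) τ s =
      Φ τ * deriv χ s * K τ s + Φ τ * χ s * dY K τ s := fun s =>
    (((dχ s).const_mul (Φ τ)).mul (hasDerivAt_dY two_ne_zero hO hK (hm hτ s))).deriv
  have eTT : dT (dT (cut Φ χ K)) τ θ = deriv (deriv Φ) τ * χ θ * K τ θ +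
      2 * (deriv Φ τ * χ θ * dT K τ θ) + Φ τ * χ θ * dT (dT K) τ θ := by
    have h := ((ddΦ.mul_const (χ θ)).mul (hasDerivAt_dT two_ne_zero hO hK (hm hτ θ))).add
      (((dΦ τ).mul_const (χ θ)).mul
        (hasDerivAt_dT one_ne_zero hO (contDiffOn_dT h1 hO hK) (hm hτ θ)))
    refine ((h.congr_of_eventuallyEq ?_).congr_deriv (by ring)).deriv
    filter_upwards [hU.mem_nhds hτ] with t ht
    exact eT t ht
  have eYY : dY (dY (cut Φ χ K)) τ θ = Φ τ * deriv (deriv χ) θ * K τ θ +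
      2 * (Φ τ * deriv χ θ * dY K τ θ) + Φ τ * χ θ * dY (dY K) τ θ := by
    have h := ((ddχ.const_mul (Φ τ)).mul (hasDerivAt_dY two_ne_zero hO hK (hm hτ θ))).add
      (((dχ θ).const_mul (Φ τ)).mul
        (hasDerivAt_dY one_ne_zero hO (contDiffOn_dY h1 hO hK) (hm hτ θ)))
    exact ((h.congr_of_eventuallyEq (Eventually.of_forall eY)).congr_deriv (by ring)).deriv
  simp only [timeOp, cutErr, eTT, eYY, eT τ hτ, eY θ, cut]
  ring

/-- Substitution `τ = 1 / r` on the half plane. -/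
theorem integral_inv_fst (F : ℝ × ℝ → ℝ) (hF : ∀ p : ℝ × ℝ, p.1 ≤ 0 → F p = 0) :
    ∫ p : ℝ × ℝ, F p = ∫ p : ℝ × ℝ, F (p.1⁻¹, p.2) / p.1 ^ 2 := by
  set S : Set (ℝ × ℝ) := Ioi 0 ×ˢ univ with hSd
  have himg : (fun p : ℝ × ℝ => (p.1⁻¹, p.2)) '' S = S := by
    refine Subset.antisymm ?_ fun p hp => ⟨(p.1⁻¹, p.2), ⟨inv_pos.2 (show 0 < p.1 from hp.1), trivial⟩, by simp⟩
    rintro _ ⟨p, hp, rfl⟩
    exact ⟨inv_pos.2 (show 0 < p.1 from hp.1), trivial⟩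
  have hd : ∀ p ∈ S, HasFDerivWithinAt (fun p : ℝ × ℝ => (p.1⁻¹, p.2))
      ((ContinuousLinearMap.toSpanSingleton ℝ (-(p.1 ^ 2)⁻¹)).prodMap
        (ContinuousLinearMap.id ℝ ℝ)) S p := fun p hp =>
    (((hasDerivAt_inv (ne_of_gt hp.1)).hasFDerivAt).prodMap p
      (hasFDerivAt_id p.2)).hasFDerivWithinAt
  have h := integral_image_eq_integral_abs_det_fderiv_smul volume
    (measurableSet_Ioi.prod MeasurableSet.univ) hd
    (fun p _ q _ e => Prod.ext (inv_injective (congrArg Prod.fst e)) (congrArg Prod.snd e :)) F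
  rw [himg] at h
  rw [← setIntegral_eq_integral_of_forall_compl_eq_zero (s := S) (f := F)
      (fun p hp => hF p (not_lt.1 fun h => hp ⟨h, trivial⟩)), h,
    ← setIntegral_eq_integral_of_forall_compl_eq_zero (s := S)
      (f := fun p : ℝ × ℝ => F (p.1⁻¹, p.2) / p.1 ^ 2)
      (fun p hp => by
        have : p.1⁻¹ ≤ 0 := inv_nonpos.2 (not_lt.1 fun h => hp ⟨h, trivial⟩)
        simp [hF (p.1⁻¹, p.2) this])]
  refine setIntegral_congr_fun (measurableSet_Ioi.prod MeasurableSet.univ) fun p hp => ?_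
  have hdet : ((ContinuousLinearMap.toSpanSingleton ℝ (-(p.1 ^ 2)⁻¹)).prodMap
      (ContinuousLinearMap.id ℝ ℝ)).det = -(p.1 ^ 2)⁻¹ := by
    rw [ContinuousLinearMap.det, ContinuousLinearMap.coe_prodMap, LinearMap.det_prodMap]
    rw [show LinearMap.det ((ContinuousLinearMap.id ℝ ℝ).toLinearMap) = 1 from LinearMap.det_id,
      mul_one]
    exact ContinuousLinearMap.det_toSpanSingleton _
  simp only [hdet, abs_neg, abs_inv, abs_pow, sq_abs, smul_eq_mul]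
  ring

/-- Substitution `τ = 1 / r` on the line. -/
theorem integral_inv (F : ℝ → ℝ) (hF : ∀ r ≤ 0, F r = 0) :
    ∫ r, F r = ∫ τ, F τ⁻¹ / τ ^ 2 := by
  have himg : (fun r : ℝ => r⁻¹) '' Ioi 0 = Ioi 0 := by
    refine Subset.antisymm ?_ fun p hp => ⟨p⁻¹, inv_pos.2 (show 0 < p from hp), by simp⟩
    rintro _ ⟨p, hp, rfl⟩
    exact inv_pos.2 (show 0 < p from hp)
  have h := integral_image_eq_integral_abs_deriv_smul measurableSet_Ioi
    (fun x hx => (hasDerivAt_inv (ne_of_gt (show (0 : ℝ) < x from hx))).hasDerivWithinAt)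
    inv_injective.injOn F
  rw [himg] at h
  rw [← setIntegral_eq_integral_of_forall_compl_eq_zero (s := Ioi (0 : ℝ)) (f := F)
      (fun p hp => hF p (not_lt.1 hp)), h,
    ← setIntegral_eq_integral_of_forall_compl_eq_zero (s := Ioi (0 : ℝ))
      (f := fun t => F t⁻¹ / t ^ 2)
      (fun p hp => by simp [hF p⁻¹ (inv_nonpos.2 (not_lt.1 hp))])]
  refine setIntegral_congr_fun measurableSet_Ioi fun p _ => ?_
  simp only [abs_neg, abs_inv, abs_pow, sq_abs, smul_eq_mul]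
  ring

end Vale.Agent.P363.Ext.Heat
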