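import Vale.Agent.P363.Ext.Heat.Bounds
import Mathlib.Analysis.SpecialFunctions.Integrals.Basic

/-!
The `L¹` bounds of the curvature terms of a heat potential. Up to `t₀ + 2 h` the derivatives fall on
the source; afterwards they fall on the kernel, which gives `1 / h` and `log (L / h)`.
-/

noncomputable section

namespace Vale.Agent.P363.Ext.Heat

open MeasureTheory Filter Set
open scoped BigOperators Topology

attribute [local irreducible] kernD kern

variable {κ : ℝ} {w : ℝ → ℝ → ℝ} {t₀ h : ℝ}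

theorem dT_oddImage (hw : ContDiff ℝ 1 (Function.uncurry w)) :
    dT (oddImage w) = oddImage (dT w) := by
  funext σ y
  exact ((hasDerivAt_dT one_ne_zero isOpen_univ hw.contDiffOn (mem_univ (σ, y))).sub
    (hasDerivAt_dT one_ne_zero isOpen_univ hw.contDiffOn (mem_univ (σ, -y)))).deriv

theorem dY_dY_oddImage (hw : ContDiff ℝ 2 (Function.uncurry w))
    (hc : HasCompactSupport (Function.uncurry w)) :
    dY (dY (oddImage w)) = oddImage (dY (dY w)) := by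
  have h1 : ContDiff ℝ 1 (Function.uncurry w) := hw.of_le (by norm_num)
  have hy : ContDiff ℝ 1 (Function.uncurry (dY w)) := (CSrc.deriv' hw hc).2.smooth
  have e : ∀ {f : ℝ → ℝ → ℝ}, ContDiff ℝ 1 (Function.uncurry f) → ∀ σ y,
      HasDerivAt (f σ) (dY f σ y) y := fun hf σ y =>
    hasDerivAt_dY one_ne_zero isOpen_univ hf.contDiffOn (mem_univ (σ, y))
  have e1 : dY (oddImage w) = fun σ y => dY w σ y + dY w σ (-y) := by
    funext σ y
    exact (((e h1 σ y).sub ((e h1 σ (-y)).comp y (hasDerivAt_neg y))).congr_deriv (by ring)).deriv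
  funext σ y
  rw [e1]
  exact (((e hy σ y).add ((e hy σ (-y)).comp y (hasDerivAt_neg y))).congr_deriv
    (by simp [oddImage]; ring)).deriv

theorem dT_support (hs : ∀ σ y, w σ y ≠ 0 → t₀ ≤ σ) : ∀ σ y, dT w σ y ≠ 0 → t₀ ≤ σ := by
  intro σ y hne
  by_contra hlt
  refine hne ?_
  have he : (fun t => w t y) =ᶠ[𝓝 σ] fun _ => 0 := by
    filter_upwards [Iio_mem_nhds (not_le.1 hlt)] with t ht
    by_contra h0
    exact absurd (hs t y h0) (not_le.2 ht)
  rw [dT, he.deriv_eq, deriv_const]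

theorem dY_support (hs : ∀ σ y, w σ y ≠ 0 → t₀ ≤ σ) : ∀ σ y, dY w σ y ≠ 0 → t₀ ≤ σ := by
  intro σ y hne
  by_contra hlt
  refine hne ?_
  have he : w σ = fun _ => 0 := funext fun x => by
    by_contra h0
    exact hlt (hs σ x h0)
  rw [dY, he, deriv_const]

theorem moment_nonneg (q : ℕ) (L : ℝ) (w : ℝ → ℝ → ℝ) : 0 ≤ moment q L w :=
  integral_nonneg fun _ => mul_nonneg (abs_nonneg _)
    (pow_nonneg (add_nonneg (abs_nonneg _) (Real.sqrt_nonneg _)) _)

theorem oddMoment_nonneg (q : ℕ) (L : ℝ) (w : ℝ → ℝ → ℝ) : 0 ≤ oddMoment q L w :=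
  integral_nonneg fun _ => mul_nonneg (abs_nonneg _) (mul_nonneg (abs_nonneg _)
    (pow_nonneg (add_nonneg (abs_nonneg _) (Real.sqrt_nonneg _)) _))

theorem Family.integral_weight_mono {m q : ℕ} {C : ℝ} {k : ℝ → ℝ → ℝ → ℝ} {W : ℝ → ℝ → ℝ}
    (hF : Family m q C k W) {f : ℝ → ℝ → ℝ} (hf : Continuous (Function.uncurry f))
    (hc : HasCompactSupport (Function.uncurry f)) {L L' : ℝ} (hL : L ≤ L') :
    ∫ p : ℝ × ℝ, |f p.1 p.2| * W p.2 (Real.sqrt L) ≤
      ∫ p : ℝ × ℝ, |f p.1 p.2| * W p.2 (Real.sqrt L') :=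
  integral_mono (hF.integrable_weight hf hc _) (hF.integrable_weight hf hc _) fun _ =>
    mul_le_mul_of_nonneg_left (hF.mono _ _ _ (Real.sqrt_nonneg _) (Real.sqrt_le_sqrt hL))
      (abs_nonneg _)

/-- Splitting the times at `t₀ + 2 h`. -/
theorem split_le {F : ℝ × ℝ → ℝ} {φ : ℝ → ℝ} {L A K J : ℝ} (hhL : 2 * h ≤ L)
    (hint : IntegrableOn F (Iic (t₀ + L) ×ˢ univ))
    (hnear : ∫ p in Iic (t₀ + 2 * h) ×ˢ univ, F p ≤ A)
    (hfar : ∀ τ ∈ Ioc (t₀ + 2 * h) (t₀ + L), ∫ θ, F (τ, θ) ≤ K * φ (τ - t₀))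
    (hφ : IntervalIntegrable φ volume (2 * h) L) (hK : 0 ≤ K)
    (hJ : ∫ t in (2 * h)..L, φ t ≤ J) :
    ∫ p in Iic (t₀ + L) ×ˢ univ, F p ≤ A + K * J := by
  have hle : t₀ + 2 * h ≤ t₀ + L := by linarith
  have e : Iic (t₀ + L) ×ˢ (univ : Set ℝ) =
      Iic (t₀ + 2 * h) ×ˢ univ ∪ Ioc (t₀ + 2 * h) (t₀ + L) ×ˢ univ := by
    rw [← union_prod, Iic_union_Ioc_eq_Iic hle]
  have hdis : Disjoint (Iic (t₀ + 2 * h) ×ˢ (univ : Set ℝ))
      (Ioc (t₀ + 2 * h) (t₀ + L) ×ˢ (univ : Set ℝ)) :=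
    Set.disjoint_left.2 fun p h1 h2 => absurd h1.1 (not_le.2 h2.1.1)
  have h1 := hint.mono_set (prod_mono_left (Iic_subset_Iic.2 hle) (t := univ))
  have h2 := hint.mono_set (prod_mono_left (fun _ hx => hx.2 : Ioc (t₀ + 2 * h) (t₀ + L) ⊆
    Iic (t₀ + L)) (t := univ))
  rw [e, setIntegral_union hdis (measurableSet_Ioc.prod MeasurableSet.univ) h1 h2]
  refine add_le_add hnear ?_
  have er : (volume : Measure (ℝ × ℝ)).restrict (Ioc (t₀ + 2 * h) (t₀ + L) ×ˢ univ) =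
      ((volume : Measure ℝ).restrict (Ioc (t₀ + 2 * h) (t₀ + L))).prod volume := by
    rw [Measure.volume_eq_prod, ← Measure.prod_restrict, Measure.restrict_univ]
  rw [IntegrableOn, er] at h2
  rw [er, integral_prod _ h2]
  have hφ' : IntegrableOn (fun τ => K * φ (τ - t₀)) (Ioc (t₀ + 2 * h) (t₀ + L)) := by
    have := hφ.comp_sub_right t₀
    rw [add_comm (2 * h), add_comm L] at this
    exact ((intervalIntegrable_iff_integrableOn_Ioc_of_le hle).1 this).const_mul K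
  refine (integral_mono_ae h2.integral_prod_left hφ'
    (ae_restrict_of_forall_mem measurableSet_Ioc hfar)).trans ?_
  rw [integral_const_mul, ← intervalIntegral.integral_of_le hle,
    intervalIntegral.integral_comp_sub_right, add_sub_cancel_left, add_sub_cancel_left]
  exact mul_le_mul_of_nonneg_left hJ hK

theorem integral_inv_le {L : ℝ} (hh : 0 < h) (hhL : 2 * h ≤ L) :
    IntervalIntegrable (fun t : ℝ => t⁻¹) volume (2 * h) L ∧
      ∫ t in (2 * h)..L, t⁻¹ ≤ Real.log (L / h) := by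
  have h0 : ∀ t ∈ uIcc (2 * h) L, t ≠ 0 := fun t ht => by
    rw [uIcc_of_le hhL] at ht
    exact (lt_of_lt_of_le (by linarith) ht.1).ne'
  refine ⟨(ContinuousOn.inv₀ continuousOn_id h0).intervalIntegrable, ?_⟩
  have hL : 0 < L := by linarith
  rw [integral_inv_of_pos (by linarith) hL]
  exact Real.log_le_log (by positivity) (div_le_div_of_nonneg_left hL.le hh (by linarith))

theorem integral_inv_sq_le {L : ℝ} (hh : 0 < h) (hhL : 2 * h ≤ L) :
    IntervalIntegrable (fun t : ℝ => (t ^ 2)⁻¹) volume (2 * h) L ∧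
      ∫ t in (2 * h)..L, (t ^ 2)⁻¹ ≤ 1 / h := by
  have h0 : ∀ t ∈ uIcc (2 * h) L, t ≠ 0 := fun t ht => by
    rw [uIcc_of_le hhL] at ht
    exact (lt_of_lt_of_le (by linarith) ht.1).ne'
  have hi : IntervalIntegrable (fun t : ℝ => (t ^ 2)⁻¹) volume (2 * h) L :=
    (ContinuousOn.inv₀ (by fun_prop) fun t ht => pow_ne_zero 2 (h0 t ht)).intervalIntegrable
  refine ⟨hi, ?_⟩
  rw [intervalIntegral.integral_eq_sub_of_hasDerivAt (f := fun t : ℝ => -t⁻¹)
    (fun t ht => (hasDerivAt_inv (h0 t ht)).neg.congr_deriv (by simp)) hi]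
  have hL : 0 < L := by linarith
  have e1 : 0 < L⁻¹ := inv_pos.2 hL
  have e2 : (2 * h)⁻¹ ≤ 1 / h := by
    rw [one_div]; exact inv_anti₀ hh (by linarith)
  linarith

/-- The three bounds, for `T = id` or `T = oddImage`. -/
theorem singular_of {q : ℕ} {L C₀ C₂ C₄ : ℝ} {T : (ℝ → ℝ → ℝ) → ℝ → ℝ → ℝ}
    {M : ℝ → (ℝ → ℝ → ℝ) → ℝ} (hκ : 0 < κ) (hh : 0 < h) (hhL : 2 * h ≤ L)
    (hw : Source w t₀ h) (hP : Source (T w) t₀ h)
    (hTT : dT (dT (T w)) = T (dT (dT w))) (hT : dT (T w) = T (dT w))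
    (hYY : dY (dY (T w)) = T (dY (dY w))) (hM0 : ∀ l f, 0 ≤ M l f)
    (hmono : ∀ f : ℝ → ℝ → ℝ, Continuous (Function.uncurry f) →
      HasCompactSupport (Function.uncurry f) → ∀ l l', l ≤ l' → M l f ≤ M l' f)
    (hnear : ∀ f : ℝ → ℝ → ℝ, Continuous (Function.uncurry f) →
      HasCompactSupport (Function.uncurry f) → (∀ σ y, f σ y ≠ 0 → t₀ ≤ σ) → ∀ l, 0 ≤ l →
      IntegrableOn (fun p : ℝ × ℝ => |p.2| ^ q * |potD κ 0 (T f) p.1 p.2|)
          (Iic (t₀ + l) ×ˢ univ) ∧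
        ∫ p in Iic (t₀ + l) ×ˢ univ, |p.2| ^ q * |potD κ 0 (T f) p.1 p.2| ≤
          C₀ * Real.sqrt l ^ 2 * M l f)
    (hC₀ : 0 ≤ C₀) (hC₂ : 0 ≤ C₂) (hC₄ : 0 ≤ C₄)
    (hfar₂ : ∀ τ, t₀ + 2 * h ≤ τ → t₀ < τ →
      ∫ θ, |θ| ^ q * |potD κ 2 (T w) τ θ| ≤ C₂ * M (τ - t₀) w / Real.sqrt (τ - t₀) ^ 2)
    (hfar₄ : ∀ τ, t₀ + 2 * h ≤ τ → t₀ < τ →
      ∫ θ, |θ| ^ q * |potD κ 4 (T w) τ θ| ≤ C₄ * M (τ - t₀) w / Real.sqrt (τ - t₀) ^ 4) :
    Singular κ (2 * C₀ + κ ^ 2 * C₄ + (κ + 1) * C₂) q t₀ h L (T w) w (M L) := by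
  set C := 2 * C₀ + κ ^ 2 * C₄ + (κ + 1) * C₂ with hC
  obtain ⟨-, -, -, pT, pY, pTT, pYY, -, p4⟩ := potProps κ hκ (T w) t₀ h hP
  have hκ2 : 0 ≤ κ ^ 2 * C₄ := by positivity
  have hκ1 : 0 ≤ (κ + 1) * C₂ := by positivity
  have hlog : 0 ≤ Real.log (L / h) := Real.log_nonneg ((le_div_iff₀ hh).2 (by linarith))
  have main : ∀ (g f : ℝ → ℝ → ℝ) (φ : ℝ → ℝ) (c J : ℝ),
      (∀ τ θ, g τ θ = potD κ 0 (T f) τ θ) → Continuous (Function.uncurry f) →
      HasCompactSupport (Function.uncurry f) → (∀ σ y, f σ y ≠ 0 → t₀ ≤ σ) →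
      IntervalIntegrable φ volume (2 * h) L → ∫ t in (2 * h)..L, φ t ≤ J →
      0 ≤ c → c ≤ C → 0 ≤ J →
      (∀ τ, t₀ + 2 * h < τ → τ ≤ t₀ + L →
        ∫ θ, |θ| ^ q * |g τ θ| ≤ c * M L w * φ (τ - t₀)) →
      ∫ p in Iic (t₀ + L) ×ˢ univ, |p.2| ^ q * |g p.1 p.2| ≤ C * (h * M L f + J * M L w) := by
    intro g f φ c J hg hf hc hs hφ hJ hc0 hcC hJ0 hfar
    simp only [hg]
    have h1 : (∫ p in Iic (t₀ + 2 * h) ×ˢ univ, |p.2| ^ q * |potD κ 0 (T f) p.1 p.2|) ≤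
        C * (h * M L f) := by
      refine (hnear f hf hc hs (2 * h) (by linarith)).2.trans ?_
      rw [Real.sq_sqrt (by linarith)]
      calc C₀ * (2 * h) * M (2 * h) f ≤ C₀ * (2 * h) * M L f :=
            mul_le_mul_of_nonneg_left (hmono f hf hc _ _ hhL) (by positivity)
        _ = 2 * C₀ * (h * M L f) := by ring
        _ ≤ _ := mul_le_mul_of_nonneg_right (by linarith) (mul_nonneg hh.le (hM0 _ _))
    refine (split_le hhL (hnear f hf hc hs L (by linarith)).1 h1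
      (K := c * M L w) (fun τ hτ => ?_) hφ (mul_nonneg hc0 (hM0 _ _)) hJ).trans ?_
    · simpa only [hg] using hfar τ hτ.1 hτ.2
    · calc C * (h * M L f) + c * M L w * J ≤ C * (h * M L f) + C * M L w * J := by
            gcongr; exact hM0 _ _
        _ = _ := by ring
  have far2 : ∀ τ, t₀ + 2 * h < τ → τ ≤ t₀ + L →
      ∫ θ, |θ| ^ q * |potD κ 2 (T w) τ θ| ≤ C₂ * M L w * (τ - t₀)⁻¹ := fun τ h1 h2 => by
    refine (hfar₂ τ h1.le (by linarith)).trans ?_
    rw [Real.sq_sqrt (by linarith), div_eq_mul_inv]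
    exact mul_le_mul_of_nonneg_right (mul_le_mul_of_nonneg_left
      (hmono w hw.smooth.continuous hw.compact _ _ (by linarith)) hC₂)
      (inv_nonneg.2 (by linarith))
  obtain ⟨hwT, hwY⟩ := CSrc.deriv' hw.smooth hw.compact
  have s0 : ∀ σ y, w σ y ≠ 0 → t₀ ≤ σ := fun σ y hne => (hw.supp σ y hne).1
  obtain ⟨i1, j1⟩ := integral_inv_le hh hhL
  obtain ⟨i2, j2⟩ := integral_inv_sq_le hh hhL
  refine ⟨?_, ?_, ?_⟩
  · refine (main (dT (dT (pot κ (T w)))) (dT (dT w)) _ (κ ^ 2 * C₄) (1 / h) ?_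
      (continuous_dT hwT.smooth) (compact_dT hwT) (dT_support (dT_support s0)) i2 j2 hκ2
      (by linarith) (by positivity) fun τ h1 h2 => ?_).trans (le_of_eq (by ring))
    · intro τ θ; rw [pTT, hTT, pot_eq_potD]
    · have ht : t₀ + h < τ := by linarith
      have e : ∀ θ, |θ| ^ q * |dT (dT (pot κ (T w))) τ θ| =
          κ ^ 2 * (|θ| ^ q * |potD κ 4 (T w) τ θ|) := fun θ => by
        rw [p4 τ θ ht, iteratedDeriv_pot hκ hP ht, abs_mul, abs_of_nonneg (sq_nonneg κ)]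
        ring
      simp only [e]
      rw [integral_const_mul, mul_assoc (κ ^ 2), mul_assoc (κ ^ 2)]
      refine mul_le_mul_of_nonneg_left ((hfar₄ τ h1.le (by linarith)).trans ?_) (sq_nonneg κ)
      rw [show Real.sqrt (τ - t₀) ^ 4 = (Real.sqrt (τ - t₀) ^ 2) ^ 2 by ring,
        Real.sq_sqrt (by linarith), div_eq_mul_inv]
      exact mul_le_mul_of_nonneg_right (mul_le_mul_of_nonneg_left
        (hmono w hw.smooth.continuous hw.compact _ _ (by linarith)) hC₄)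
        (inv_nonneg.2 (sq_nonneg _))
  · refine main (dT (pot κ (T w))) (dT w) _ (κ * C₂) (1 + Real.log (L / h)) ?_
      (continuous_dT hw.csrc.smooth) (compact_dT hw.csrc) (dT_support s0) i1
      (by linarith) (mul_nonneg hκ.le hC₂) (by linarith) (by linarith) fun τ h1 h2 => ?_
    · intro τ θ; rw [pT, hT, pot_eq_potD]
    · have ht : t₀ + h < τ := by linarith
      have e : ∀ θ, |θ| ^ q * |dT (pot κ (T w)) τ θ| =
          κ * (|θ| ^ q * |potD κ 2 (T w) τ θ|) := fun θ => by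
        have h3 := (hasDerivAt_potD_time hκ hP 0 ht θ).deriv
        simp only [zero_add, ← pot_eq_potD] at h3
        rw [dT, h3, abs_mul, abs_of_pos hκ]
        ring
      simp only [e]
      rw [integral_const_mul, mul_assoc κ, mul_assoc κ]
      exact mul_le_mul_of_nonneg_left (far2 τ h1 h2) hκ.le
  · refine main (dY (dY (pot κ (T w)))) (dY (dY w)) _ C₂ (1 + Real.log (L / h)) ?_
      (continuous_dY hwY.smooth) (compact_dY hwY) (dY_support (dY_support s0)) i1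
      (by linarith) hC₂ (by nlinarith) (by linarith) fun τ h1 h2 => ?_
    · intro τ θ; rw [pYY, hYY, pot_eq_potD]
    · have ht : t₀ + h < τ := by linarith
      have e1 : dY (pot κ (T w)) τ = potD κ 1 (T w) τ :=
        funext fun θ => dY_pot_eq hκ hP.csrc τ θ
      have e : ∀ θ, dY (dY (pot κ (T w))) τ θ = potD κ 2 (T w) τ θ := fun θ => by
        show deriv (dY (pot κ (T w)) τ) θ = _
        rw [e1]
        exact (hasDerivAt_potD_space hκ hP 1 ht θ).deriv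
      simp only [e]
      exact far2 τ h1 h2

/-- The `L¹` bounds of the curvature terms of a potential. -/
theorem singular : SingularStmt := by
  intro κ hκ q
  obtain ⟨A₀, hA₀⟩ := allTime_le κ hκ q 0 (Nat.zero_le 1)
  obtain ⟨A₂, hA₂⟩ := far_le κ hκ 2 q
  obtain ⟨A₄, hA₄⟩ := far_le κ hκ 4 q
  obtain ⟨_, hp⟩ := exists_plain 0 q
  set C₀ := max A₀ 0 with hC₀
  set C₂ := max A₂ 0 with hC₂
  set C₄ := max A₄ 0 with hC₄
  have up0 : ∀ {l M : ℝ}, 0 ≤ M → A₀ * Real.sqrt l ^ (2 - 0) * M ≤ C₀ * Real.sqrt l ^ 2 * M :=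
    fun hM => mul_le_mul_of_nonneg_right
      (mul_le_mul_of_nonneg_right (le_max_left _ _) (by positivity)) hM
  have up : ∀ {A M d : ℝ}, 0 ≤ M → 0 ≤ d → A * M / d ≤ max A 0 * M / d := fun hM hd =>
    div_le_div_of_nonneg_right (mul_le_mul_of_nonneg_right (le_max_left _ _) hM) hd
  refine ⟨2 * C₀ + κ ^ 2 * C₄ + (κ + 1) * C₂, fun w t₀ h L hw hh hhL => ⟨?_, fun hq => ?_⟩⟩
  · refine singular_of (T := fun f => f) (M := moment q) hκ hh hhL hw hw rfl rfl rfl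
      (fun l f => moment_nonneg q l f) (fun f hf hc l l' hl => hp.integral_weight_mono hf hc hl)
      (fun f hf hc hs l hl => ?_) (le_max_right _ _) (le_max_right _ _) (le_max_right _ _)
      (fun τ h1 h2 => ?_) fun τ h1 h2 => ?_
    · obtain ⟨a1, a2⟩ := (hA₀ f t₀ l hf hc hs hl).1
      exact ⟨a1, a2.trans (up0 (moment_nonneg _ _ _))⟩
    · exact ((hA₂ w t₀ h τ hw h1 h2).1.2).trans (up (moment_nonneg _ _ _) (by positivity))
    · exact ((hA₄ w t₀ h τ hw h1 h2).1.2).trans (up (moment_nonneg _ _ _) (by positivity))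
  · obtain ⟨_, ho⟩ := exists_odd 0 hq
    have hwT := (CSrc.deriv' hw.smooth hw.compact).1
    refine singular_of (T := oddImage) (M := oddMoment q) hκ hh hhL hw hw.oddImage
      (by rw [dT_oddImage hw.csrc.smooth, dT_oddImage hwT.smooth]) (dT_oddImage hw.csrc.smooth)
      (dY_dY_oddImage hw.smooth hw.compact) (fun l f => oddMoment_nonneg q l f)
      (fun f hf hc l l' hl => ho.integral_weight_mono hf hc hl)
      (fun f hf hc hs l hl => ?_) (le_max_right _ _) (le_max_right _ _) (le_max_right _ _)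
      (fun τ h1 h2 => ?_) fun τ h1 h2 => ?_
    · obtain ⟨a1, a2⟩ := (hA₀ f t₀ l hf hc hs hl).2 hq
      exact ⟨a1, a2.trans (up0 (oddMoment_nonneg _ _ _))⟩
    · exact ((hA₂ w t₀ h τ hw h1 h2).2 hq).2.trans (up (oddMoment_nonneg _ _ _) (by positivity))
    · exact ((hA₄ w t₀ h τ hw h1 h2).2 hq).2.trans (up (oddMoment_nonneg _ _ _) (by positivity))

end Vale.Agent.P363.Ext.Heat
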