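import Vale.Agent.P363.Ext.Heat.Dominate
import Vale.Agent.P363.Ext.Heat.Calc
import Vale.Agent.P363.Caloric.Mollify

/-!
Heat potentials of compactly supported sources: derivatives, the heat equation, representations.
-/

noncomputable section

namespace Vale.Agent.P363.Ext.Heat

open MeasureTheory Filter Set
open scoped BigOperators Topology

/-- `C¹` sources of compact support. -/
structure CSrc (w : ℝ → ℝ → ℝ) : Prop where
  smooth : ContDiff ℝ 1 (Function.uncurry w)
  compact : HasCompactSupport (Function.uncurry w)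

/-- The potential with an `m`-th derivative of the kernel, in source coordinates. -/
def potD (κ : ℝ) (m : ℕ) (w : ℝ → ℝ → ℝ) (τ θ : ℝ) : ℝ :=
  ∫ q : ℝ × ℝ, kernD m (2 * κ * (τ - q.1)) (θ - q.2) * w q.1 q.2

variable {κ : ℝ} {w : ℝ → ℝ → ℝ} {t₀ h : ℝ}

theorem pot_eq_potD (κ : ℝ) (w : ℝ → ℝ → ℝ) (τ θ : ℝ) : pot κ w τ θ = potD κ 0 w τ θ := by
  rw [pot, potD, ← integral_sub_left_eq_self (fun p : ℝ × ℝ =>
    kern (2 * κ * p.1) p.2 * w (τ - p.1) (θ - p.2)) volume (τ, θ)]
  simp [kernD_zero]

theorem integrable_pot {m : ℕ} (hm : m ≤ 1) (hκ : 0 < κ) {f : ℝ × ℝ → ℝ} (hf : Continuous f)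
    (hfc : HasCompactSupport f) (p : ℝ × ℝ) :
    Integrable (fun q : ℝ × ℝ => kernD m (2 * κ * q.1) q.2 * f (p - q)) := by
  have := (locallyIntegrable_kernD hκ hm).integrable_smul_right_of_hasCompactSupport
    (g := fun q => f (p - q)) (by fun_prop) (hfc.comp_homeomorph (Homeomorph.subLeft p))
  exact this

theorem pot_eq_conv (κ : ℝ) (w : ℝ → ℝ → ℝ) :
    Function.uncurry (pot κ w) =
      Caloric.mol (fun q : ℝ × ℝ => kern (2 * κ * q.1) q.2) (Function.uncurry w) := by
  funext p
  obtain ⟨τ, θ⟩ := p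
  rw [Caloric.mol_apply_swap]
  simp only [Function.uncurry_apply_pair, pot]
  refine integral_congr_ae (Eventually.of_forall fun q => ?_)
  simp [Function.uncurry, mul_comm]

theorem locallyIntegrable_kern (hκ : 0 < κ) :
    LocallyIntegrable fun q : ℝ × ℝ => kern (2 * κ * q.1) q.2 := by
  simpa [kernD_zero] using locallyIntegrable_kernD hκ (zero_le_one : 0 ≤ 1)

theorem contDiff_pot (hκ : 0 < κ) {n : ℕ∞} (hw : ContDiff ℝ n (Function.uncurry w))
    (hc : HasCompactSupport (Function.uncurry w)) :
    ContDiff ℝ n (Function.uncurry (pot κ w)) := by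
  rw [pot_eq_conv]
  exact hc.contDiff_convolution_left _ hw (locallyIntegrable_kern hκ)

theorem fderiv_pot (hκ : 0 < κ) (hw : CSrc w) (τ θ : ℝ) (v : ℝ × ℝ) :
    fderiv ℝ (Function.uncurry (pot κ w)) (τ, θ) v =
      pot κ (fun σ y => fderiv ℝ (Function.uncurry w) (σ, y) v) τ θ := by
  have hu := locallyIntegrable_kern hκ
  rw [show pot κ (fun σ y => fderiv ℝ (Function.uncurry w) (σ, y) v) τ θ =
    Function.uncurry (pot κ fun σ y => fderiv ℝ (Function.uncurry w) (σ, y) v) (τ, θ) from rfl,
    pot_eq_conv, pot_eq_conv, Caloric.mol,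
    (hw.compact.hasFDerivAt_convolution_left (ContinuousLinearMap.lsmul ℝ ℝ) hw.smooth hu
      (τ, θ)).fderiv, MeasureTheory.convolution_def, ContinuousLinearMap.integral_apply]
  · simp [Caloric.mol_apply, Function.uncurry]
  · exact (hw.compact.fderiv ℝ).convolutionExists_left _
      (hw.smooth.continuous_fderiv one_ne_zero) hu (τ, θ)

theorem dT_eq_fderiv (hw : ContDiff ℝ 1 (Function.uncurry w)) (τ θ : ℝ) :
    dT w τ θ = fderiv ℝ (Function.uncurry w) (τ, θ) (1, 0) :=
  (hasDerivAt_fst_of_open one_ne_zero isOpen_univ hw.contDiffOn (mem_univ _)).deriv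

theorem dY_eq_fderiv (hw : ContDiff ℝ 1 (Function.uncurry w)) (τ θ : ℝ) :
    dY w τ θ = fderiv ℝ (Function.uncurry w) (τ, θ) (0, 1) :=
  (hasDerivAt_snd_of_open one_ne_zero isOpen_univ hw.contDiffOn (mem_univ _)).deriv

theorem dT_pot (hκ : 0 < κ) (hw : CSrc w) (τ θ : ℝ) :
    dT (pot κ w) τ θ = pot κ (dT w) τ θ := by
  rw [dT_eq_fderiv (contDiff_pot (n := 1) hκ hw.smooth hw.compact), fderiv_pot hκ hw,
    show dT w = fun σ y => fderiv ℝ (Function.uncurry w) (σ, y) (1, 0) from
      funext fun σ => funext (dT_eq_fderiv hw.smooth σ)]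

theorem dY_pot (hκ : 0 < κ) (hw : CSrc w) (τ θ : ℝ) :
    dY (pot κ w) τ θ = pot κ (dY w) τ θ := by
  rw [dY_eq_fderiv (contDiff_pot (n := 1) hκ hw.smooth hw.compact), fderiv_pot hκ hw,
    show dY w = fun σ y => fderiv ℝ (Function.uncurry w) (σ, y) (0, 1) from
      funext fun σ => funext (dY_eq_fderiv hw.smooth σ)]

theorem CSrc.deriv' (hw : ContDiff ℝ 2 (Function.uncurry w))
    (hc : HasCompactSupport (Function.uncurry w)) : CSrc (dT w) ∧ CSrc (dY w) := by
  have h1 : ContDiff ℝ 1 (Function.uncurry w) := hw.of_le (by norm_num)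
  have e1 : Function.uncurry (dT w) = fun p => fderiv ℝ (Function.uncurry w) p (1, 0) :=
    funext fun p => dT_eq_fderiv h1 p.1 p.2
  have e2 : Function.uncurry (dY w) = fun p => fderiv ℝ (Function.uncurry w) p (0, 1) :=
    funext fun p => dY_eq_fderiv h1 p.1 p.2
  refine ⟨⟨?_, ?_⟩, ⟨?_, ?_⟩⟩
  · rw [e1]; exact (hw.fderiv_right (by norm_num)).clm_apply contDiff_const
  · rw [e1]; exact hc.fderiv_apply ℝ _
  · rw [e2]; exact (hw.fderiv_right (by norm_num)).clm_apply contDiff_const
  · rw [e2]; exact hc.fderiv_apply ℝ _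

theorem Source.csrc (hw : Source w t₀ h) : CSrc w :=
  ⟨hw.smooth.of_le (by norm_num), hw.compact⟩

theorem continuous_dT (hw : ContDiff ℝ 1 (Function.uncurry w)) :
    Continuous (Function.uncurry (dT w)) := by
  rw [show Function.uncurry (dT w) = fun p => fderiv ℝ (Function.uncurry w) p (1, 0) from
    funext fun p => dT_eq_fderiv hw p.1 p.2]
  exact (hw.continuous_fderiv one_ne_zero).clm_apply continuous_const

theorem continuous_dY (hw : ContDiff ℝ 1 (Function.uncurry w)) :
    Continuous (Function.uncurry (dY w)) := by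
  rw [show Function.uncurry (dY w) = fun p => fderiv ℝ (Function.uncurry w) p (0, 1) from
    funext fun p => dY_eq_fderiv hw p.1 p.2]
  exact (hw.continuous_fderiv one_ne_zero).clm_apply continuous_const

theorem compact_dT (hw : CSrc w) : HasCompactSupport (Function.uncurry (dT w)) := by
  rw [show Function.uncurry (dT w) = fun p => fderiv ℝ (Function.uncurry w) p (1, 0) from
    funext fun p => dT_eq_fderiv hw.smooth p.1 p.2]
  exact hw.compact.fderiv_apply ℝ _

theorem compact_dY (hw : CSrc w) : HasCompactSupport (Function.uncurry (dY w)) := by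
  rw [show Function.uncurry (dY w) = fun p => fderiv ℝ (Function.uncurry w) p (0, 1) from
    funext fun p => dY_eq_fderiv hw.smooth p.1 p.2]
  exact hw.compact.fderiv_apply ℝ _

theorem integral_mul_kern {v : ℝ} (hv : 0 < v) (φ : ℝ → ℝ) :
    ∫ x, kern v x * φ x = ∫ z, prof 0 z * φ (Real.sqrt v * z) := by
  have hs := Real.sqrt_pos.2 hv
  have e : ∀ x, kern v x * φ x =
      (Real.sqrt v)⁻¹ * (prof 0 (x / Real.sqrt v) * φ (Real.sqrt v * (x / Real.sqrt v))) := by
    intro x
    rw [← kernD_zero, kernD_eq hv, zero_add, pow_one, mul_div_cancel₀ _ hs.ne']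
    ring
  simp only [e]
  rw [integral_const_mul, Measure.integral_comp_div (fun z => prof 0 z * φ (Real.sqrt v * z)),
    abs_of_pos hs, smul_eq_mul, ← mul_assoc, inv_mul_cancel₀ hs.ne', one_mul]

theorem integral_prof_zero : ∫ z, prof 0 z = 1 := by
  have h := integral_gaussian (1 / 2)
  have e : prof 0 = fun z : ℝ => Real.exp (-(1 / 2) * z ^ 2) / Real.sqrt (2 * Real.pi) := by
    funext z
    simp [prof]
    ring_nf
  rw [e, integral_div, h, show Real.pi / (1 / 2) = 2 * Real.pi by ring, div_self (by positivity)]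

theorem integrable_pow_prof (q m : ℕ) : Integrable fun z : ℝ => (1 + |z|) ^ q * |prof m z| := by
  obtain ⟨C, hC, hb⟩ := exists_prof_gauss m
  refine ((integrable_pow_exp q (show (0 : ℝ) < 1 / 4 by norm_num)).const_mul C).mono'
    (Continuous.aestronglyMeasurable ((by fun_prop : Continuous fun z : ℝ => (1 + |z|) ^ q).mul
      (continuous_prof m).abs)) (Eventually.of_forall fun z => ?_)
  rw [Real.norm_eq_abs, abs_of_nonneg (by positivity), mul_left_comm]
  refine mul_le_mul_of_nonneg_left ((hb z).trans (le_of_eq ?_)) (by positivity)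
  congr 3
  ring

theorem integrable_prof_mul (m : ℕ) {g : ℝ → ℝ} (hg : Continuous g) {C : ℝ}
    (hb : ∀ z, |g z| ≤ C * (1 + |z|)) : Integrable fun z => prof m z * g z := by
  refine ((integrable_pow_prof 1 m).const_mul C).mono'
    ((continuous_prof m).mul hg).aestronglyMeasurable (Eventually.of_forall fun z => ?_)
  rw [Real.norm_eq_abs, abs_mul, pow_one]
  calc |prof m z| * |g z| ≤ |prof m z| * (C * (1 + |z|)) :=
        mul_le_mul_of_nonneg_left (hb z) (abs_nonneg _)
    _ = _ := by ring

/-- The heat equation with the source on the right. -/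
theorem pot_source (hκ : 0 < κ) (hw : ContDiff ℝ 2 (Function.uncurry w))
    (hc : HasCompactSupport (Function.uncurry w)) (τ θ : ℝ) :
    pot κ (fun σ y => dT w σ y - κ * dY (dY w) σ y) τ θ = w τ θ := by
  have hs : CSrc w := ⟨hw.of_le (by norm_num), hc⟩
  obtain ⟨-, hy⟩ := CSrc.deriv' hw hc
  set g : ℝ → ℝ → ℝ := fun σ y => dT w σ y - κ * dY (dY w) σ y with hgd
  have hgc : Continuous (Function.uncurry g) :=
    (continuous_dT hs.smooth).sub (continuous_const.mul (continuous_dY hy.smooth))
  have hgs : HasCompactSupport (Function.uncurry g) := by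
    have h1 := (compact_dT hs).sub ((compact_dY hy).mul_left (f := fun _ : ℝ × ℝ => κ))
    exact h1
  have hgb : ∃ C, ∀ σ y, |g σ y| ≤ C := by
    obtain ⟨C, hC⟩ := hgs.exists_bound_of_continuous hgc
    exact ⟨C, fun σ y => hC (σ, y)⟩
  obtain ⟨Cg, hCg⟩ := hgb
  obtain ⟨Cw, hCw⟩ := hc.exists_bound_of_continuous hw.continuous
  obtain ⟨Ct, hCt⟩ := (compact_dT hs).exists_bound_of_continuous (continuous_dT hs.smooth)
  obtain ⟨Cy, hCy⟩ := (compact_dY hs).exists_bound_of_continuous (continuous_dY hs.smooth)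
  obtain ⟨Cyy, hCyy⟩ := (compact_dY hy).exists_bound_of_continuous (continuous_dY hy.smooth)
  simp only [Real.norm_eq_abs, Prod.forall, Function.uncurry_apply_pair] at hCw hCt hCy hCyy
  have cw : Continuous fun p : ℝ × ℝ => w p.1 p.2 := hw.continuous
  have cg : Continuous fun p : ℝ × ℝ => g p.1 p.2 := hgc
  obtain ⟨b, hb⟩ := (IsCompact.image (IsCompact.union hc hgs) continuous_fst).bddBelow
  set S : ℝ := max (τ - b + 1) 1 with hSd
  have hS : 0 < S := lt_of_lt_of_le one_pos (le_max_right _ _)
  have hout : ∀ t, S ≤ t → ∀ y, w (τ - t) y = 0 ∧ g (τ - t) y = 0 := by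
    intro t ht y
    have hlt : τ - t < b := by linarith [le_max_left (τ - b + 1) (1 : ℝ)]
    have hn : (τ - t, y) ∉ tsupport (Function.uncurry w) ∪ tsupport (Function.uncurry g) :=
      fun hh => absurd (hb ⟨_, hh, rfl⟩) (not_le.2 hlt)
    rw [mem_union, not_or] at hn
    exact ⟨image_eq_zero_of_notMem_tsupport (f := Function.uncurry w) hn.1,
      image_eq_zero_of_notMem_tsupport (f := Function.uncurry g) hn.2⟩
  set c : ℝ → ℝ := fun t => Real.sqrt (2 * κ * t) with hcd
  have hcc : Continuous c := by fun_prop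
  set H : ℝ → ℝ := fun t => ∫ z, prof 0 z * w (τ - t) (θ - c t * z) with hHd
  set G : ℝ → ℝ := fun t => ∫ z, prof 0 z * g (τ - t) (θ - c t * z) with hGd
  have i0 : Integrable fun z => |prof 0 z| := by simpa using integrable_pow_prof 0 0
  have hcont : ∀ (F : ℝ → ℝ → ℝ) (C : ℝ), Continuous (fun p : ℝ × ℝ => F p.1 p.2) →
      (∀ σ y, |F σ y| ≤ C) →
      Continuous fun t => ∫ z, prof 0 z * F (τ - t) (θ - c t * z) := by
    intro F C cF hF
    refine continuous_of_dominated (bound := fun z => C * |prof 0 z|)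
      (fun t => ((continuous_prof 0).mul (cF.comp (f := fun z : ℝ => (τ - t, θ - c t * z))
        (by fun_prop))).aestronglyMeasurable)
      (fun t => Eventually.of_forall fun z => ?_) (i0.const_mul C)
      (Eventually.of_forall fun z => continuous_const.mul
        (cF.comp (f := fun t : ℝ => (τ - t, θ - c t * z)) (by fun_prop)))
    rw [Real.norm_eq_abs, abs_mul, mul_comm C]
    exact mul_le_mul_of_nonneg_left (hF _ _) (abs_nonneg _)
  have hderiv : ∀ t ∈ Ioo 0 S, HasDerivAt H (-G t) t := by
    intro t ht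
    have hw1 : ContDiffOn ℝ 1 (Function.uncurry w) univ := hs.smooth.contDiffOn
    set F' : ℝ → ℝ → ℝ := fun s z => prof 0 z * (-dT w (τ - s) (θ - c s * z) +
      -(κ / c s) * z * dY w (τ - s) (θ - c s * z)) with hF'
    have hc0 : 0 < c (t / 2) := Real.sqrt_pos.2 (by have := ht.1; positivity)
    have hdiff : ∀ z, ∀ s ∈ Ioi (t / 2), HasDerivAt
        (fun u => prof 0 z * w (τ - u) (θ - c u * z)) (F' s z) s := by
      intro z s hs'
      have hs0 : 0 < s := lt_trans (by linarith [ht.1]) hs'
      have dc : HasDerivAt c (κ / c s) s := by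
        have h := (Real.hasDerivAt_sqrt (show (2 * κ * s) ≠ 0 by positivity)).comp s
          ((hasDerivAt_id s).const_mul (2 * κ))
        exact h.congr_deriv (by rw [hcd]; field_simp)
      have d1 : HasDerivAt (fun u : ℝ => (τ - u, θ - c u * z)) (-1, -(κ / c s * z)) s :=
        ((hasDerivAt_id s).const_sub τ).prodMk ((dc.mul_const z).const_sub θ)
      have h := HasFDerivAt.comp_hasDerivAt s
        (hs.smooth.differentiable one_ne_zero (τ - s, θ - c s * z)).hasFDerivAt d1
      refine (h.const_mul (prof 0 z)).congr_deriv ?_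
      rw [hF']
      simp only
      rw [dT_eq_fderiv hs.smooth, dY_eq_fderiv hs.smooth,
        show ((-1 : ℝ), -(κ / c s * z)) = (-1 : ℝ) • ((1 : ℝ), (0 : ℝ)) +
          (-(κ / c s * z)) • ((0 : ℝ), (1 : ℝ)) by simp, map_add, map_smul, map_smul,
        smul_eq_mul, smul_eq_mul]
      ring
    set a' := κ / c (t / 2) with ha'
    have hbound : ∀ z, ∀ s ∈ Ioi (t / 2), ‖F' s z‖ ≤
        (Ct + a' * Cy) * ((1 + |z|) ^ 1 * |prof 0 z|) := by
      intro z s hs'
      have hcs : κ / c s ≤ a' :=
        div_le_div_of_nonneg_left hκ.le hc0 (Real.sqrt_le_sqrt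
          (mul_le_mul_of_nonneg_left (le_of_lt (show t / 2 < s from hs')) (by positivity)))
      have h0 : 0 ≤ κ / c s := div_nonneg hκ.le (Real.sqrt_nonneg _)
      have e1 := hCt (τ - s) (θ - c s * z)
      have e2 := hCy (τ - s) (θ - c s * z)
      have n1 : 0 ≤ Ct := le_trans (abs_nonneg _) e1
      have n2 : 0 ≤ Cy := le_trans (abs_nonneg _) e2
      have n3 : 0 ≤ a' := h0.trans hcs
      rw [hF', Real.norm_eq_abs, abs_mul, pow_one]
      calc |prof 0 z| * |-dT w (τ - s) (θ - c s * z) +
            -(κ / c s) * z * dY w (τ - s) (θ - c s * z)|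
          ≤ |prof 0 z| * (Ct + a' * |z| * Cy) := by
            refine mul_le_mul_of_nonneg_left ((abs_add_le _ _).trans ?_) (abs_nonneg _)
            rw [abs_neg, abs_mul, abs_mul, abs_neg, abs_of_nonneg h0]
            gcongr
        _ ≤ _ := by
            have : Ct + a' * |z| * Cy ≤ (Ct + a' * Cy) * (1 + |z|) := by
              nlinarith [abs_nonneg z, mul_nonneg n3 n2, mul_nonneg n1 (abs_nonneg z)]
            refine (mul_le_mul_of_nonneg_left this (abs_nonneg _)).trans (le_of_eq ?_)
            ring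
    obtain ⟨hint, hd⟩ := hasDerivAt_integral_of_dominated_loc_of_deriv_le
      (F := fun u z => prof 0 z * w (τ - u) (θ - c u * z)) (F' := F')
      (Ioi_mem_nhds (show t / 2 < t by linarith [ht.1]))
      (Eventually.of_forall fun u => ((continuous_prof 0).mul
        (cw.comp (f := fun z : ℝ => (τ - u, θ - c u * z)) (by fun_prop))).aestronglyMeasurable)
      (integrable_prof_mul 0 (cw.comp (f := fun z : ℝ => (τ - t, θ - c t * z)) (by fun_prop))
        (C := Cw) fun z => (hCw _ _).trans (le_mul_of_one_le_right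
          ((abs_nonneg _).trans (hCw 0 0)) (le_add_of_nonneg_right (abs_nonneg z))))
      (by
        have c1 : Continuous fun p : ℝ × ℝ => dT w p.1 p.2 := continuous_dT hs.smooth
        have c2 : Continuous fun p : ℝ × ℝ => dY w p.1 p.2 := continuous_dY hs.smooth
        exact ((continuous_prof 0).mul
          ((c1.comp (f := fun z : ℝ => (τ - t, θ - c t * z)) (by fun_prop)).neg.add
            ((continuous_const.mul continuous_id).mul
              (c2.comp (f := fun z : ℝ => (τ - t, θ - c t * z))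
                (by fun_prop))))).aestronglyMeasurable)
      (Eventually.of_forall fun z => hbound z)
      ((integrable_pow_prof 1 0).const_mul _) (Eventually.of_forall fun z => hdiff z)
    refine hd.congr_deriv ?_
    have hct : c t ≠ 0 := (Real.sqrt_pos.2 (by have := ht.1; positivity)).ne'
    have c1 : Continuous fun p : ℝ × ℝ => dT w p.1 p.2 := continuous_dT hs.smooth
    have c2 : Continuous fun p : ℝ × ℝ => dY w p.1 p.2 := continuous_dY hs.smooth
    have c3 : Continuous fun p : ℝ × ℝ => dY (dY w) p.1 p.2 := continuous_dY hy.smooth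
    have k1 : Continuous fun z => dT w (τ - t) (θ - c t * z) :=
      c1.comp (f := fun z : ℝ => (τ - t, θ - c t * z)) (by fun_prop)
    have k2 : Continuous fun z => dY w (τ - t) (θ - c t * z) :=
      c2.comp (f := fun z : ℝ => (τ - t, θ - c t * z)) (by fun_prop)
    have k3 : Continuous fun z => dY (dY w) (τ - t) (θ - c t * z) :=
      c3.comp (f := fun z : ℝ => (τ - t, θ - c t * z)) (by fun_prop)
    have b1 : ∀ {C : ℝ} {f : ℝ → ℝ}, (∀ z, |f z| ≤ C) → ∀ z, |f z| ≤ C * (1 + |z|) :=
      fun hf z => (hf z).trans (le_mul_of_one_le_right ((abs_nonneg _).trans (hf z))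
        (le_add_of_nonneg_right (abs_nonneg z)))
    have hzy : Integrable fun z => prof 0 z * (z * dY w (τ - t) (θ - c t * z)) :=
      integrable_prof_mul 0 (continuous_id.mul k2) (C := Cy) fun z => by
        have := hCy (τ - t) (θ - c t * z)
        rw [abs_mul]
        nlinarith [abs_nonneg z, abs_nonneg (dY w (τ - t) (θ - c t * z))]
    have hibp : ∫ z, prof 0 z * (-(c t) * dY (dY w) (τ - t) (θ - c t * z)) =
        -∫ z, prof 1 z * dY w (τ - t) (θ - c t * z) := by
      refine integral_mul_deriv_eq_deriv_mul_of_integrable (fun z _ => hasDerivAt_prof 0 z)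
        (v := fun z => dY w (τ - t) (θ - c t * z)) (fun z _ => ?_) ?_ ?_ ?_
      · have h := (hasDerivAt_dY one_ne_zero isOpen_univ hy.smooth.contDiffOn
          (mem_univ (τ - t, θ - c t * z))).comp z (((hasDerivAt_id z).const_mul (c t)).const_sub θ)
        exact h.congr_deriv (by simp; ring)
      · exact integrable_prof_mul 0 (continuous_const.mul k3) (C := |c t| * Cyy) (b1 fun z => by
          rw [abs_mul, abs_neg]
          exact mul_le_mul_of_nonneg_left (hCyy _ _) (abs_nonneg _))
      · exact integrable_prof_mul 1 k2 (C := Cy) (b1 fun z => hCy _ _)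
      · exact integrable_prof_mul 0 k2 (C := Cy) (b1 fun z => hCy _ _)
    have hneg : ∫ z, prof 1 z * dY w (τ - t) (θ - c t * z) =
        -∫ z, prof 0 z * (z * dY w (τ - t) (θ - c t * z)) := by
      rw [← integral_neg]
      exact integral_congr_ae (Eventually.of_forall fun z => by simp [prof_one]; ring)
    rw [hneg, neg_neg] at hibp
    have hT : Integrable fun z => prof 0 z * dT w (τ - t) (θ - c t * z) :=
      integrable_prof_mul 0 k1 (C := Ct) (b1 fun z => hCt _ _)
    have hYY : Integrable fun z => prof 0 z * dY (dY w) (τ - t) (θ - c t * z) :=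
      integrable_prof_mul 0 k3 (C := Cyy) (b1 fun z => hCyy _ _)
    have e1 : ∫ z, F' t z = -(∫ z, prof 0 z * dT w (τ - t) (θ - c t * z)) +
        -(κ / c t) * ∫ z, prof 0 z * (z * dY w (τ - t) (θ - c t * z)) := by
      rw [← integral_neg, ← integral_const_mul, ← integral_add hT.fun_neg (hzy.const_mul _)]
      exact integral_congr_ae (Eventually.of_forall fun z => by simp [hF']; ring)
    have e2 : G t = (∫ z, prof 0 z * dT w (τ - t) (θ - c t * z)) -
        κ * ∫ z, prof 0 z * dY (dY w) (τ - t) (θ - c t * z) := by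
      rw [hGd, ← integral_const_mul, ← integral_sub hT (hYY.const_mul κ)]
      exact integral_congr_ae (Eventually.of_forall fun z => by simp [hgd]; ring)
    have e3 : ∫ z, prof 0 z * (-(c t) * dY (dY w) (τ - t) (θ - c t * z)) =
        -(c t) * ∫ z, prof 0 z * dY (dY w) (τ - t) (θ - c t * z) := by
      rw [← integral_const_mul]
      exact integral_congr_ae (Eventually.of_forall fun z => by ring)
    rw [e3] at hibp
    rw [e1, e2, ← hibp]
    field_simp
    ring
  have hftc := intervalIntegral.integral_eq_sub_of_hasDerivAt_of_le hS.le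
    (hcont w Cw cw hCw).continuousOn hderiv ((hcont g Cg cg hCg).neg.intervalIntegrable 0 S)
  have hH0 : H 0 = w τ θ := by
    simp [hHd, hcd, integral_mul_const, integral_prof_zero]
  have hHS : H S = 0 := by
    simp [hHd, fun z => (hout S le_rfl (θ - c S * z)).1]
  change (∫ x in (0 : ℝ)..S, -G x) = H S - H 0 at hftc
  rw [intervalIntegral.integral_neg, hH0, hHS, zero_sub, neg_inj,
    intervalIntegral.integral_of_le hS.le] at hftc
  rw [← hftc, pot]
  have hint : Integrable fun p : ℝ × ℝ => kern (2 * κ * p.1) p.2 * g (τ - p.1) (θ - p.2) := by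
    have := integrable_pot (zero_le_one : 0 ≤ 1) hκ hgc hgs (τ, θ)
    simpa [kernD_zero, Function.uncurry] using this
  rw [Measure.volume_eq_prod] at hint ⊢
  rw [integral_prod _ hint, ← setIntegral_eq_integral_of_forall_compl_eq_zero (s := Ioc 0 S)]
  · refine setIntegral_congr_fun measurableSet_Ioc fun t ht => ?_
    exact integral_mul_kern (show 0 < 2 * κ * t by have := ht.1; positivity) _
  · intro t ht
    rcases le_or_gt t 0 with h0 | h0
    · simp [kern, Real.sqrt_eq_zero_of_nonpos (x := 2 * Real.pi * (2 * κ * t))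
        (mul_nonpos_of_nonneg_of_nonpos (by positivity)
          (mul_nonpos_of_nonneg_of_nonpos (by positivity) h0))]
    · have hSt : S ≤ t := le_of_lt (not_le.1 fun h => ht ⟨h0, h⟩)
      simp [fun y => (hout t hSt y).2]

end Vale.Agent.P363.Ext.Heat
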