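import Vale.Agent.P363.Ext.Spec

/-!
P363, exterior argument: heat potentials in `(τ, θ)`, `τ = 1 / r`, as test functions for the
reduced operator `polarOp`.

With `Z (τ, θ) = ζ (r, θ)` one has `r² M ζ = Z_θθ - 2 a Z_τ + timeOp Z`, and `dr dθ = τ⁻² dτ dθ`.
Taking `Z = Φ (τ) χ (θ) K` with `K_τ = κ K_θθ + w`, `κ = 1 / (2 a)`, turns the weak equation into a
jump identity between the source `w` and the time cut-off `Φ'`.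
-/

noncomputable section

namespace Vale.Agent.P363.Ext.Heat

open MeasureTheory Filter Set Polynomial
open scoped BigOperators Topology

/-- The centred Gaussian density of variance `v` (zero for `v ≤ 0`). -/
def kern (v x : ℝ) : ℝ := Real.exp (-(x ^ 2 / (2 * v))) / Real.sqrt (2 * Real.pi * v)

/-- Its `m`-th space derivative. -/
def kernD (m : ℕ) (v x : ℝ) : ℝ :=
  (-1) ^ m * aeval (x / Real.sqrt v) (hermite m) * kern v x / Real.sqrt v ^ m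

/-- The time derivative of a function of `(τ, θ)`. -/
def dT (Z : ℝ → ℝ → ℝ) (τ θ : ℝ) : ℝ := deriv (fun t => Z t θ) τ

/-- The space derivative of a function of `(τ, θ)`. -/
def dY (Z : ℝ → ℝ → ℝ) (τ θ : ℝ) : ℝ := deriv (Z τ) θ

/-- The curvature part of the reduced operator in the time `τ = 1 / r`. -/
def timeOp (a k : ℝ) (Z : ℝ → ℝ → ℝ) (τ θ : ℝ) : ℝ :=
  τ ^ 2 * dT (dT Z) τ θ + (2 + 2 * (k / a)) * τ * dT Z τ θ + 2 * (k / a) * Z τ θ -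
    θ ^ 2 * dY (dY Z) τ θ - 2 * θ * dY Z τ θ

/-- The cut-off test function `Φ (τ) χ (θ) K (τ, θ)`. -/
def cut (Φ χ : ℝ → ℝ) (K : ℝ → ℝ → ℝ) (τ θ : ℝ) : ℝ := Φ τ * χ θ * K τ θ

/-- The defect of the space cut-off. -/
def cutErr (Φ χ : ℝ → ℝ) (K : ℝ → ℝ → ℝ) (τ θ : ℝ) : ℝ :=
  Φ τ * (deriv (deriv χ) θ * K τ θ + 2 * deriv χ θ * dY K τ θ)

/-- The right hand side of the reduced equation, divided by `τ²`. -/
def rhs (a k : ℝ) (f h : Space → ℝ) (τ θ : ℝ) : ℝ :=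
  (red a k h τ⁻¹ θ - 2 * (farPot a k τ⁻¹ + shift a k τ⁻¹) * red a k f τ⁻¹ θ) / τ ^ 2

/-- The heat potential of a source. -/
def pot (κ : ℝ) (w : ℝ → ℝ → ℝ) (τ θ : ℝ) : ℝ :=
  ∫ p : ℝ × ℝ, kern (2 * κ * p.1) p.2 * w (τ - p.1) (θ - p.2)

/-- The odd image of a source. -/
def oddImage (w : ℝ → ℝ → ℝ) (σ y : ℝ) : ℝ := w σ y - w σ (-y)

/-- Sources: `C²`, compact support, times in `[t₀, t₀ + h]`. -/
structure Source (w : ℝ → ℝ → ℝ) (t₀ h : ℝ) : Prop where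
  smooth : ContDiff ℝ 2 (Function.uncurry w)
  compact : HasCompactSupport (Function.uncurry w)
  time_nonneg : 0 ≤ h
  supp : ∀ σ y, w σ y ≠ 0 → σ ∈ Icc t₀ (t₀ + h)

/-- `∫ |w| (|y| + √L) ^ q`. -/
def moment (q : ℕ) (L : ℝ) (w : ℝ → ℝ → ℝ) : ℝ :=
  ∫ p : ℝ × ℝ, |w p.1 p.2| * (|p.2| + Real.sqrt L) ^ q

/-- `∫ |w| |y| (|y| + √L) ^ (q - 1)`. -/
def oddMoment (q : ℕ) (L : ℝ) (w : ℝ → ℝ → ℝ) : ℝ :=
  ∫ p : ℝ × ℝ, |w p.1 p.2| * (|p.2| * (|p.2| + Real.sqrt L) ^ (q - 1))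

/-- The `m`-th space derivative of the backward heat average of `g`. -/
def heatAvg (κ : ℝ) (g : ℝ × ℝ → ℝ) (m : ℕ) (σ y : ℝ) : ℝ :=
  ∫ p : ℝ × ℝ, g p * kernD m (2 * κ * (p.1 - σ)) (y - p.2)

/-- `polarOp` in the time `1 / r`. -/
def PolarInvStmt : Prop :=
  ∀ (a k : ℝ) (Z : ℝ → ℝ → ℝ), ContDiff ℝ 2 (Function.uncurry Z) → ∀ r θ : ℝ, 0 < r →
    polarOp a k (fun s t => Z s⁻¹ t) r θ =
      (dY (dY Z) r⁻¹ θ - 2 * a * dT Z r⁻¹ θ + timeOp a k Z r⁻¹ θ) / r ^ 2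

/-- The curvature part of a cut-off function. -/
def CutStmt : Prop :=
  ∀ (a k : ℝ) (Φ χ : ℝ → ℝ) (K : ℝ → ℝ → ℝ) (U : Set ℝ), IsOpen U →
    ContDiff ℝ 2 Φ → ContDiff ℝ 2 χ → ContDiffOn ℝ 2 (Function.uncurry K) (U ×ˢ univ) →
    ∀ τ ∈ U, ∀ θ : ℝ, timeOp a k (cut Φ χ K) τ θ =
      Φ τ * χ θ * timeOp a k K τ θ
        + deriv Φ τ * χ θ * (2 * τ ^ 2 * dT K τ θ + (2 + 2 * (k / a)) * τ * K τ θ)
        + deriv (deriv Φ) τ * χ θ * (τ ^ 2 * K τ θ)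
        - (θ ^ 2 * cutErr Φ χ K τ θ + 2 * θ * (Φ τ * deriv χ θ * K τ θ))

/-- The jump identity on the line. -/
def JumpStmt : Prop :=
  IdentityStmt → ∀ (a k R : ℝ), 0 < a → 1 ≤ R → ∀ f h : Space → ℝ, ContinuousOn f (belt R) →
    (∀ θ x, f (rot θ x) = f x) → (∀ θ x, h (rot θ x) = h x) → Measurable h →
    WeakPoisson (belt R) f h →
    ∀ (Φ χ : ℝ → ℝ) (K w : ℝ → ℝ → ℝ) (U : Set ℝ), IsOpen U →
      ContDiff ℝ 2 Φ → HasCompactSupport Φ → tsupport Φ ⊆ Ioo 0 R⁻¹ ∩ U →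
      ContDiff ℝ 2 χ → HasCompactSupport χ → tsupport χ ⊆ Ioo (-(1 / 2)) (1 / 2) →
      ContDiffOn ℝ 2 (Function.uncurry K) (U ×ˢ univ) → Continuous (Function.uncurry w) →
      (∀ τ ∈ U, ∀ θ, dT K τ θ = 1 / (2 * a) * dY (dY K) τ θ + w τ θ) →
        2 * a * ∫ p : ℝ × ℝ, red a k f p.1⁻¹ p.2 * cut Φ χ w p.1 p.2 =
          -(2 * a) * (∫ p : ℝ × ℝ, red a k f p.1⁻¹ p.2 * cut (deriv Φ) χ K p.1 p.2)
            + (∫ p : ℝ × ℝ, red a k f p.1⁻¹ p.2 * cutErr Φ χ K p.1 p.2)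
            + (∫ p : ℝ × ℝ, red a k f p.1⁻¹ p.2 * timeOp a k (cut Φ χ K) p.1 p.2)
            - ∫ p : ℝ × ℝ, cut Φ χ K p.1 p.2 * rhs a k f h p.1 p.2

/-- The jump identity on the upper half, for test functions vanishing on the plane. -/
def HalfJumpStmt : Prop :=
  HalfIdentityStmt → ∀ (a k R : ℝ), 0 < a → 1 ≤ R → ∀ f h : Space → ℝ,
    ContDiffOn ℝ 1 f (belt R) →
    (∀ θ x, f (rot θ x) = f x) → (∀ θ x, h (rot θ x) = h x) → Measurable h →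
    WeakPoisson (belt R) f h →
    ∀ (Φ χ : ℝ → ℝ) (K w : ℝ → ℝ → ℝ) (U : Set ℝ), IsOpen U →
      ContDiff ℝ 2 Φ → HasCompactSupport Φ → tsupport Φ ⊆ Ioo 0 R⁻¹ ∩ U →
      ContDiff ℝ 2 χ → HasCompactSupport χ → tsupport χ ⊆ Ioo (-(1 / 2)) (1 / 2) →
      ContDiffOn ℝ 2 (Function.uncurry K) (U ×ˢ univ) → Continuous (Function.uncurry w) →
      (∀ τ ∈ U, ∀ θ, dT K τ θ = 1 / (2 * a) * dY (dY K) τ θ + w τ θ) →
      (∀ τ ∈ U, K τ 0 = 0) →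
        2 * a * ∫ p in {p : ℝ × ℝ | 0 < p.2}, red a k f p.1⁻¹ p.2 * cut Φ χ w p.1 p.2 =
          -(2 * a) * (∫ p in {p : ℝ × ℝ | 0 < p.2},
              red a k f p.1⁻¹ p.2 * cut (deriv Φ) χ K p.1 p.2)
            + (∫ p in {p : ℝ × ℝ | 0 < p.2}, red a k f p.1⁻¹ p.2 * cutErr Φ χ K p.1 p.2)
            + (∫ p in {p : ℝ × ℝ | 0 < p.2},
                red a k f p.1⁻¹ p.2 * timeOp a k (cut Φ χ K) p.1 p.2)
            - (∫ p in {p : ℝ × ℝ | 0 < p.2}, cut Φ χ K p.1 p.2 * rhs a k f h p.1 p.2)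
            + ∫ τ : ℝ, red a k f τ⁻¹ 0 * (Φ τ * χ 0 * dY K τ 0)

/-- Basic properties of heat potentials. -/
def PotStmt : Prop :=
  ∀ κ : ℝ, 0 < κ → ∀ (w : ℝ → ℝ → ℝ) (t₀ h : ℝ), Source w t₀ h →
    ContDiff ℝ 2 (Function.uncurry (pot κ w)) ∧
      (∀ τ θ, dT (pot κ w) τ θ = κ * dY (dY (pot κ w)) τ θ + w τ θ) ∧
      (∀ τ θ, τ ≤ t₀ → pot κ w τ θ = 0) ∧
      (∀ τ θ, dT (pot κ w) τ θ = pot κ (dT w) τ θ) ∧
      (∀ τ θ, dY (pot κ w) τ θ = pot κ (dY w) τ θ) ∧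
      (∀ τ θ, dT (dT (pot κ w)) τ θ = pot κ (dT (dT w)) τ θ) ∧
      (∀ τ θ, dY (dY (pot κ w)) τ θ = pot κ (dY (dY w)) τ θ) ∧
      (∀ τ θ, pot κ (oddImage w) τ θ = pot κ w τ θ - pot κ w τ (-θ)) ∧
      ∀ τ θ, t₀ + h < τ → dT (dT (pot κ w)) τ θ = κ ^ 2 * iteratedDeriv 4 (pot κ w τ) θ

/-- The Gaussian derivatives solve the heat equation after their initial time. -/
def KernSolStmt : Prop :=
  ∀ (κ σ₀ y : ℝ) (m : ℕ), 0 < κ →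
    ContDiffOn ℝ 2 (Function.uncurry fun τ θ => kernD m (2 * κ * (τ - σ₀)) (θ - y))
        (Ioi σ₀ ×ˢ univ) ∧
      (∀ τ θ, σ₀ < τ → dT (fun t s => kernD m (2 * κ * (t - σ₀)) (s - y)) τ θ =
        κ * kernD (m + 2) (2 * κ * (τ - σ₀)) (θ - y)) ∧
      ∀ τ θ, σ₀ < τ → dY (fun t s => kernD m (2 * κ * (t - σ₀)) (s - y)) τ θ =
        kernD (m + 1) (2 * κ * (τ - σ₀)) (θ - y)

/-- Weighted `L¹` norms of the Gaussian derivatives and of their odd images. -/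
def MomentStmt : Prop :=
  ∀ m q : ℕ, ∃ C : ℝ, ∀ v y : ℝ, 0 < v →
    (Integrable (fun θ => |θ| ^ q * |kernD m v (θ - y)|) ∧
      ∫ θ, |θ| ^ q * |kernD m v (θ - y)| ≤ C * (|y| + Real.sqrt v) ^ q / Real.sqrt v ^ m) ∧
    (1 ≤ q → ∫ θ, |θ| ^ q * |kernD m v (θ - y) - kernD m v (θ + y)| ≤
      C * (|y| * (|y| + Real.sqrt v) ^ (q - 1)) / Real.sqrt v ^ m)

/-- The odd kernel is positive on the half line and reproduces `θ`. -/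
def OddKernelStmt : Prop :=
  ∀ v y : ℝ, 0 < v → 0 ≤ y →
    (∀ θ, 0 ≤ θ → 0 ≤ kern v (θ - y) - kern v (θ + y)) ∧
      ∫ θ in Ioi 0, θ * (kern v (θ - y) - kern v (θ + y)) = y

/-- Space derivatives of potentials after the source has stopped. -/
def FarStmt : Prop :=
  ∀ κ : ℝ, 0 < κ → ∀ m q : ℕ, ∃ C : ℝ, ∀ (w : ℝ → ℝ → ℝ) (t₀ h τ : ℝ), Source w t₀ h →
    t₀ + 2 * h ≤ τ → t₀ < τ →
    (Integrable (fun θ => |θ| ^ q * |iteratedDeriv m (pot κ w τ) θ|) ∧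
      ∫ θ, |θ| ^ q * |iteratedDeriv m (pot κ w τ) θ| ≤
        C * moment q (τ - t₀) w / Real.sqrt (τ - t₀) ^ m) ∧
    (1 ≤ q → ∫ θ, |θ| ^ q * |iteratedDeriv m (pot κ (oddImage w) τ) θ| ≤
      C * oddMoment q (τ - t₀) w / Real.sqrt (τ - t₀) ^ m)

/-- Potentials and their first space derivative, integrated over all times up to `t₀ + L`. -/
def AllTimeStmt : Prop :=
  ∀ κ : ℝ, 0 < κ → ∀ q m : ℕ, m ≤ 1 → ∃ C : ℝ, ∀ (w : ℝ → ℝ → ℝ) (t₀ h L : ℝ),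
    Source w t₀ h → 0 < L →
    (IntegrableOn (fun p : ℝ × ℝ => |p.2| ^ q * |iteratedDeriv m (pot κ w p.1) p.2|)
        (Iic (t₀ + L) ×ˢ univ) ∧
      ∫ p in Iic (t₀ + L) ×ˢ univ, |p.2| ^ q * |iteratedDeriv m (pot κ w p.1) p.2| ≤
        C * Real.sqrt L ^ (2 - m) * moment q L w) ∧
    (1 ≤ q →
      ∫ p in Iic (t₀ + L) ×ˢ univ, |p.2| ^ q * |iteratedDeriv m (pot κ (oddImage w) p.1) p.2| ≤
        C * Real.sqrt L ^ (2 - m) * oddMoment q L w)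

/-- The three singular error terms, for a weight `M` (`moment q L` or `oddMoment q L`). -/
def Singular (κ C : ℝ) (q : ℕ) (t₀ h L : ℝ) (P w : ℝ → ℝ → ℝ) (M : (ℝ → ℝ → ℝ) → ℝ) : Prop :=
  (∫ p in Iic (t₀ + L) ×ˢ univ, |p.2| ^ q * |dT (dT (pot κ P)) p.1 p.2| ≤
      C * (h * M (dT (dT w)) + M w / h)) ∧
    (∫ p in Iic (t₀ + L) ×ˢ univ, |p.2| ^ q * |dT (pot κ P) p.1 p.2| ≤
      C * (h * M (dT w) + (1 + Real.log (L / h)) * M w)) ∧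
    ∫ p in Iic (t₀ + L) ×ˢ univ, |p.2| ^ q * |dY (dY (pot κ P)) p.1 p.2| ≤
      C * (h * M (dY (dY w)) + (1 + Real.log (L / h)) * M w)

/-- The `L¹` bounds of the curvature terms of a potential. -/
def SingularStmt : Prop :=
  ∀ κ : ℝ, 0 < κ → ∀ q : ℕ, ∃ C : ℝ, ∀ (w : ℝ → ℝ → ℝ) (t₀ h L : ℝ),
    Source w t₀ h → 0 < h → 2 * h ≤ L →
    Singular κ C q t₀ h L w w (moment q L) ∧
      (1 ≤ q → Singular κ C q t₀ h L (oddImage w) w (oddMoment q L))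

/-- The flux of an odd potential through the plane. -/
def FluxStmt : Prop :=
  ∀ κ : ℝ, 0 < κ → ∃ C : ℝ, ∀ (w : ℝ → ℝ → ℝ) (t₀ h : ℝ), Source w t₀ h →
    (Integrable (fun τ => dY (pot κ (oddImage w)) τ 0) ∧
      ∫ τ, |dY (pot κ (oddImage w)) τ 0| ≤ C * ∫ p : ℝ × ℝ, |w p.1 p.2|) ∧
    ∀ τ, t₀ + 2 * h ≤ τ → t₀ < τ → |dY (pot κ (oddImage w)) τ 0| ≤
      C * oddMoment 1 0 w / Real.sqrt (τ - t₀) ^ 3

/-- Testing a potential against later data is testing the source against the heat average. -/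
def DualStmt : Prop :=
  ∀ κ : ℝ, 0 < κ → ∀ (w : ℝ → ℝ → ℝ) (t₀ h T : ℝ) (g : ℝ × ℝ → ℝ), Source w t₀ h →
    t₀ + h < T → Integrable g → (∀ p, g p ≠ 0 → T ≤ p.1) →
      ∫ p : ℝ × ℝ, g p * pot κ w p.1 p.2 = ∫ p : ℝ × ℝ, w p.1 p.2 * heatAvg κ g 0 p.1 p.2

/-- Data at times in `[T, 2 T]` of size `A` with weight `(1 + |θ| / √T) ^ N`. -/
structure LateData (g : ℝ × ℝ → ℝ) (N : ℕ) (T A : ℝ) : Prop where
  pos : 0 < T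
  integrable : Integrable fun p => g p / (1 + |p.2| / Real.sqrt T) ^ N
  time : ∀ p, g p ≠ 0 → p.1 ∈ Icc T (2 * T)
  size : ∫ p : ℝ × ℝ, |g p| / (1 + |p.2| / Real.sqrt T) ^ N ≤ A * Real.sqrt T

/-- Heat averages are caloric with the natural bounds. -/
def AvgStmt : Prop :=
  ∀ κ : ℝ, 0 < κ → ∀ N m : ℕ, ∃ C : ℝ, ∀ (g : ℝ × ℝ → ℝ) (T A : ℝ), LateData g N T A →
    ∀ σ y : ℝ, 0 ≤ σ → σ ≤ T / 2 → |y| ≤ Real.sqrt T →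
      HasDerivAt (heatAvg κ g m σ) (heatAvg κ g (m + 1) σ y) y ∧
      HasDerivAt (fun s => heatAvg κ g m s y) (-κ * heatAvg κ g (m + 2) σ y) σ ∧
      |heatAvg κ g m σ y| ≤ C * A / Real.sqrt T ^ m

/-- Taylor expansion of heat averages in backward caloric polynomials. -/
def TaylorStmt : Prop :=
  ∀ κ : ℝ, 0 < κ → ∀ N : ℕ, ∃ C : ℝ, ∀ (g : ℝ × ℝ → ℝ) (T A ρ : ℝ), LateData g N T A →
    0 < ρ → 10 * ρ ^ 2 ≤ T → ∀ t s : ℝ, 0 ≤ t → t ≤ 5 * ρ ^ 2 → |s| ≤ ρ → ∀ m ≤ 10,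
      |heatAvg κ g m t s - ∑ i ∈ Finset.range (10 - m),
          heatAvg κ g (m + i) 0 0 / (i.factorial : ℝ) * Caloric.heatPoly κ i (t, s)| ≤
        C * A * (ρ ^ 2 / T) ^ 5 / ρ ^ m

/-- Five traces on the plane control even data to degree eight. -/
def NodeStmt : Prop :=
  ∀ κ : ℝ, 0 < κ → ∀ N : ℕ, ∃ C : ℝ, ∀ (g : ℝ × ℝ → ℝ) (T A B ρ : ℝ), LateData g N T A →
    (∀ τ θ, g (τ, -θ) = g (τ, θ)) → 0 < ρ → 10 * ρ ^ 2 ≤ T →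
    (∀ j : Fin 5, |heatAvg κ g 0 (((j : ℕ) + 1) * ρ ^ 2) 0| ≤ B) →
    (∀ t s : ℝ, 0 ≤ t → t ≤ 5 * ρ ^ 2 → |s| ≤ ρ → ∀ m ≤ 10,
        |heatAvg κ g m t s| ≤ C * (B + A * (ρ ^ 2 / T) ^ 5) / ρ ^ m) ∧
    ∀ t s : ℝ, 0 ≤ t → t ≤ 5 * ρ ^ 2 → |s| ≤ ρ →
      |heatAvg κ g 0 t s - heatAvg κ g 0 t 0| ≤
        C * (B + A * (ρ ^ 2 / T) ^ 5) * (s ^ 2 / ρ ^ 2)

end Vale.Agent.P363.Ext.Heat
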