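import Vale.Agent.P363.Ext.Heat.Bounds
import Mathlib.MeasureTheory.Integral.IntegralEqImproper
import Mathlib.Analysis.SpecialFunctions.Trigonometric.ArctanDeriv

/-!
The flux of an odd heat potential through the plane: integrable in time uniformly in the position
of the source, and of order `(τ - t₀) ^ (-3/2)` after the source has stopped.
-/

noncomputable section

namespace Vale.Agent.P363.Ext.Heat

open MeasureTheory Filter Set
open scoped BigOperators Topology

theorem kernD_one (v y : ℝ) (hv : 0 < v) :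
    |kernD 1 v y| = |y| * Real.exp (-(y ^ 2 / (2 * v))) / (v * Real.sqrt (2 * Real.pi * v)) := by
  have hs : 0 < Real.sqrt v := Real.sqrt_pos.2 hv
  have e : kernD 1 v y =
      -(y * Real.exp (-(y ^ 2 / (2 * v))) / (v * Real.sqrt (2 * Real.pi * v))) := by
    simp only [kernD, kern, Polynomial.hermite_one, Polynomial.aeval_X, pow_one]
    field_simp
    rw [Real.sq_sqrt hv.le]
  rw [e, abs_neg, abs_div, abs_mul, abs_of_pos (Real.exp_pos _),
    abs_of_pos (by positivity : 0 < v * Real.sqrt (2 * Real.pi * v))]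

/-- The first derivative of the kernel is dominated by the derivative of an arctangent in time. -/
theorem kernD_one_le (v y : ℝ) (hv : 0 < v) :
    |kernD 1 v y| ≤ 2 * (|y| / ((y ^ 2 + 2 * v) * Real.sqrt (2 * v))) := by
  rw [kernD_one v y hv]
  have hπ : Real.sqrt (2 * v) ≤ Real.sqrt (2 * Real.pi * v) :=
    Real.sqrt_le_sqrt (by nlinarith [Real.pi_gt_three])
  have hd : 0 < y ^ 2 + 2 * v := by positivity
  have he : Real.exp (-(y ^ 2 / (2 * v))) ≤ 2 * v / (y ^ 2 + 2 * v) := by
    rw [Real.exp_neg, show 2 * v / (y ^ 2 + 2 * v) = ((y ^ 2 / (2 * v)) + 1)⁻¹ by field_simp]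
    exact inv_anti₀ (by positivity) (Real.add_one_le_exp _)
  calc |y| * Real.exp (-(y ^ 2 / (2 * v))) / (v * Real.sqrt (2 * Real.pi * v))
      ≤ |y| * (2 * v / (y ^ 2 + 2 * v)) / (v * Real.sqrt (2 * v)) := by gcongr
    _ = 2 * (|y| / ((y ^ 2 + 2 * v) * Real.sqrt (2 * v))) := by field_simp

/-- The time integral of the first derivative of the kernel is bounded uniformly in space. -/
theorem integral_kernD_one_time (y : ℝ) :
    Integrable (fun v => |kernD 1 v y|) ∧ ∫ v, |kernD 1 v y| ≤ Real.pi := by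
  rcases eq_or_ne y 0 with hy | hy
  · have : ∀ v, kernD 1 v y = 0 := fun v => by simp [kernD, hy]
    simp [this, Real.pi_pos.le]
  have hy' : 0 < |y| := abs_pos.2 hy
  set F : ℝ → ℝ := fun v => Real.arctan (Real.sqrt (2 * v) / |y|) with hF
  set F' : ℝ → ℝ := fun v => |y| / ((y ^ 2 + 2 * v) * Real.sqrt (2 * v)) with hF'
  have hd : ∀ v ∈ Ioi (0 : ℝ), HasDerivAt F (F' v) v := by
    intro v (hv : 0 < v)
    have h2v : 0 < 2 * v := by linarith
    have h1 := (((Real.hasDerivAt_sqrt h2v.ne').comp v ((hasDerivAt_id v).const_mul 2)).div_const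
      |y|).arctan
    refine h1.congr_deriv ?_
    have hs : 0 < Real.sqrt (2 * v) := Real.sqrt_pos.2 h2v
    simp only [hF', Function.comp_apply, mul_one, div_pow, Real.sq_sqrt h2v.le, sq_abs]
    field_simp
    rw [sq_abs]
  have hcF : ContinuousWithinAt F (Ici 0) 0 :=
    (Continuous.continuousWithinAt (by rw [hF]; fun_prop))
  have hpos : ∀ v ∈ Ioi (0 : ℝ), 0 ≤ F' v := fun v (hv : 0 < v) => by rw [hF']; positivity
  have htop : Tendsto F atTop (𝓝 (Real.pi / 2)) :=
    (Real.tendsto_arctan_atTop.mono_right nhdsWithin_le_nhds).comp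
      ((Real.tendsto_sqrt_atTop.comp (tendsto_id.const_mul_atTop two_pos)).atTop_div_const hy')
  have hFi : IntegrableOn F' (Ioi 0) := integrableOn_Ioi_deriv_of_nonneg hcF hd hpos htop
  have hFv : ∫ v in Ioi 0, F' v = Real.pi / 2 := by
    rw [integral_Ioi_of_hasDerivAt_of_nonneg hcF hd hpos htop]
    simp [hF]
  have hdom : ∀ v, |kernD 1 v y| ≤ (Ioi (0 : ℝ)).indicator (fun v => 2 * F' v) v := by
    intro v
    rcases le_or_gt v 0 with hv | hv
    · simp [kernD_of_nonpos hv, hv]
    · rw [indicator_of_mem (show v ∈ Ioi (0 : ℝ) from hv)]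
      exact kernD_one_le v y hv
  have hB := IntegrableOn.integrable_indicator (f := fun v => 2 * F' v) (hFi.const_mul 2)
    measurableSet_Ioi
  have hI : Integrable fun v => |kernD 1 v y| :=
    hB.mono' (((measurable_kernD 1).comp (f := fun v : ℝ => (v, y))
      (by fun_prop)).abs.aestronglyMeasurable) (Eventually.of_forall fun v => by
        rw [Real.norm_eq_abs, abs_abs]
        exact hdom v)
  refine ⟨hI, (integral_mono hI hB hdom).trans ?_⟩
  rw [integral_indicator measurableSet_Ioi, integral_const_mul, hFv]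
  linarith

/-- The flux of an odd potential through the plane. -/
theorem flux : FluxStmt := by
  intro κ hκ
  refine ⟨max (Real.pi / κ) (2 / Real.sqrt κ ^ 3), fun w t₀ h hw => ?_⟩
  set C := max (Real.pi / κ) (2 / Real.sqrt κ ^ 3) with hC
  have e : ∀ τ, dY (pot κ (oddImage w)) τ 0 = oddPotD κ 1 w τ 0 := fun τ => by
    rw [dY_pot_eq hκ hw.oddImage.csrc,
      potD_odd_eq hκ le_rfl hw.smooth.continuous hw.compact]
  set F : ℝ → ℝ × ℝ → ℝ := fun τ q => (kernD 1 (2 * κ * (τ - q.1)) (0 - q.2) -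
    kernD 1 (2 * κ * (τ - q.1)) (0 + q.2)) * w q.1 q.2 with hF
  have hFb : ∀ τ q, |F τ q| = 2 * |kernD 1 (2 * κ * (τ - q.1)) q.2| * |w q.1 q.2| := by
    intro τ q
    rw [hF]
    simp only [zero_sub, zero_add, abs_mul, kernD_neg]
    rw [show (-1 : ℝ) ^ 1 * kernD 1 (2 * κ * (τ - q.1)) q.2 -
      kernD 1 (2 * κ * (τ - q.1)) q.2 = -2 * kernD 1 (2 * κ * (τ - q.1)) q.2 by ring, abs_mul]
    norm_num
  have hFm : AEStronglyMeasurable (Function.uncurry F)
      ((volume : Measure ℝ).prod (volume : Measure (ℝ × ℝ))) := by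
    refine Measurable.aestronglyMeasurable ?_
    exact (((measurable_kernD_sub κ 1 (measurable_fst.sub (measurable_fst.comp measurable_snd))
      (measurable_const.sub (measurable_snd.comp measurable_snd))).sub
      (measurable_kernD_sub κ 1 (measurable_fst.sub (measurable_fst.comp measurable_snd))
      (measurable_const.add (measurable_snd.comp measurable_snd)))).mul
        (hw.cont.measurable.comp measurable_snd))
  obtain ⟨r1, r2⟩ := dominate_abs (μ := (volume : Measure ℝ)) (ν := (volume : Measure (ℝ × ℝ)))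
    (F := F) (B := fun q => C * |w q.1 q.2|) (c := fun _ => 1) (fun _ => zero_le_one)
    measurable_const hFm (hw.integrable_abs.const_mul C) (Eventually.of_forall fun q => by
      obtain ⟨hi, hb⟩ := integral_kernD_one_time q.2
      have h2 : (2 * κ) ≠ 0 := by positivity
      have hi' : Integrable fun τ => |kernD 1 (2 * κ * (τ - q.1)) q.2| :=
        ((hi.comp_mul_left' h2).comp_sub_right q.1)
      simp only [one_mul, hFb]
      refine ⟨(hi'.const_mul 2).mul_const _, ?_⟩
      rw [integral_mul_const, integral_const_mul,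
        integral_sub_right_eq_self (fun t => |kernD 1 (2 * κ * t) q.2|) q.1,
        Measure.integral_comp_mul_left (fun v => |kernD 1 v q.2|), smul_eq_mul,
        abs_of_pos (by positivity : (0 : ℝ) < (2 * κ)⁻¹)]
      refine mul_le_mul_of_nonneg_right (le_trans ?_ (le_max_left _ _)) (abs_nonneg _)
      calc 2 * ((2 * κ)⁻¹ * ∫ v, |kernD 1 v q.2|) ≤ 2 * ((2 * κ)⁻¹ * Real.pi) := by gcongr
        _ = Real.pi / κ := by field_simp)
  have e' : ∀ τ, (1 : ℝ) * |∫ q, F τ q| = |dY (pot κ (oddImage w)) τ 0| := fun τ => by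
    rw [one_mul, e]
    rfl
  simp only [e'] at r1 r2
  refine ⟨⟨?_, r2.trans_eq (integral_const_mul _ _)⟩, fun τ h2 hτ => ?_⟩
  · have hc := (continuous_dY ((contDiff_pot (n := 1) hκ hw.oddImage.csrc.smooth
      hw.oddImage.compact))).comp (f := fun τ : ℝ => (τ, (0 : ℝ))) (by fun_prop)
    exact r1.mono' hc.aestronglyMeasurable (Eventually.of_forall fun τ => le_rfl)
  · rw [e]
    have hd : 0 < τ - t₀ := sub_pos.2 hτ
    have hom : oddMoment 1 0 w = ∫ q : ℝ × ℝ, |w q.1 q.2| * |q.2| := by simp [oddMoment]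
    have hBi : Integrable fun q : ℝ × ℝ => C / Real.sqrt (τ - t₀) ^ 3 * (|w q.1 q.2| * |q.2|) :=
      (Continuous.integrable_of_hasCompactSupport
        (hw.cont.abs.mul continuous_snd.abs)
        ((hw.compact.comp_left (g := fun x => |x|) abs_zero).mul_right)).const_mul _
    have hb := norm_integral_le_of_norm_le (f := F τ) hBi (Eventually.of_forall fun q => by
      rw [Real.norm_eq_abs, hFb]
      rcases eq_or_ne (w q.1 q.2) 0 with h0 | h0
      · simp [h0]
      obtain ⟨-, hs⟩ := hw.supp _ _ h0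
      have hlow : κ * (τ - t₀) ≤ 2 * κ * (τ - q.1) := by nlinarith
      set v := 2 * κ * (τ - q.1) with hv
      have hv0 : 0 < v := lt_of_lt_of_le (mul_pos hκ hd) hlow
      have h3 : (Real.sqrt κ * Real.sqrt (τ - t₀)) ^ 3 ≤ v * Real.sqrt (2 * Real.pi * v) := by
        calc (Real.sqrt κ * Real.sqrt (τ - t₀)) ^ 3 ≤ Real.sqrt v ^ 3 :=
              pow_le_pow_left₀ (by positivity)
                (by rw [← Real.sqrt_mul hκ.le]; exact Real.sqrt_le_sqrt hlow) 3
          _ = v * Real.sqrt v := by rw [pow_succ, Real.sq_sqrt hv0.le]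
          _ ≤ _ := mul_le_mul_of_nonneg_left
              (Real.sqrt_le_sqrt (by nlinarith [Real.pi_gt_three])) hv0.le
      have hk : |kernD 1 v q.2| ≤ |q.2| / (Real.sqrt κ * Real.sqrt (τ - t₀)) ^ 3 := by
        rw [kernD_one v q.2 hv0]
        refine div_le_div₀ (abs_nonneg _) (mul_le_of_le_one_right (abs_nonneg _)
          (Real.exp_le_one_iff.2 (by rw [neg_nonpos]; positivity))) (by positivity) h3
      calc 2 * |kernD 1 v q.2| * |w q.1 q.2|
          ≤ 2 * (|q.2| / (Real.sqrt κ * Real.sqrt (τ - t₀)) ^ 3) * |w q.1 q.2| := by gcongr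
        _ = 2 / Real.sqrt κ ^ 3 / Real.sqrt (τ - t₀) ^ 3 * (|w q.1 q.2| * |q.2|) := by
            rw [mul_pow]; field_simp
        _ ≤ _ := by gcongr; exact le_max_right _ _)
    rw [Real.norm_eq_abs, integral_const_mul, ← hom, div_mul_eq_mul_div] at hb
    exact hb

end Vale.Agent.P363.Ext.Heat
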