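import Vale.Agent.P363.Ext.Heat.Kernel

/-!
Fubini bounds for the Gaussian kernels: local integrability in `(t, x)` and domination lemmas.
-/

noncomputable section

namespace Vale.Agent.P363.Ext.Heat

open MeasureTheory Filter Set
open scoped BigOperators Topology

/-- A nonnegative kernel with integrable column bounds. -/
theorem dominate {α β : Type*} [MeasurableSpace α] [MeasurableSpace β] {μ : Measure α}
    {ν : Measure β} [SFinite μ] [SFinite ν] {G : α → β → ℝ} {B : β → ℝ}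
    (hG : AEStronglyMeasurable (Function.uncurry G) (μ.prod ν)) (h0 : ∀ x y, 0 ≤ G x y)
    (hB : Integrable B ν) (hs : ∀ᵐ y ∂ν, Integrable (fun x => G x y) μ ∧ ∫ x, G x y ∂μ ≤ B y) :
    Integrable (Function.uncurry G) (μ.prod ν) ∧ Integrable (fun x => ∫ y, G x y ∂ν) μ ∧
      ∫ x, ∫ y, G x y ∂ν ∂μ ≤ ∫ y, B y ∂ν := by
  have hn : ∀ y, ∫ x, ‖G x y‖ ∂μ = ∫ x, G x y ∂μ := fun y =>
    integral_congr_ae (Eventually.of_forall fun x => by simp [abs_of_nonneg (h0 x y)])
  have hI : Integrable (Function.uncurry G) (μ.prod ν) := by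
    refine (integrable_prod_iff' hG).2 ⟨hs.mono fun y h => h.1, ?_⟩
    refine hB.mono' hG.norm.prod_swap.integral_prod_right' (hs.mono fun y h => ?_)
    show ‖∫ x, ‖G x y‖ ∂μ‖ ≤ B y
    rw [hn y, Real.norm_eq_abs, abs_of_nonneg (integral_nonneg fun x => h0 x y)]
    exact h.2
  refine ⟨hI, hI.integral_prod_left, ?_⟩
  rw [integral_integral_swap hI]
  exact integral_mono_ae hI.integral_prod_right hB (hs.mono fun y h => h.2)

/-- `|f| ≤ G` pointwise transfers the bounds of `dominate` to a signed integral. -/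
theorem dominate_abs {α β : Type*} [MeasurableSpace α] [MeasurableSpace β] {μ : Measure α}
    {ν : Measure β} [SFinite μ] [SFinite ν] {F : α → β → ℝ} {B : β → ℝ} {c : α → ℝ}
    (hc : ∀ x, 0 ≤ c x) (hcm : Measurable c)
    (hF : AEStronglyMeasurable (Function.uncurry F) (μ.prod ν))
    (hB : Integrable B ν)
    (hs : ∀ᵐ y ∂ν, Integrable (fun x => c x * |F x y|) μ ∧ ∫ x, c x * |F x y| ∂μ ≤ B y) :
    Integrable (fun x => c x * |∫ y, F x y ∂ν|) μ ∧
      ∫ x, c x * |∫ y, F x y ∂ν| ∂μ ≤ ∫ y, B y ∂ν := by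
  obtain ⟨-, hI, hle⟩ := dominate (G := fun x y => c x * |F x y|)
    ((hcm.comp measurable_fst).aestronglyMeasurable.mul hF.norm)
    (fun x y => mul_nonneg (hc x) (abs_nonneg _)) hB hs
  have hpt : ∀ x, c x * |∫ y, F x y ∂ν| ≤ ∫ y, c x * |F x y| ∂ν := fun x => by
    rw [integral_const_mul]
    exact mul_le_mul_of_nonneg_left abs_integral_le_integral_abs (hc x)
  have hI' : Integrable (fun x => c x * |∫ y, F x y ∂ν|) μ :=
    hI.mono' (hcm.aestronglyMeasurable.mul hF.integral_prod_right'.norm)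
      (Eventually.of_forall fun x => by
        rw [Real.norm_eq_abs, abs_of_nonneg (mul_nonneg (hc x) (abs_nonneg _))]
        exact hpt x)
  exact ⟨hI', (integral_mono hI' hI hpt).trans hle⟩

theorem intervalIntegrable_sqrt_inv {m : ℕ} (hm : m ≤ 1) (b : ℝ) :
    IntervalIntegrable (fun t : ℝ => 1 / Real.sqrt t ^ m) volume 0 b := by
  interval_cases m
  · simp
  rcases le_or_gt b 0 with hb | hb
  · refine (intervalIntegrable_const (c := (0 : ℝ))).congr fun t ht => ?_
    have ht0 : t ≤ 0 := by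
      rw [uIoc_of_ge hb] at ht
      exact ht.2
    simp [Real.sqrt_eq_zero_of_nonpos ht0]
  refine (intervalIntegral.intervalIntegrable_rpow' (a := 0) (b := b)
    (r := -(1 / 2 : ℝ)) (by norm_num)).congr fun t ht => ?_
  rw [uIoc_of_le hb.le] at ht
  simp only [pow_one, one_div, Real.rpow_neg ht.1.le, Real.sqrt_eq_rpow]

theorem integral_sqrt_inv_le {m : ℕ} (hm : m ≤ 1) {b : ℝ} (hb : 0 ≤ b) :
    ∫ t in (0 : ℝ)..b, 1 / Real.sqrt t ^ m ≤ 2 * Real.sqrt b ^ (2 - m) := by
  have hsq : Real.sqrt b ^ 2 = b := Real.sq_sqrt hb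
  interval_cases m
  · rw [Nat.sub_zero, hsq]
    simp
    linarith
  · have e : ∫ t in (0 : ℝ)..b, 1 / Real.sqrt t ^ 1 = ∫ t in (0 : ℝ)..b, t ^ (-(1 / 2 : ℝ)) :=
      intervalIntegral.integral_congr fun t ht => by
        rw [uIcc_of_le hb] at ht
        simp only [pow_one, one_div, Real.rpow_neg ht.1, Real.sqrt_eq_rpow]
    rw [e, integral_rpow (Or.inl (by norm_num))]
    rw [show (-(1 / 2 : ℝ)) + 1 = 1 / 2 by norm_num, Real.zero_rpow (by norm_num),
      ← Real.sqrt_eq_rpow, show (2 : ℕ) - 1 = 1 from rfl, pow_one]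
    linarith [Real.sqrt_nonneg b]

/-- A family of space kernels with weighted `L¹` norms `≤ P y / √v ^ m`, on a time interval. -/
theorem time_integral_le {κ : ℝ} (hκ : 0 < κ) {m : ℕ} (hm : m ≤ 1) {σ b : ℝ} (hσ : σ ≤ b)
    {k : ℝ → ℝ → ℝ} (hk : Measurable (Function.uncurry k)) (hk0 : ∀ v θ, 0 ≤ k v θ)
    (hkz : ∀ v θ, v ≤ 0 → k v θ = 0) {P : ℝ} (hP : 0 ≤ P)
    (hb : ∀ v, 0 < v → v ≤ 2 * κ * (b - σ) →
      Integrable (k v) ∧ ∫ θ, k v θ ≤ P / Real.sqrt v ^ m) :
    IntegrableOn (fun p : ℝ × ℝ => k (2 * κ * (p.1 - σ)) p.2) (Iic b ×ˢ univ) ∧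
      ∫ p in Iic b ×ˢ univ, k (2 * κ * (p.1 - σ)) p.2 ≤
        2 * P / Real.sqrt (2 * κ) ^ m * Real.sqrt (b - σ) ^ (2 - m) := by
  have hmeas : Measurable fun p : ℝ × ℝ => k (2 * κ * (p.1 - σ)) p.2 :=
    hk.comp (f := fun p : ℝ × ℝ => (2 * κ * (p.1 - σ), p.2)) (by fun_prop)
  set B : ℝ → ℝ := (Ioc σ b).indicator
    fun τ => P / Real.sqrt (2 * κ) ^ m * (1 / Real.sqrt (τ - σ) ^ m) with hBd
  have hi : IntervalIntegrable (fun τ => 1 / Real.sqrt (τ - σ) ^ m) volume σ b := by
    have h := (intervalIntegrable_sqrt_inv hm (b - σ)).comp_sub_right σ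
    rwa [zero_add, sub_add_cancel] at h
  have hBi : Integrable B :=
    IntegrableOn.integrable_indicator
      (((intervalIntegrable_iff_integrableOn_Ioc_of_le hσ).1 hi).const_mul _) measurableSet_Ioc
  have hBv : ∫ τ, B τ ≤ 2 * P / Real.sqrt (2 * κ) ^ m * Real.sqrt (b - σ) ^ (2 - m) := by
    rw [hBd, integral_indicator measurableSet_Ioc, integral_const_mul,
      ← intervalIntegral.integral_of_le hσ]
    rw [intervalIntegral.integral_comp_sub_right (fun t => 1 / Real.sqrt t ^ m), sub_self]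
    refine (mul_le_mul_of_nonneg_left (integral_sqrt_inv_le hm (sub_nonneg.2 hσ))
      (by positivity)).trans (le_of_eq (by ring))
  have e : (volume : Measure (ℝ × ℝ)).restrict (Iic b ×ˢ univ) =
      ((volume : Measure ℝ).restrict (Iic b)).prod volume := by
    rw [Measure.volume_eq_prod, ← Measure.prod_restrict, Measure.restrict_univ]
  have hs : ∀ᵐ τ ∂(volume : Measure ℝ).restrict (Iic b),
      Integrable (fun θ => k (2 * κ * (τ - σ)) θ) ∧ ∫ θ, k (2 * κ * (τ - σ)) θ ≤ B τ := by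
    refine ae_restrict_of_forall_mem measurableSet_Iic fun τ (hτ : τ ≤ b) => ?_
    rcases le_or_gt τ σ with h | h
    · have h0 : ∀ θ, k (2 * κ * (τ - σ)) θ = 0 := fun θ =>
        hkz _ _ (mul_nonpos_of_nonneg_of_nonpos (by linarith) (sub_nonpos.2 h))
      refine ⟨by simp [h0], ?_⟩
      rw [hBd, Set.indicator_of_notMem (fun hh => absurd hh.1 (not_lt.2 h))]
      simp [h0]
    · obtain ⟨a1, a2⟩ := hb _ (mul_pos (by linarith) (sub_pos.2 h))
        (mul_le_mul_of_nonneg_left (by linarith) (by linarith))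
      refine ⟨a1, a2.trans (le_of_eq ?_)⟩
      rw [hBd, Set.indicator_of_mem (show τ ∈ Ioc σ b from ⟨h, hτ⟩), Real.sqrt_mul (by linarith), mul_pow]
      field_simp
  have hmm : AEStronglyMeasurable (fun p : ℝ × ℝ => k (2 * κ * (p.1 - σ)) p.2)
      (((volume : Measure ℝ).restrict (Iic b)).prod volume) := hmeas.aestronglyMeasurable
  have hI : Integrable (fun p : ℝ × ℝ => k (2 * κ * (p.1 - σ)) p.2)
      (((volume : Measure ℝ).restrict (Iic b)).prod volume) := by
    refine (integrable_prod_iff hmm).2 ⟨hs.mono fun τ h => h.1, ?_⟩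
    refine hBi.restrict.mono' hmm.norm.integral_prod_right' (hs.mono fun τ h => ?_)
    simp only [Real.norm_eq_abs, abs_of_nonneg (hk0 _ _)]
    rw [abs_of_nonneg (integral_nonneg fun θ => hk0 _ _)]
    exact h.2
  refine ⟨by rw [IntegrableOn, e]; exact hI, ?_⟩
  rw [e, integral_prod _ hI]
  refine (integral_mono_ae hI.integral_prod_left hBi.restrict (hs.mono fun τ h => h.2)).trans
    (le_trans (setIntegral_le_integral hBi (Eventually.of_forall fun τ => ?_)) hBv)
  exact Set.indicator_nonneg (fun t _ => by positivity) τ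

theorem measurable_kernD_sub (κ : ℝ) (m : ℕ) {α : Type*} [MeasurableSpace α] {f g : α → ℝ}
    (hf : Measurable f) (hg : Measurable g) :
    Measurable fun x => kernD m (2 * κ * f x) (g x) :=
  (measurable_kernD m).comp (f := fun x => (2 * κ * f x, g x))
    ((hf.const_mul _).prodMk hg)

/-- The kernel and its space derivative are locally integrable in `(t, x)`. -/
theorem locallyIntegrable_kernD {κ : ℝ} (hκ : 0 < κ) {m : ℕ} (hm : m ≤ 1) :
    LocallyIntegrable fun p : ℝ × ℝ => kernD m (2 * κ * p.1) p.2 := by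
  obtain ⟨C, hC⟩ := moments m 0
  refine locallyIntegrable_iff.2 fun s hs => ?_
  obtain ⟨b, hb⟩ := (hs.image continuous_fst).bddAbove
  have hC0 : 0 ≤ C := by
    have := ((hC 1 0 one_pos).1.2).trans' (integral_nonneg fun θ => by positivity)
    simpa using this
  have h := (time_integral_le hκ hm (σ := 0) (b := max b 0) (le_max_right _ _)
    (k := fun v θ => |kernD m v θ|) (measurable_kernD m).abs (fun _ _ => abs_nonneg _)
    (fun v θ hv => by simp [kernD_of_nonpos hv]) hC0 fun v hv _ => by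
      obtain ⟨⟨h1, h2⟩, -⟩ := hC v 0 hv
      simpa using And.intro h1 h2).1
  simp only [sub_zero] at h
  refine (h.mono_set fun p hp => ⟨?_, trivial⟩).mono' ?_ (Eventually.of_forall fun p => le_rfl)
  · exact (hb ⟨p, hp, rfl⟩).trans (le_max_left _ _)
  · exact (measurable_kernD_sub κ m measurable_fst measurable_snd).aestronglyMeasurable

end Vale.Agent.P363.Ext.Heat
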