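import Vale.Agent.P363.Ext.Heat.Pot

/-!
Kernel representations of the derivatives of heat potentials, odd images and duality.
-/

noncomputable section

namespace Vale.Agent.P363.Ext.Heat

open MeasureTheory Filter Set
open scoped BigOperators Topology

variable {κ : ℝ} {w : ℝ → ℝ → ℝ} {t₀ h : ℝ}

attribute [local irreducible] kernD kern

/-- The reflection `(σ, y) ↦ (σ, -y)` preserves Lebesgue measure. -/
theorem measurePreserving_flip :
    MeasurePreserving (fun q : ℝ × ℝ => (q.1, -q.2)) volume volume := by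
  rw [Measure.volume_eq_prod]
  exact (MeasurePreserving.id volume).prod (Measure.measurePreserving_neg (volume : Measure ℝ))

theorem integral_flip (F : ℝ × ℝ → ℝ) : ∫ q : ℝ × ℝ, F (q.1, -q.2) = ∫ q, F q :=
  measurePreserving_flip.integral_comp
    ((MeasurableEquiv.refl ℝ).prodCongr (MeasurableEquiv.neg ℝ)).measurableEmbedding F

theorem integrable_flip {F : ℝ × ℝ → ℝ} (hF : Integrable F) :
    Integrable fun q : ℝ × ℝ => F (q.1, -q.2) :=
  measurePreserving_flip.integrable_comp_of_integrable hF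

theorem Source.oddImage (hw : Source w t₀ h) : Source (oddImage w) t₀ h where
  smooth := by
    exact hw.smooth.sub (hw.smooth.comp (contDiff_fst.prodMk contDiff_snd.neg))
  compact := by
    exact hw.compact.sub (hw.compact.comp_homeomorph ((Homeomorph.refl ℝ).prodCongr
      (Homeomorph.neg ℝ)))
  time_nonneg := hw.time_nonneg
  supp σ y hne := by
    rcases ne_or_eq (w σ y) 0 with h1 | h1
    · exact hw.supp σ y h1
    · exact hw.supp σ (-y) fun h2 => hne (by simp [Heat.oddImage, h1, h2])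

theorem Source.cont (hw : Source w t₀ h) : Continuous fun q : ℝ × ℝ => w q.1 q.2 :=
  hw.smooth.continuous

theorem Source.integrable_abs (hw : Source w t₀ h) :
    Integrable fun q : ℝ × ℝ => |w q.1 q.2| :=
  ((hw.smooth.continuous.integrable_of_hasCompactSupport hw.compact)).norm

/-- The potential integrand is integrable at all times for `m ≤ 1`. -/
theorem integrable_potD (hκ : 0 < κ) {m : ℕ} (hm : m ≤ 1)
    (hw : Continuous (Function.uncurry w)) (hc : HasCompactSupport (Function.uncurry w))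
    (τ θ : ℝ) :
    Integrable fun q : ℝ × ℝ => kernD m (2 * κ * (τ - q.1)) (θ - q.2) * w q.1 q.2 := by
  have h := (integrable_pot hm hκ hw hc (τ, θ)).comp_sub_left (τ, θ)
  simpa [Function.uncurry] using h

theorem potD_bound_late (hκ : 0 < κ) (hw : Source w t₀ h) (m : ℕ) {d : ℝ} (hd : 0 < d) :
    ∃ C, ∀ τ θ, t₀ + h + d ≤ τ → ∀ q : ℝ × ℝ,
      |kernD m (2 * κ * (τ - q.1)) (θ - q.2) * w q.1 q.2| ≤ C * |w q.1 q.2| := by
  obtain ⟨C, hC, hb⟩ := exists_kernD_bound m
  refine ⟨C / Real.sqrt (2 * κ * d) ^ (m + 1), fun τ θ hτ q => ?_⟩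
  rcases eq_or_ne (w q.1 q.2) 0 with h0 | h0
  · simp [h0]
  have h1 := (hw.supp _ _ h0).2
  have hv : 2 * κ * d ≤ 2 * κ * (τ - q.1) := mul_le_mul_of_nonneg_left (by linarith) (by linarith)
  have hd0 : 0 < 2 * κ * d := by positivity
  rw [abs_mul]
  refine mul_le_mul_of_nonneg_right ((hb _ _ (lt_of_lt_of_le hd0 hv)).trans ?_) (abs_nonneg _)
  refine (mul_le_of_le_one_right (by positivity) (Real.exp_le_one_iff.2 ?_)).trans ?_
  · simp only [neg_nonpos]
    exact div_nonneg (sq_nonneg _) (by linarith)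
  · exact div_le_div_of_nonneg_left hC (pow_pos (Real.sqrt_pos.2 hd0) _)
      (pow_le_pow_left₀ (Real.sqrt_nonneg _) (Real.sqrt_le_sqrt hv) _)

theorem aesm_potD (hw : Source w t₀ h) (κ : ℝ) (m : ℕ) (τ θ : ℝ) :
    AEStronglyMeasurable
      (fun q : ℝ × ℝ => kernD m (2 * κ * (τ - q.1)) (θ - q.2) * w q.1 q.2) volume :=
  ((measurable_kernD_sub κ m (measurable_const.sub measurable_fst)
    (measurable_const.sub measurable_snd)).mul hw.cont.measurable).aestronglyMeasurable

theorem integrable_potD_late (hκ : 0 < κ) (hw : Source w t₀ h) (m : ℕ) {τ : ℝ}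
    (hτ : t₀ + h < τ) (θ : ℝ) :
    Integrable fun q : ℝ × ℝ => kernD m (2 * κ * (τ - q.1)) (θ - q.2) * w q.1 q.2 := by
  obtain ⟨C, hC⟩ := potD_bound_late hκ hw m (sub_pos.2 hτ)
  exact (hw.integrable_abs.const_mul C).mono' (aesm_potD hw κ m τ θ)
    (Eventually.of_forall fun q => hC τ θ (by linarith) q)

theorem hasDerivAt_potD_space (hκ : 0 < κ) (hw : Source w t₀ h) (m : ℕ) {τ : ℝ}
    (hτ : t₀ + h < τ) (θ : ℝ) :
    HasDerivAt (potD κ m w τ) (potD κ (m + 1) w τ θ) θ := by
  obtain ⟨C, hC⟩ := potD_bound_late hκ hw (m + 1) (sub_pos.2 hτ)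
  have hb : ∀ᵐ q : ℝ × ℝ, ∀ s ∈ (univ : Set ℝ),
      ‖kernD (m + 1) (2 * κ * (τ - q.1)) (s - q.2) * w q.1 q.2‖ ≤ C * |w q.1 q.2| :=
    Eventually.of_forall fun q s _ => by
      rw [Real.norm_eq_abs]
      exact hC τ s (by linarith) q
  have hd : ∀ᵐ q : ℝ × ℝ, ∀ s ∈ (univ : Set ℝ),
      HasDerivAt (fun u => kernD m (2 * κ * (τ - q.1)) (u - q.2) * w q.1 q.2)
        (kernD (m + 1) (2 * κ * (τ - q.1)) (s - q.2) * w q.1 q.2) s := by
    refine Eventually.of_forall fun q s _ => ?_
    rcases eq_or_ne (w q.1 q.2) 0 with h0 | h0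
    · simp only [h0, mul_zero]
      exact hasDerivAt_const s (0 : ℝ)
    · have := (hw.supp _ _ h0).2
      have hv : 0 < 2 * κ * (τ - q.1) := mul_pos (by linarith) (by linarith)
      exact (((hasDerivAt_kernD hv m (s - q.2)).comp s
        ((hasDerivAt_id s).sub_const q.2)).mul_const (w q.1 q.2)).congr_deriv (by simp)
  exact (hasDerivAt_integral_of_dominated_loc_of_deriv_le (𝕜 := ℝ) (α := ℝ × ℝ)
    (F := fun s (q : ℝ × ℝ) => kernD m (2 * κ * (τ - q.1)) (s - q.2) * w q.1 q.2)
    (F' := fun s (q : ℝ × ℝ) => kernD (m + 1) (2 * κ * (τ - q.1)) (s - q.2) * w q.1 q.2)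
    (bound := fun q => C * |w q.1 q.2|) (x₀ := θ) (μ := volume)
    univ_mem (Eventually.of_forall fun s => aesm_potD hw κ m τ s)
    (integrable_potD_late hκ hw m hτ θ) (aesm_potD hw κ (m + 1) τ θ) hb
    (hw.integrable_abs.const_mul C) hd).2

theorem hasDerivAt_potD_time (hκ : 0 < κ) (hw : Source w t₀ h) (m : ℕ) {τ : ℝ}
    (hτ : t₀ + h < τ) (θ : ℝ) :
    HasDerivAt (fun t => potD κ m w t θ) (κ * potD κ (m + 2) w τ θ) τ := by
  set d := (τ - (t₀ + h)) / 2 with hd
  have hd0 : 0 < d := by rw [hd]; linarith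
  obtain ⟨C, hC⟩ := potD_bound_late hκ hw (m + 2) hd0
  have hb : ∀ᵐ q : ℝ × ℝ, ∀ t ∈ Ioi (t₀ + h + d),
      ‖κ * (kernD (m + 2) (2 * κ * (t - q.1)) (θ - q.2) * w q.1 q.2)‖ ≤ κ * C * |w q.1 q.2| :=
    Eventually.of_forall fun q t (ht : t₀ + h + d < t) => by
      rw [Real.norm_eq_abs, abs_mul, abs_of_pos hκ, mul_assoc κ C]
      exact mul_le_mul_of_nonneg_left (hC t θ ht.le q) hκ.le
  have hdv : ∀ᵐ q : ℝ × ℝ, ∀ t ∈ Ioi (t₀ + h + d),
      HasDerivAt (fun u => kernD m (2 * κ * (u - q.1)) (θ - q.2) * w q.1 q.2)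
        (κ * (kernD (m + 2) (2 * κ * (t - q.1)) (θ - q.2) * w q.1 q.2)) t := by
    refine Eventually.of_forall fun q t (ht : t₀ + h + d < t) => ?_
    rcases eq_or_ne (w q.1 q.2) 0 with h0 | h0
    · simp only [h0, mul_zero]
      exact hasDerivAt_const t (0 : ℝ)
    · have := (hw.supp _ _ h0).2
      have hv : 0 < 2 * κ * (t - q.1) := mul_pos (by linarith) (by linarith)
      refine (((hasDerivAt_kernD_var hv m (θ - q.2)).comp t
        (((hasDerivAt_id t).sub_const q.1).const_mul (2 * κ))).mul_const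
          (w q.1 q.2)).congr_deriv ?_
      ring
  have key := (hasDerivAt_integral_of_dominated_loc_of_deriv_le (𝕜 := ℝ) (α := ℝ × ℝ)
    (F := fun t (q : ℝ × ℝ) => kernD m (2 * κ * (t - q.1)) (θ - q.2) * w q.1 q.2)
    (F' := fun t (q : ℝ × ℝ) => κ * (kernD (m + 2) (2 * κ * (t - q.1)) (θ - q.2) * w q.1 q.2))
    (bound := fun q => κ * C * |w q.1 q.2|) (μ := volume)
    (Ioi_mem_nhds (show t₀ + h + d < τ by linarith))
    (Eventually.of_forall fun t => aesm_potD hw κ m t θ)
    (integrable_potD_late hκ hw m hτ θ) ((aesm_potD hw κ (m + 2) τ θ).const_mul κ) hb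
    (hw.integrable_abs.const_mul (κ * C)) hdv).2
  rw [integral_const_mul] at key
  exact key

theorem iteratedDeriv_pot (hκ : 0 < κ) (hw : Source w t₀ h) {τ : ℝ} (hτ : t₀ + h < τ) :
    ∀ m, iteratedDeriv m (pot κ w τ) = potD κ m w τ
  | 0 => by funext θ; simp [pot_eq_potD]
  | m + 1 => by
    rw [iteratedDeriv_succ, iteratedDeriv_pot hκ hw hτ m]
    funext θ
    exact (hasDerivAt_potD_space hκ hw m hτ θ).deriv

/-- The first space derivative as a kernel integral, at all times. -/
theorem dY_pot_eq (hκ : 0 < κ) (hw : CSrc w) (τ θ : ℝ) :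
    dY (pot κ w) τ θ = potD κ 1 w τ θ := by
  rw [dY_pot hκ hw, pot_eq_potD, potD, potD]
  have i0 := integrable_potD hκ (zero_le_one : 0 ≤ 1) (continuous_dY hw.smooth) (compact_dY hw) τ θ
  have i1 := integrable_potD hκ le_rfl hw.smooth.continuous hw.compact τ θ
  rw [Measure.volume_eq_prod] at i0 i1 ⊢
  rw [integral_prod _ i0, integral_prod _ i1]
  refine integral_congr_ae (Eventually.of_forall fun σ => ?_)
  simp only
  rcases le_or_gt τ σ with hσ | hσ
  · rcases le_or_gt (2 * κ * (τ - σ)) 0 with hv | hv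
    · simp [kernD_of_nonpos hv]
    · nlinarith
  have hv : 0 < 2 * κ * (τ - σ) := mul_pos (by linarith) (sub_pos.2 hσ)
  have hyc : HasCompactSupport (w σ) := by
    refine HasCompactSupport.intro (hw.compact.image continuous_snd) fun y hy => ?_
    by_contra h0
    exact hy ⟨(σ, y), subset_tsupport _ h0, rfl⟩
  have hd : ∀ y, HasDerivAt (w σ) (dY w σ y) y := fun y =>
    hasDerivAt_dY one_ne_zero isOpen_univ hw.smooth.contDiffOn (mem_univ (σ, y))
  have ck : ∀ m, Continuous fun y => kernD m (2 * κ * (τ - σ)) (θ - y) := fun m =>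
    (continuous_iff_continuousAt.2 fun x => (hasDerivAt_kernD hv m x).continuousAt).comp
      (by fun_prop)
  have cw : Continuous (w σ) := hw.smooth.continuous.comp (f := fun y : ℝ => (σ, y)) (by fun_prop)
  have cy : Continuous (dY w σ) :=
    (continuous_dY hw.smooth).comp (f := fun y : ℝ => (σ, y)) (by fun_prop)
  have hyc' : HasCompactSupport (dY w σ) := hyc.deriv
  rw [integral_mul_deriv_eq_deriv_mul_of_integrable
    (u := fun y => kernD 0 (2 * κ * (τ - σ)) (θ - y))
    (u' := fun y => -kernD 1 (2 * κ * (τ - σ)) (θ - y)) (v := w σ)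
    (fun y _ => ((hasDerivAt_kernD hv 0 (θ - y)).comp y
      ((hasDerivAt_id y).const_sub θ)).congr_deriv (by simp))
    (fun y _ => hd y)
    (((ck 0).mul cy).integrable_of_hasCompactSupport hyc'.mul_left)
    (((ck 1).neg.mul cw).integrable_of_hasCompactSupport hyc.mul_left)
    (((ck 0).mul cw).integrable_of_hasCompactSupport hyc.mul_left), ← integral_neg]
  simp

theorem potD_flip (κ : ℝ) (m : ℕ) (w : ℝ → ℝ → ℝ) (τ θ : ℝ) :
    ∫ q : ℝ × ℝ, kernD m (2 * κ * (τ - q.1)) (θ - q.2) * w q.1 (-q.2) =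
      ∫ q : ℝ × ℝ, kernD m (2 * κ * (τ - q.1)) (θ + q.2) * w q.1 q.2 := by
  rw [← integral_flip fun q : ℝ × ℝ => kernD m (2 * κ * (τ - q.1)) (θ + q.2) * w q.1 q.2]
  simp [sub_eq_add_neg]

/-- The odd image moved onto the kernel. -/
theorem potD_odd {m : ℕ} {τ θ : ℝ}
    (hi : ∀ θ', Integrable fun q : ℝ × ℝ => kernD m (2 * κ * (τ - q.1)) (θ' - q.2) * w q.1 q.2) :
    potD κ m (oddImage w) τ θ = ∫ q : ℝ × ℝ,
      (kernD m (2 * κ * (τ - q.1)) (θ - q.2) - kernD m (2 * κ * (τ - q.1)) (θ + q.2)) *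
        w q.1 q.2 := by
  have h2 : Integrable fun q : ℝ × ℝ =>
      kernD m (2 * κ * (τ - q.1)) (θ + q.2) * w q.1 q.2 := by
    refine ((hi (-θ)).const_mul ((-1) ^ m)).congr (Eventually.of_forall fun q => ?_)
    simp only
    rw [show -θ - q.2 = -(θ + q.2) by ring, kernD_neg, ← mul_assoc, ← mul_assoc, ← mul_pow]
    simp
  have h3 : Integrable fun q : ℝ × ℝ =>
      kernD m (2 * κ * (τ - q.1)) (θ - q.2) * w q.1 (-q.2) := by
    simpa [sub_eq_add_neg] using integrable_flip h2
  unfold potD oddImage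
  simp only [sub_mul]
  rw [integral_sub (hi θ) h2, ← potD_flip, ← integral_sub (hi θ) h3]
  exact integral_congr_ae (Eventually.of_forall fun q => mul_sub _ _ _)

/-- Basic properties of heat potentials. -/
theorem potProps : PotStmt := by
  intro κ hκ w t₀ h hw
  have hs := hw.csrc
  obtain ⟨hT, hY⟩ := CSrc.deriv' hw.smooth hw.compact
  refine ⟨contDiff_pot hκ (n := 2) hw.smooth hw.compact, fun τ θ => ?_, fun τ θ hτ => ?_,
    dT_pot hκ hs, dY_pot hκ hs, fun τ θ => ?_, fun τ θ => ?_, fun τ θ => ?_, fun τ θ hτ => ?_⟩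
  · have e2 : dY (dY (pot κ w)) τ θ = pot κ (dY (dY w)) τ θ := by
      rw [show dY (pot κ w) = pot κ (dY w) from funext fun s => funext (dY_pot hκ hs s),
        dY_pot hκ hY]
    rw [dT_pot hκ hs, e2, ← pot_source hκ hw.smooth hw.compact τ θ, pot, pot, pot,
      ← integral_const_mul, ← integral_add]
    · exact integral_congr_ae (Eventually.of_forall fun p => by ring)
    · refine Integrable.const_mul ?_ κ
      simpa [kernD_zero, Function.uncurry] using integrable_pot (zero_le_one : 0 ≤ 1) hκ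
        (continuous_dY hY.smooth) (compact_dY hY) (τ, θ)
    · simpa [kernD_zero, Function.uncurry] using integrable_pot (zero_le_one : 0 ≤ 1) hκ
        (f := fun p : ℝ × ℝ => dT w p.1 p.2 - κ * dY (dY w) p.1 p.2)
        ((continuous_dT hs.smooth).sub (continuous_const.mul (continuous_dY hY.smooth)))
        ((compact_dT hs).sub ((compact_dY hY).mul_left (f := fun _ : ℝ × ℝ => κ))) (τ, θ)
  · rw [pot_eq_potD, potD]
    refine integral_eq_zero_of_ae (Eventually.of_forall fun q => ?_)
    rcases eq_or_ne (w q.1 q.2) 0 with h0 | h0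
    · simp [h0]
    · have := (hw.supp _ _ h0).1
      simp [kernD_of_nonpos (mul_nonpos_of_nonneg_of_nonpos (by linarith : 0 ≤ 2 * κ)
        (by linarith : τ - q.1 ≤ 0))]
  · rw [show dT (pot κ w) = pot κ (dT w) from funext fun s => funext (dT_pot hκ hs s),
      dT_pot hκ hT]
  · rw [show dY (pot κ w) = pot κ (dY w) from funext fun s => funext (dY_pot hκ hs s),
      dY_pot hκ hY]
  · rw [pot_eq_potD, potD_odd fun θ' => integrable_potD hκ zero_le_one hw.smooth.continuous
      hw.compact τ θ', pot_eq_potD, pot_eq_potD, potD, potD]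
    simp only [sub_mul]
    have e : ∀ q : ℝ × ℝ, kernD 0 (2 * κ * (τ - q.1)) (θ + q.2) =
        kernD 0 (2 * κ * (τ - q.1)) (-θ - q.2) := fun q => by
      rw [show -θ - q.2 = -(θ + q.2) by ring, kernD_neg, pow_zero, one_mul]
    simp only [e]
    exact integral_sub (integrable_potD hκ zero_le_one hw.smooth.continuous hw.compact τ θ)
      (integrable_potD hκ zero_le_one hw.smooth.continuous hw.compact τ (-θ))
  · have e1 : ∀ t, t₀ + h < t → dT (pot κ w) t θ = κ * potD κ 2 w t θ := fun t ht => by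
      have := (hasDerivAt_potD_time hκ hw 0 ht θ).deriv
      simpa [dT, ← pot_eq_potD] using this
    rw [iteratedDeriv_pot hκ hw hτ 4]
    refine HasDerivAt.deriv ?_
    refine (((hasDerivAt_potD_time hκ hw 2 hτ θ).const_mul κ).congr_of_eventuallyEq ?_).congr_deriv
      (by ring)
    filter_upwards [Ioi_mem_nhds hτ] with t ht using e1 t ht

/-- Testing a potential against later data is testing the source against the heat average. -/
theorem dual : DualStmt := by
  intro κ hκ w t₀ h T g hw hT hg hsupp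
  obtain ⟨C, hC⟩ := potD_bound_late hκ hw 0 (sub_pos.2 hT)
  have hI : Integrable (Function.uncurry fun (p q : ℝ × ℝ) =>
      g p * (kernD 0 (2 * κ * (p.1 - q.1)) (p.2 - q.2) * w q.1 q.2))
      ((volume : Measure (ℝ × ℝ)).prod volume) := by
    refine ((hg.norm.mul_prod hw.integrable_abs).const_mul C).mono'
      (hg.aestronglyMeasurable.comp_fst.mul
        (((measurable_kernD_sub κ 0 ((measurable_fst.comp measurable_fst).sub
          (measurable_fst.comp measurable_snd)) ((measurable_snd.comp measurable_fst).sub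
          (measurable_snd.comp measurable_snd))).mul
          (hw.cont.measurable.comp measurable_snd)).aestronglyMeasurable))
      (Eventually.of_forall fun z => ?_)
    simp only [Function.uncurry, Real.norm_eq_abs]
    rw [abs_mul, mul_left_comm C]
    rcases eq_or_ne (g z.1) 0 with h0 | h0
    · simp [h0]
    · exact mul_le_mul_of_nonneg_left (hC _ _ (by linarith [hsupp _ h0]) z.2) (abs_nonneg _)
  calc ∫ p : ℝ × ℝ, g p * pot κ w p.1 p.2
      = ∫ p : ℝ × ℝ, ∫ q : ℝ × ℝ,
          g p * (kernD 0 (2 * κ * (p.1 - q.1)) (p.2 - q.2) * w q.1 q.2) := by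
        simp only [pot_eq_potD, potD, integral_const_mul]
    _ = ∫ q : ℝ × ℝ, ∫ p : ℝ × ℝ,
          g p * (kernD 0 (2 * κ * (p.1 - q.1)) (p.2 - q.2) * w q.1 q.2) :=
        integral_integral_swap hI
    _ = _ := by
        refine integral_congr_ae (Eventually.of_forall fun q => ?_)
        simp only [heatAvg, ← integral_const_mul]
        refine integral_congr_ae (Eventually.of_forall fun p => ?_)
        simp only
        rw [show q.2 - p.2 = -(p.2 - q.2) by ring, kernD_neg]
        ring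

end Vale.Agent.P363.Ext.Heat
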