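import Vale.Agent.P363.Ext.Heat.Avg

/-!
Taylor expansion of heat averages in backward caloric polynomials.
-/

noncomputable section

namespace Vale.Agent.P363.Ext.Heat

open MeasureTheory Filter Set
open scoped BigOperators Topology

variable {κ : ℝ} {g : ℝ × ℝ → ℝ} {N : ℕ} {T A : ℝ}

/-- The normalised backward heat polynomial. -/
def hq (κ : ℝ) (i : ℕ) (t s : ℝ) : ℝ := Caloric.heatPoly κ i (t, s) / (i.factorial : ℝ)

theorem hq_const (κ t s : ℝ) : hq κ 0 t s = 1 ∧ hq κ 1 t s = s := by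
  simp [hq, Caloric.heatPoly]

theorem hasDerivAt_hq_space (κ : ℝ) {i : ℕ} (hi : i < 9) (t s : ℝ) :
    HasDerivAt (fun x => hq κ (i + 1) t x) (hq κ i t s) s := by
  have h := (HasDerivAt.fun_sum (u := Finset.range ((i + 1) / 2 + 1)) fun j _ =>
    (hasDerivAt_pow (i + 1 - 2 * j) s).const_mul
      (((i + 1).factorial : ℝ) / (j.factorial * (i + 1 - 2 * j).factorial) * (-κ * t) ^ j)
    ).div_const ((i + 1).factorial : ℝ)
  refine h.congr_deriv ?_
  interval_cases i <;> simp [hq, Caloric.heatPoly, Finset.sum_range_succ, Nat.factorial] <;> ring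

theorem hasDerivAt_hq_time (κ : ℝ) {i : ℕ} (hi : i < 8) (t s : ℝ) :
    HasDerivAt (fun x => hq κ (i + 2) x s) (-κ * hq κ i t s) t := by
  have h := (HasDerivAt.fun_sum (u := Finset.range ((i + 2) / 2 + 1)) fun j _ =>
    ((((hasDerivAt_id' t).const_mul (-κ)).pow j).const_mul
      (((i + 2).factorial : ℝ) / (j.factorial * (i + 2 - 2 * j).factorial))).mul_const
      (s ^ (i + 2 - 2 * j))).div_const ((i + 2).factorial : ℝ)
  refine h.congr_deriv ?_
  interval_cases i <;> simp [hq, Caloric.heatPoly, Finset.sum_range_succ, Nat.factorial] <;> ring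

/-- The Taylor polynomial of the `m`-th derivative. -/
def avgTaylor (κ : ℝ) (g : ℝ × ℝ → ℝ) (m : ℕ) (t s : ℝ) : ℝ :=
  ∑ i ∈ Finset.range (10 - m), heatAvg κ g (m + i) 0 0 * hq κ i t s

theorem avgTaylor_eq (κ : ℝ) (g : ℝ × ℝ → ℝ) (m : ℕ) (t s : ℝ) :
    ∑ i ∈ Finset.range (10 - m),
        heatAvg κ g (m + i) 0 0 / (i.factorial : ℝ) * Caloric.heatPoly κ i (t, s) =
      avgTaylor κ g m t s :=
  Finset.sum_congr rfl fun i _ => by rw [hq]; ring

theorem avgTaylor_zero (κ : ℝ) (g : ℝ × ℝ → ℝ) {m : ℕ} (hm : m ≤ 9) :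
    avgTaylor κ g m 0 0 = heatAvg κ g m 0 0 := by
  rw [avgTaylor, show 10 - m = (9 - m) + 1 by omega, Finset.sum_range_succ', (hq_const κ 0 0).1,
    Finset.sum_eq_zero fun i hi => ?_]
  · simp
  · have := Finset.mem_range.1 hi
    have : hq κ (i + 1) 0 0 = 0 := by
      have hi9 : i < 9 := by omega
      interval_cases i <;> simp [hq, Caloric.heatPoly, Finset.sum_range_succ]
    rw [this, mul_zero]

theorem hasDerivAt_avgTaylor_space (κ : ℝ) (g : ℝ × ℝ → ℝ) {m : ℕ} (hm : m ≤ 9) (t s : ℝ) :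
    HasDerivAt (avgTaylor κ g m t) (avgTaylor κ g (m + 1) t s) s := by
  have e : avgTaylor κ g m t = fun x => (∑ i ∈ Finset.range (9 - m),
      heatAvg κ g (m + 1 + i) 0 0 * hq κ (i + 1) t x) + heatAvg κ g m 0 0 := by
    funext x
    rw [avgTaylor, show 10 - m = (9 - m) + 1 by omega, Finset.sum_range_succ', (hq_const κ t x).1,
      mul_one, add_zero]
    congr 1
    exact Finset.sum_congr rfl fun i _ => by rw [show m + (i + 1) = m + 1 + i by omega]
  rw [e, avgTaylor, show 10 - (m + 1) = 9 - m by omega]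
  exact (HasDerivAt.fun_sum fun i hi => (hasDerivAt_hq_space κ
    (show i < 9 by have := Finset.mem_range.1 hi; omega) t s).const_mul _).add_const _

theorem hasDerivAt_avgTaylor_time (κ : ℝ) (g : ℝ × ℝ → ℝ) {m : ℕ} (hm : m ≤ 9) (t s : ℝ) :
    HasDerivAt (fun x => avgTaylor κ g m x s) (-κ * avgTaylor κ g (m + 2) t s) t := by
  rcases eq_or_lt_of_le hm with rfl | hm
  · simp only [avgTaylor]
    simpa [(hq_const κ _ _).1] using hasDerivAt_const t (heatAvg κ g 9 0 0)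
  have e : (fun x => avgTaylor κ g m x s) = fun x => (∑ i ∈ Finset.range (8 - m),
      heatAvg κ g (m + 2 + i) 0 0 * hq κ (i + 2) x s) +
      (heatAvg κ g (m + 1) 0 0 * s + heatAvg κ g m 0 0) := by
    funext x
    rw [avgTaylor, show 10 - m = (8 - m) + 1 + 1 by omega, Finset.sum_range_succ',
      Finset.sum_range_succ', zero_add, (hq_const κ x s).1, (hq_const κ x s).2, mul_one, add_zero,
      add_assoc]
    congr 1
    exact Finset.sum_congr rfl fun i _ => by rw [show m + (i + 1 + 1) = m + 2 + i by omega]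
  rw [e, avgTaylor, show 10 - (m + 2) = 8 - m by omega, Finset.mul_sum]
  refine ((HasDerivAt.fun_sum fun i hi => (hasDerivAt_hq_time κ
    (show i < 8 by have := Finset.mem_range.1 hi; omega) t s).const_mul _).add_const _
    ).congr_deriv (Finset.sum_congr rfl fun i _ => ?_)
  ring

/-- Mean value bound from the origin. -/
theorem abs_sub_le_of_deriv_bound {f f' : ℝ → ℝ} {C : ℝ} {I : Set ℝ} (hI : Convex ℝ I)
    (hd : ∀ x ∈ I, HasDerivAt f (f' x) x) (hb : ∀ x ∈ I, |f' x| ≤ C) {a b : ℝ} (ha : a ∈ I)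
    (hb' : b ∈ I) : |f b - f a| ≤ C * |b - a| := by
  simpa [Real.norm_eq_abs] using hI.norm_image_sub_le_of_norm_hasDerivWithin_le
    (fun x hx => (hd x hx).hasDerivWithinAt)
    (fun x hx => (Real.norm_eq_abs _).trans_le (hb x hx)) ha hb'

/-- The remainder of the expansion, at every order up to eleven. -/
theorem remainder_bound (hκ : 0 < κ) (N : ℕ) : ∀ (d m : ℕ), m + d = 11 →
    ∃ C : ℝ, 0 ≤ C ∧ ∀ (g : ℝ × ℝ → ℝ) (T A ρ : ℝ), LateData g N T A →
      0 < ρ → 10 * ρ ^ 2 ≤ T → ∀ t s : ℝ, 0 ≤ t → t ≤ 5 * ρ ^ 2 → |s| ≤ ρ →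
        |heatAvg κ g m t s - avgTaylor κ g m t s| ≤ C * A * (ρ ^ 2 / T) ^ 5 / ρ ^ m := by
  have hgeo : ∀ {T ρ : ℝ}, 0 < ρ → 10 * ρ ^ 2 ≤ T → ρ ≤ Real.sqrt T := fun {T ρ} hρ hT =>
    Real.le_sqrt_of_sq_le (by nlinarith [sq_nonneg ρ])
  have htop : ∀ m : ℕ, 10 ≤ m → m ≤ 11 → ∃ C : ℝ, 0 ≤ C ∧
      ∀ (g : ℝ × ℝ → ℝ) (T A ρ : ℝ), LateData g N T A →
      0 < ρ → 10 * ρ ^ 2 ≤ T → ∀ t s : ℝ, 0 ≤ t → t ≤ 5 * ρ ^ 2 → |s| ≤ ρ →
        |heatAvg κ g m t s - avgTaylor κ g m t s| ≤ C * A * (ρ ^ 2 / T) ^ 5 / ρ ^ m := by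
    intro m h10 h11
    obtain ⟨C, hC⟩ := avg κ hκ N m
    refine ⟨max C 0, le_max_right _ _, fun g T A ρ h hρ hT t s ht0 ht hs => ?_⟩
    have hr := Real.sqrt_pos.2 h.pos
    rw [avgTaylor, show 10 - m = 0 by omega, Finset.range_zero, Finset.sum_empty, sub_zero]
    refine ((hC g T A h t s ht0 (by nlinarith) (hs.trans (hgeo hρ hT))).2.2).trans ?_
    have hA0 := h.A_nonneg
    have e : (ρ / Real.sqrt T) ^ m ≤ (ρ ^ 2 / T) ^ 5 := by
      rw [show (ρ ^ 2 / T) ^ 5 = (ρ / Real.sqrt T) ^ 10 by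
        rw [show (10 : ℕ) = 2 * 5 from rfl, pow_mul, div_pow ρ _ 2, Real.sq_sqrt h.pos.le]]
      exact pow_le_pow_of_le_one (by positivity) ((div_le_one hr).2 (hgeo hρ hT)) h10
    calc C * A / Real.sqrt T ^ m = C * A * (ρ / Real.sqrt T) ^ m / ρ ^ m := by
          rw [div_pow]; field_simp
      _ ≤ max C 0 * A * (ρ / Real.sqrt T) ^ m / ρ ^ m := by gcongr; exact le_max_left _ _
      _ ≤ _ := by gcongr
  intro d
  induction d using Nat.strong_induction_on with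
  | _ d ih =>
    intro m hmd
    rcases le_or_gt 10 m with h10 | h10
    · exact htop m h10 (by omega)
    obtain ⟨C₁, hC₁0, hC₁⟩ := ih (d - 1) (by omega) (m + 1) (by omega)
    obtain ⟨C₂, hC₂0, hC₂⟩ := ih (d - 2) (by omega) (m + 2) (by omega)
    obtain ⟨C₀, hA⟩ := avg κ hκ N m
    refine ⟨C₁ + 5 * κ * C₂, by positivity, fun g T A ρ h hρ hT t s ht0 ht hs => ?_⟩
    have hA0 := h.A_nonneg
    have hρT := hgeo hρ hT
    set R := fun τ x => heatAvg κ g m τ x - avgTaylor κ g m τ x with hR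
    have h0 : R 0 0 = 0 := by simp [hR, avgTaylor_zero κ g (show m ≤ 9 by omega)]
    have hs1 : |R 0 s - R 0 0| ≤ C₁ * A * (ρ ^ 2 / T) ^ 5 / ρ ^ (m + 1) * |s - 0| := by
      refine abs_sub_le_of_deriv_bound (f := R 0)
        (f' := fun x => heatAvg κ g (m + 1) 0 x - avgTaylor κ g (m + 1) 0 x) (convex_Icc (-ρ) ρ) (fun x hx => ?_) (fun x hx => ?_)
        ⟨by linarith, hρ.le⟩ (abs_le.1 hs)
      · exact ((hA g T A h 0 x le_rfl (by linarith [h.pos])
          ((abs_le.2 hx).trans hρT)).1).sub (hasDerivAt_avgTaylor_space κ g (by omega) 0 x)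
      · exact hC₁ g T A ρ h hρ hT 0 x le_rfl (by positivity) (abs_le.2 hx)
    have ht1 : |R t s - R 0 s| ≤ κ * (C₂ * A * (ρ ^ 2 / T) ^ 5 / ρ ^ (m + 2)) * |t - 0| := by
      refine abs_sub_le_of_deriv_bound (f := fun τ => R τ s) (f' := fun x =>
        -κ * heatAvg κ g (m + 2) x s - -κ * avgTaylor κ g (m + 2) x s) (convex_Icc 0 (5 * ρ ^ 2))
        (fun x hx => ?_) (fun x hx => ?_) ⟨le_rfl, by positivity⟩ ⟨ht0, ht⟩
      · exact ((hA g T A h x s hx.1 (by nlinarith [hx.2]) (hs.trans hρT)).2.1).sub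
          (hasDerivAt_avgTaylor_time κ g (by omega) x s)
      · rw [← mul_sub, abs_mul, abs_neg, abs_of_pos hκ]
        exact mul_le_mul_of_nonneg_left (hC₂ g T A ρ h hρ hT x s hx.1 hx.2 hs) hκ.le
    rw [sub_zero] at hs1 ht1
    rw [abs_of_nonneg ht0] at ht1
    have k1 : C₁ * A * (ρ ^ 2 / T) ^ 5 / ρ ^ (m + 1) * |s| ≤
        C₁ * A * (ρ ^ 2 / T) ^ 5 / ρ ^ (m + 1) * ρ :=
      mul_le_mul_of_nonneg_left hs (by have := h.pos; positivity)
    have k2 : κ * (C₂ * A * (ρ ^ 2 / T) ^ 5 / ρ ^ (m + 2)) * t ≤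
        κ * (C₂ * A * (ρ ^ 2 / T) ^ 5 / ρ ^ (m + 2)) * (5 * ρ ^ 2) :=
      mul_le_mul_of_nonneg_left ht (by have := h.pos; positivity)
    have e : (C₁ + 5 * κ * C₂) * A * (ρ ^ 2 / T) ^ 5 / ρ ^ m =
        C₁ * A * (ρ ^ 2 / T) ^ 5 / ρ ^ (m + 1) * ρ +
          κ * (C₂ * A * (ρ ^ 2 / T) ^ 5 / ρ ^ (m + 2)) * (5 * ρ ^ 2) := by
      rw [pow_succ _ m, pow_add _ m 2]
      field_simp
    rw [e]
    calc |R t s| = |(R t s - R 0 s) + (R 0 s - R 0 0)| := by rw [h0]; ring_nf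
      _ ≤ |R t s - R 0 s| + |R 0 s - R 0 0| := abs_add_le _ _
      _ ≤ _ := by linarith

/-- Taylor expansion of heat averages in backward caloric polynomials. -/
theorem taylor : TaylorStmt := by
  intro κ hκ N
  choose C hC0 hC using fun m : Fin 11 => remainder_bound hκ N (11 - m) m (by omega)
  refine ⟨∑ m, C m, fun g T A ρ h hρ hT t s ht0 ht hs m hm => ?_⟩
  rw [avgTaylor_eq]
  refine (hC ⟨m, by omega⟩ g T A ρ h hρ hT t s ht0 ht hs).trans ?_
  have hA := h.A_nonneg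
  have := h.pos
  gcongr
  exact Finset.single_le_sum (fun i _ => hC0 i) (Finset.mem_univ (⟨m, by omega⟩ : Fin 11))

end Vale.Agent.P363.Ext.Heat
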